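import Vale.Agent.Lib.P113.EffDefs

section
namespace Vale.Agent.Lib.P113

/-! Arithmetic on coded rationals, with primitive recursiveness. -/

/-- the natural number `n` as a coded rational -/
def QQ.ofNat (n : ℕ) : QQ := (n, 0, 0)

/-- the quotient `a / (b + 1)` of natural numbers as a coded rational -/
def QQ.frac (a b : ℕ) : QQ := (a, 0, b)

def QQ.add (p q : QQ) : QQ :=
  (p.1 * (q.2.2 + 1) + q.1 * (p.2.2 + 1), p.2.1 * (q.2.2 + 1) + q.2.1 * (p.2.2 + 1),
    (p.2.2 + 1) * (q.2.2 + 1) - 1)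

def QQ.neg (p : QQ) : QQ := (p.2.1, p.1, p.2.2)

def QQ.sub (p q : QQ) : QQ := QQ.add p (QQ.neg q)

def QQ.mul (p q : QQ) : QQ :=
  (p.1 * q.1 + p.2.1 * q.2.1, p.1 * q.2.1 + p.2.1 * q.1, (p.2.2 + 1) * (q.2.2 + 1) - 1)

/-- inverse, with the inverse of zero equal to zero -/
def QQ.inv (p : QQ) : QQ :=
  if p.2.1 < p.1 then (p.2.2 + 1, 0, p.1 - p.2.1 - 1)
  else if p.1 < p.2.1 then (0, p.2.2 + 1, p.2.1 - p.1 - 1) else (0, 0, 0)

def QQ.pow (p : QQ) (e : ℕ) : QQ := Nat.rec (QQ.ofNat 1) (fun _ acc => QQ.mul acc p) e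

/-- test `p ≤ q` -/
def QQ.le (p q : QQ) : Bool :=
  decide (p.1 * (q.2.2 + 1) + q.2.1 * (p.2.2 + 1) ≤ q.1 * (p.2.2 + 1) + p.2.1 * (q.2.2 + 1))

/-- test `p < q` -/
def QQ.lt (p q : QQ) : Bool :=
  decide (p.1 * (q.2.2 + 1) + q.2.1 * (p.2.2 + 1) < q.1 * (p.2.2 + 1) + p.2.1 * (q.2.2 + 1))

/-- the integer part, as a coded rational -/
def QQ.floor (p : QQ) : QQ :=
  if p.2.1 ≤ p.1 then ((p.1 - p.2.1) / (p.2.2 + 1), 0, 0)
  else (0, (p.2.1 - p.1 + p.2.2) / (p.2.2 + 1), 0)

/-- the integer part of a nonnegative coded rational, as a natural number (zero for negative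
ones) -/
def QQ.floorNat (p : QQ) : ℕ := (p.1 - p.2.1) / (p.2.2 + 1)

/-- an upper bound for the absolute value: a natural number `≥ |p|` -/
def QQ.bound (p : QQ) : ℕ := p.1 + p.2.1

theorem QQ.ofNat_val (n : ℕ) : (QQ.ofNat n).val = (n : ℝ) := by
  simp [QQ.ofNat, QQ.val]

theorem QQ.frac_val (a b : ℕ) : (QQ.frac a b).val = (a : ℝ) / ((b : ℝ) + 1) := by
  simp [QQ.frac, QQ.val]

/-- the denominator of a sum or a product -/
theorem QQ.den_cast (a b : ℕ) :
    (((a + 1) * (b + 1) - 1 : ℕ) : ℝ) + 1 = ((a : ℝ) + 1) * ((b : ℝ) + 1) := by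
  have h : (a + 1) * (b + 1) - 1 + 1 = (a + 1) * (b + 1) :=
    Nat.sub_add_cancel (Nat.mul_pos (Nat.succ_pos a) (Nat.succ_pos b))
  have h' : (((a + 1) * (b + 1) - 1 + 1 : ℕ) : ℝ) = (((a + 1) * (b + 1) : ℕ) : ℝ) := by rw [h]
  rw [Nat.cast_add, Nat.cast_one] at h'
  rw [h']
  push_cast
  ring

theorem QQ.add_val (p q : QQ) : (QQ.add p q).val = p.val + q.val := by
  obtain ⟨a, b, c⟩ := p
  obtain ⟨a', b', c'⟩ := q
  have hc : (c : ℝ) + 1 ≠ 0 := by positivity
  have hc' : (c' : ℝ) + 1 ≠ 0 := by positivity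
  simp only [QQ.add, QQ.val]
  rw [QQ.den_cast]
  push_cast
  field_simp
  ring

theorem QQ.neg_val (p : QQ) : (QQ.neg p).val = - p.val := by
  simp only [QQ.neg, QQ.val]
  ring

theorem QQ.sub_val (p q : QQ) : (QQ.sub p q).val = p.val - q.val := by
  rw [QQ.sub, QQ.add_val, QQ.neg_val]
  ring

theorem QQ.mul_val (p q : QQ) : (QQ.mul p q).val = p.val * q.val := by
  obtain ⟨a, b, c⟩ := p
  obtain ⟨a', b', c'⟩ := q
  have hc : (c : ℝ) + 1 ≠ 0 := by positivity
  have hc' : (c' : ℝ) + 1 ≠ 0 := by positivity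
  simp only [QQ.mul, QQ.val]
  rw [QQ.den_cast]
  push_cast
  field_simp
  ring

/-- a positive difference of natural numbers, shifted -/
theorem QQ.sub_pred_cast {a b : ℕ} (h : b < a) : ((a - b - 1 : ℕ) : ℝ) + 1 = (a : ℝ) - (b : ℝ) := by
  have h1 : a - b - 1 + 1 = a - b := Nat.sub_add_cancel (Nat.sub_pos_of_lt h)
  have h' : ((a - b - 1 + 1 : ℕ) : ℝ) = ((a - b : ℕ) : ℝ) := by rw [h1]
  rw [Nat.cast_add, Nat.cast_one, Nat.cast_sub h.le] at h'
  exact h'

theorem QQ.inv_val (p : QQ) : (QQ.inv p).val = (p.val)⁻¹ := by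
  obtain ⟨a, b, c⟩ := p
  have hc : (c : ℝ) + 1 ≠ 0 := by positivity
  simp only [QQ.inv]
  split_ifs with h1 h2
  · simp only [QQ.val]
    rw [QQ.sub_pred_cast h1]
    push_cast
    rw [inv_div]
    ring
  · simp only [QQ.val]
    rw [QQ.sub_pred_cast h2]
    push_cast
    rw [inv_div]
    have hne : (b : ℝ) - (a : ℝ) ≠ 0 := by
      have : (a : ℝ) < (b : ℝ) := by exact_mod_cast h2
      linarith
    have hne' : (a : ℝ) - (b : ℝ) ≠ 0 := by
      have : (a : ℝ) < (b : ℝ) := by exact_mod_cast h2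
      linarith
    field_simp
    ring
  · have hab : a = b := by omega
    subst hab
    simp [QQ.val]

theorem QQ.pow_val (p : QQ) (e : ℕ) : (QQ.pow p e).val = p.val ^ e := by
  induction e with
  | zero =>
    show (QQ.ofNat 1).val = _
    rw [QQ.ofNat_val]
    simp
  | succ n ih =>
    show (QQ.mul (QQ.pow p n) p).val = _
    rw [QQ.mul_val, ih, pow_succ]

theorem QQ.le_iff (p q : QQ) : QQ.le p q = true ↔ p.val ≤ q.val := by
  obtain ⟨a, b, c⟩ := p
  obtain ⟨a', b', c'⟩ := q
  have hc : (0 : ℝ) < (c : ℝ) + 1 := by positivity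
  have hc' : (0 : ℝ) < (c' : ℝ) + 1 := by positivity
  simp only [QQ.le, QQ.val, decide_eq_true_eq]
  rw [div_le_div_iff₀ hc hc']
  constructor
  · intro h
    have h' : ((a * (c' + 1) + b' * (c + 1) : ℕ) : ℝ) ≤ ((a' * (c + 1) + b * (c' + 1) : ℕ) : ℝ) := by
      exact_mod_cast h
    push_cast at h'
    linarith
  · intro h
    have h' : ((a * (c' + 1) + b' * (c + 1) : ℕ) : ℝ) ≤ ((a' * (c + 1) + b * (c' + 1) : ℕ) : ℝ) := by
      push_cast
      linarith
    exact_mod_cast h'

theorem QQ.lt_iff (p q : QQ) : QQ.lt p q = true ↔ p.val < q.val := by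
  obtain ⟨a, b, c⟩ := p
  obtain ⟨a', b', c'⟩ := q
  have hc : (0 : ℝ) < (c : ℝ) + 1 := by positivity
  have hc' : (0 : ℝ) < (c' : ℝ) + 1 := by positivity
  simp only [QQ.lt, QQ.val, decide_eq_true_eq]
  rw [div_lt_div_iff₀ hc hc']
  constructor
  · intro h
    have h' : ((a * (c' + 1) + b' * (c + 1) : ℕ) : ℝ) < ((a' * (c + 1) + b * (c' + 1) : ℕ) : ℝ) := by
      exact_mod_cast h
    push_cast at h'
    linarith
  · intro h
    have h' : ((a * (c' + 1) + b' * (c + 1) : ℕ) : ℝ) < ((a' * (c + 1) + b * (c' + 1) : ℕ) : ℝ) := by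
      push_cast
      linarith
    exact_mod_cast h'

/-- the integer part of a quotient of natural numbers -/
theorem QQ.floor_nat_div (m c : ℕ) :
    ⌊(m : ℝ) / ((c : ℝ) + 1)⌋ = ((m / (c + 1) : ℕ) : ℤ) := by
  have hc : (0 : ℝ) < (c : ℝ) + 1 := by positivity
  have h1 : m / (c + 1) * (c + 1) ≤ m := Nat.div_mul_le_self _ _
  have h2 : m < m / (c + 1) * (c + 1) + (c + 1) := Nat.lt_div_mul_add (Nat.succ_pos c)
  have h1' : ((m / (c + 1) : ℕ) : ℝ) * ((c : ℝ) + 1) ≤ (m : ℝ) := by
    have := (Nat.cast_le (α := ℝ)).mpr h1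
    push_cast at this
    exact this
  have h2' : (m : ℝ) < ((m / (c + 1) : ℕ) : ℝ) * ((c : ℝ) + 1) + ((c : ℝ) + 1) := by
    have := (Nat.cast_lt (α := ℝ)).mpr h2
    push_cast at this
    exact this
  rw [Int.floor_eq_iff]
  constructor
  · rw [Int.cast_natCast, le_div_iff₀ hc]
    exact h1'
  · rw [Int.cast_natCast, div_lt_iff₀ hc]
    linarith

/-- the integer part of the opposite of a quotient of natural numbers -/
theorem QQ.floor_neg_nat_div (m c : ℕ) :
    ⌊-((m : ℝ) / ((c : ℝ) + 1))⌋ = -(((m + c) / (c + 1) : ℕ) : ℤ) := by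
  have hc : (0 : ℝ) < (c : ℝ) + 1 := by positivity
  have h1 : (m + c) / (c + 1) * (c + 1) ≤ m + c := Nat.div_mul_le_self _ _
  have h2 : m + c < (m + c) / (c + 1) * (c + 1) + (c + 1) := Nat.lt_div_mul_add (Nat.succ_pos c)
  have h1' : (((m + c) / (c + 1) : ℕ) : ℝ) * ((c : ℝ) + 1) ≤ (m : ℝ) + (c : ℝ) := by
    have := (Nat.cast_le (α := ℝ)).mpr h1
    push_cast at this
    exact this
  have h2' : (m : ℝ) + (c : ℝ) < (((m + c) / (c + 1) : ℕ) : ℝ) * ((c : ℝ) + 1) + ((c : ℝ) + 1) := by
    have := (Nat.cast_lt (α := ℝ)).mpr h2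
    push_cast at this
    exact this
  have h2'' : (m : ℝ) + (c : ℝ) + 1 ≤ (((m + c) / (c + 1) : ℕ) : ℝ) * ((c : ℝ) + 1) + ((c : ℝ) + 1) := by
    have h3 : m + c + 1 ≤ (m + c) / (c + 1) * (c + 1) + (c + 1) := h2
    have := (Nat.cast_le (α := ℝ)).mpr h3
    push_cast at this
    exact this
  rw [Int.floor_eq_iff]
  constructor
  · rw [Int.cast_neg, Int.cast_natCast, neg_le_neg_iff, div_le_iff₀ hc]
    linarith
  · rw [Int.cast_neg, Int.cast_natCast]
    have h4 : (((m + c) / (c + 1) : ℕ) : ℝ) - 1 < (m : ℝ) / ((c : ℝ) + 1) := by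
      rw [lt_div_iff₀ hc]
      linarith
    linarith

theorem QQ.floor_val (p : QQ) : (QQ.floor p).val = (⌊p.val⌋ : ℝ) := by
  obtain ⟨a, b, c⟩ := p
  simp only [QQ.floor]
  split_ifs with h
  · have e : QQ.val (a, b, c) = ((a - b : ℕ) : ℝ) / ((c : ℝ) + 1) := by
      simp only [QQ.val]
      rw [Nat.cast_sub h]
    rw [e, QQ.floor_nat_div]
    simp only [QQ.val, Int.cast_natCast, Nat.cast_zero, sub_zero, zero_add, div_one]
  · have hab : a ≤ b := by omega
    have e : QQ.val (a, b, c) = -(((b - a : ℕ) : ℝ) / ((c : ℝ) + 1)) := by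
      simp only [QQ.val]
      rw [Nat.cast_sub hab]
      ring
    rw [e, QQ.floor_neg_nat_div]
    simp only [QQ.val, Int.cast_neg, Int.cast_natCast, Nat.cast_zero, zero_sub, zero_add, div_one]

theorem QQ.floorNat_val (p : QQ) (h : 0 ≤ p.val) : ((QQ.floorNat p : ℕ) : ℤ) = ⌊p.val⌋ := by
  obtain ⟨a, b, c⟩ := p
  have hc : (0 : ℝ) < (c : ℝ) + 1 := by positivity
  have hba : b ≤ a := by
    by_contra hcon
    have hlt : (a : ℝ) < (b : ℝ) := by exact_mod_cast (not_le.mp hcon)
    have hneg : QQ.val (a, b, c) < 0 := by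
      simp only [QQ.val]
      exact div_neg_of_neg_of_pos (by linarith) hc
    linarith
  have e : QQ.val (a, b, c) = ((a - b : ℕ) : ℝ) / ((c : ℝ) + 1) := by
    simp only [QQ.val]
    rw [Nat.cast_sub hba]
  rw [e, QQ.floor_nat_div]
  rfl

theorem QQ.abs_le_bound (p : QQ) : |p.val| ≤ (QQ.bound p : ℝ) := by
  obtain ⟨a, b, c⟩ := p
  simp only [QQ.val, QQ.bound]
  have hc : (1 : ℝ) ≤ (c : ℝ) + 1 := by linarith [Nat.cast_nonneg (α := ℝ) c]
  rw [abs_div, abs_of_pos (by positivity : (0 : ℝ) < (c : ℝ) + 1)]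
  have h1 : |(a : ℝ) - (b : ℝ)| ≤ (a : ℝ) + (b : ℝ) := by
    rw [abs_le]
    constructor <;> linarith [Nat.cast_nonneg (α := ℝ) a, Nat.cast_nonneg (α := ℝ) b]
  calc |(a : ℝ) - (b : ℝ)| / ((c : ℝ) + 1) ≤ |(a : ℝ) - (b : ℝ)| := div_le_self (abs_nonneg _) hc
    _ ≤ (a : ℝ) + (b : ℝ) := h1
    _ = ((a + b : ℕ) : ℝ) := by push_cast; ring

theorem QQ.ofNat_primrec : Primrec QQ.ofNat := by
  unfold QQ.ofNat
  exact Primrec.pair Primrec.id (Primrec.pair (Primrec.const 0) (Primrec.const 0))

theorem QQ.frac_primrec : Primrec₂ QQ.frac := by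
  unfold QQ.frac
  exact Primrec.pair Primrec.fst (Primrec.pair (Primrec.const 0) Primrec.snd)

theorem QQ.add_primrec : Primrec₂ QQ.add := by
  have p1 : Primrec (fun x : QQ × QQ => x.1.1) := Primrec.fst.comp Primrec.fst
  have p2 : Primrec (fun x : QQ × QQ => x.1.2.1) := Primrec.fst.comp (Primrec.snd.comp Primrec.fst)
  have p3 : Primrec (fun x : QQ × QQ => x.1.2.2 + 1) :=
    Primrec.succ.comp (Primrec.snd.comp (Primrec.snd.comp Primrec.fst))
  have q1 : Primrec (fun x : QQ × QQ => x.2.1) := Primrec.fst.comp Primrec.snd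
  have q2 : Primrec (fun x : QQ × QQ => x.2.2.1) := Primrec.fst.comp (Primrec.snd.comp Primrec.snd)
  have q3 : Primrec (fun x : QQ × QQ => x.2.2.2 + 1) :=
    Primrec.succ.comp (Primrec.snd.comp (Primrec.snd.comp Primrec.snd))
  unfold QQ.add
  exact Primrec.pair
    (Primrec.nat_add.comp (Primrec.nat_mul.comp p1 q3) (Primrec.nat_mul.comp q1 p3))
    (Primrec.pair
      (Primrec.nat_add.comp (Primrec.nat_mul.comp p2 q3) (Primrec.nat_mul.comp q2 p3))
      (Primrec.nat_sub.comp (Primrec.nat_mul.comp p3 q3) (Primrec.const 1)))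

theorem QQ.neg_primrec : Primrec QQ.neg := by
  unfold QQ.neg
  exact Primrec.pair (Primrec.fst.comp Primrec.snd)
    (Primrec.pair Primrec.fst (Primrec.snd.comp Primrec.snd))

theorem QQ.sub_primrec : Primrec₂ QQ.sub := by
  unfold QQ.sub
  exact QQ.add_primrec.comp Primrec.fst (QQ.neg_primrec.comp Primrec.snd)

theorem QQ.mul_primrec : Primrec₂ QQ.mul := by
  have p1 : Primrec (fun x : QQ × QQ => x.1.1) := Primrec.fst.comp Primrec.fst
  have p2 : Primrec (fun x : QQ × QQ => x.1.2.1) := Primrec.fst.comp (Primrec.snd.comp Primrec.fst)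
  have p3 : Primrec (fun x : QQ × QQ => x.1.2.2 + 1) :=
    Primrec.succ.comp (Primrec.snd.comp (Primrec.snd.comp Primrec.fst))
  have q1 : Primrec (fun x : QQ × QQ => x.2.1) := Primrec.fst.comp Primrec.snd
  have q2 : Primrec (fun x : QQ × QQ => x.2.2.1) := Primrec.fst.comp (Primrec.snd.comp Primrec.snd)
  have q3 : Primrec (fun x : QQ × QQ => x.2.2.2 + 1) :=
    Primrec.succ.comp (Primrec.snd.comp (Primrec.snd.comp Primrec.snd))
  unfold QQ.mul
  exact Primrec.pair
    (Primrec.nat_add.comp (Primrec.nat_mul.comp p1 q1) (Primrec.nat_mul.comp p2 q2))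
    (Primrec.pair
      (Primrec.nat_add.comp (Primrec.nat_mul.comp p1 q2) (Primrec.nat_mul.comp p2 q1))
      (Primrec.nat_sub.comp (Primrec.nat_mul.comp p3 q3) (Primrec.const 1)))

theorem QQ.inv_primrec : Primrec QQ.inv := by
  have a : Primrec (fun p : QQ => p.1) := Primrec.fst
  have b : Primrec (fun p : QQ => p.2.1) := Primrec.fst.comp Primrec.snd
  have c : Primrec (fun p : QQ => p.2.2) := Primrec.snd.comp Primrec.snd
  unfold QQ.inv
  refine Primrec.ite (Primrec.nat_lt.comp b a) ?_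
    (Primrec.ite (Primrec.nat_lt.comp a b) ?_ (Primrec.const (0, 0, 0)))
  · exact Primrec.pair (Primrec.succ.comp c) (Primrec.pair (Primrec.const 0)
      (Primrec.nat_sub.comp (Primrec.nat_sub.comp a b) (Primrec.const 1)))
  · exact Primrec.pair (Primrec.const 0) (Primrec.pair (Primrec.succ.comp c)
      (Primrec.nat_sub.comp (Primrec.nat_sub.comp b a) (Primrec.const 1)))

theorem QQ.pow_primrec : Primrec₂ QQ.pow := by
  have h : Primrec (fun x : QQ × ℕ => (x.2).rec (motive := fun _ => QQ) (QQ.ofNat 1)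
      (fun n IH => QQ.mul IH x.1)) :=
    Primrec.nat_rec' (f := fun x : QQ × ℕ => x.2) (g := fun _ => QQ.ofNat 1)
      (h := fun x y => QQ.mul y.2 x.1) Primrec.snd (Primrec.const _)
      (QQ.mul_primrec.comp (Primrec.snd.comp Primrec.snd) (Primrec.fst.comp Primrec.fst))
  exact h

theorem QQ.le_primrec : Primrec₂ QQ.le := by
  have p1 : Primrec (fun x : QQ × QQ => x.1.1) := Primrec.fst.comp Primrec.fst
  have p2 : Primrec (fun x : QQ × QQ => x.1.2.1) := Primrec.fst.comp (Primrec.snd.comp Primrec.fst)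
  have p3 : Primrec (fun x : QQ × QQ => x.1.2.2 + 1) :=
    Primrec.succ.comp (Primrec.snd.comp (Primrec.snd.comp Primrec.fst))
  have q1 : Primrec (fun x : QQ × QQ => x.2.1) := Primrec.fst.comp Primrec.snd
  have q2 : Primrec (fun x : QQ × QQ => x.2.2.1) := Primrec.fst.comp (Primrec.snd.comp Primrec.snd)
  have q3 : Primrec (fun x : QQ × QQ => x.2.2.2 + 1) :=
    Primrec.succ.comp (Primrec.snd.comp (Primrec.snd.comp Primrec.snd))
  unfold QQ.le
  exact (Primrec.nat_le.comp
    (Primrec.nat_add.comp (Primrec.nat_mul.comp p1 q3) (Primrec.nat_mul.comp q2 p3))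
    (Primrec.nat_add.comp (Primrec.nat_mul.comp q1 p3) (Primrec.nat_mul.comp p2 q3))).decide

theorem QQ.lt_primrec : Primrec₂ QQ.lt := by
  have p1 : Primrec (fun x : QQ × QQ => x.1.1) := Primrec.fst.comp Primrec.fst
  have p2 : Primrec (fun x : QQ × QQ => x.1.2.1) := Primrec.fst.comp (Primrec.snd.comp Primrec.fst)
  have p3 : Primrec (fun x : QQ × QQ => x.1.2.2 + 1) :=
    Primrec.succ.comp (Primrec.snd.comp (Primrec.snd.comp Primrec.fst))
  have q1 : Primrec (fun x : QQ × QQ => x.2.1) := Primrec.fst.comp Primrec.snd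
  have q2 : Primrec (fun x : QQ × QQ => x.2.2.1) := Primrec.fst.comp (Primrec.snd.comp Primrec.snd)
  have q3 : Primrec (fun x : QQ × QQ => x.2.2.2 + 1) :=
    Primrec.succ.comp (Primrec.snd.comp (Primrec.snd.comp Primrec.snd))
  unfold QQ.lt
  exact (Primrec.nat_lt.comp
    (Primrec.nat_add.comp (Primrec.nat_mul.comp p1 q3) (Primrec.nat_mul.comp q2 p3))
    (Primrec.nat_add.comp (Primrec.nat_mul.comp q1 p3) (Primrec.nat_mul.comp p2 q3))).decide

theorem QQ.floor_primrec : Primrec QQ.floor := by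
  have a : Primrec (fun p : QQ => p.1) := Primrec.fst
  have b : Primrec (fun p : QQ => p.2.1) := Primrec.fst.comp Primrec.snd
  have c : Primrec (fun p : QQ => p.2.2) := Primrec.snd.comp Primrec.snd
  unfold QQ.floor
  refine Primrec.ite (Primrec.nat_le.comp b a) ?_ ?_
  · exact Primrec.pair (Primrec.nat_div.comp (Primrec.nat_sub.comp a b) (Primrec.succ.comp c))
      (Primrec.pair (Primrec.const 0) (Primrec.const 0))
  · exact Primrec.pair (Primrec.const 0) (Primrec.pair
      (Primrec.nat_div.comp (Primrec.nat_add.comp (Primrec.nat_sub.comp b a) c)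
        (Primrec.succ.comp c)) (Primrec.const 0))

theorem QQ.floorNat_primrec : Primrec QQ.floorNat := by
  have a : Primrec (fun p : QQ => p.1) := Primrec.fst
  have b : Primrec (fun p : QQ => p.2.1) := Primrec.fst.comp Primrec.snd
  have c : Primrec (fun p : QQ => p.2.2) := Primrec.snd.comp Primrec.snd
  unfold QQ.floorNat
  exact Primrec.nat_div.comp (Primrec.nat_sub.comp a b) (Primrec.succ.comp c)

theorem QQ.bound_primrec : Primrec QQ.bound := by
  have a : Primrec (fun p : QQ => p.1) := Primrec.fst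
  have b : Primrec (fun p : QQ => p.2.1) := Primrec.fst.comp Primrec.snd
  unfold QQ.bound
  exact Primrec.nat_add.comp a b

end Vale.Agent.Lib.P113
end

section
namespace Vale.Agent.Lib.P113

/-- The real number `c p` is computable uniformly in the parameter `p ∈ S`: a computable
function returns, for every `p` and `n`, a coded rational within `1 / (n + 1)` of `c p`
(no requirement for `p ∉ S`). -/
def CRealOn {P : Type} [Primcodable P] (S : Set P) (c : P → ℝ) : Prop :=
  ∃ F : P → ℕ → QQ, Computable₂ F ∧ ∀ p ∈ S, ∀ n : ℕ, |(F p n).val - c p| ≤ 1 / ((n : ℝ) + 1)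

namespace CRealOn

variable {P : Type} [Primcodable P] {S : Set P} {c d : P → ℝ}

lemma one_div_succ_pos (n : ℕ) : (0 : ℝ) < 1 / ((n : ℝ) + 1) := by positivity

lemma one_div_succ_le_one (n : ℕ) : (1 : ℝ) / ((n : ℝ) + 1) ≤ 1 := by
  rw [div_le_one (by positivity)]
  have : (0 : ℝ) ≤ (n : ℝ) := Nat.cast_nonneg n
  linarith

theorem of_rat (q : P → QQ) (hq : Computable q) : CRealOn S (fun p => (q p).val) := by
  refine ⟨fun p _ => q p, hq.comp Computable.fst, ?_⟩
  intro p _ n
  rw [sub_self, abs_zero]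
  exact (one_div_succ_pos n).le

theorem congr (h : ∀ p ∈ S, c p = d p) (hc : CRealOn S c) : CRealOn S d := by
  obtain ⟨F, hF, hFa⟩ := hc
  refine ⟨F, hF, ?_⟩
  intro p hp n
  rw [← h p hp]
  exact hFa p hp n

theorem mono {T : Set P} (h : T ⊆ S) (hc : CRealOn S c) : CRealOn T c := by
  obtain ⟨F, hF, hFa⟩ := hc
  exact ⟨F, hF, fun p hp n => hFa p (h hp) n⟩

theorem comp {Q : Type} [Primcodable Q] {T : Set Q} (φ : Q → P) (hφ : Computable φ)
    (hT : ∀ q ∈ T, φ q ∈ S) (hc : CRealOn S c) : CRealOn T (fun q => c (φ q)) := by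
  obtain ⟨F, hF, hFa⟩ := hc
  refine ⟨fun q n => F (φ q) n, hF.comp (hφ.comp Computable.fst) Computable.snd, ?_⟩
  intro q hq n
  exact hFa (φ q) (hT q hq) n

theorem natCast (f : P → ℕ) (hf : Computable f) : CRealOn S (fun p => (f p : ℝ)) := by
  refine ⟨fun p _ => QQ.ofNat (f p), QQ.ofNat_primrec.to_comp.comp (hf.comp Computable.fst), ?_⟩
  intro p _ n
  rw [QQ.ofNat_val, sub_self, abs_zero]
  exact (one_div_succ_pos n).le

theorem add (hc : CRealOn S c) (hd : CRealOn S d) : CRealOn S (fun p => c p + d p) := by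
  obtain ⟨F, hF, hFa⟩ := hc
  obtain ⟨G, hG, hGa⟩ := hd
  refine ⟨fun p n => QQ.add (F p (2 * n + 1)) (G p (2 * n + 1)), ?_, ?_⟩
  · have h2 : Computable₂ (fun (_ : P) (n : ℕ) => 2 * n + 1) :=
      (Primrec.nat_double_succ.comp Primrec.snd).to_comp
    exact (QQ.add_primrec.to_comp).comp (hF.comp Computable.fst h2) (hG.comp Computable.fst h2)
  · intro p hp n
    rw [QQ.add_val]
    have h1 := hFa p hp (2 * n + 1)
    have h2 := hGa p hp (2 * n + 1)
    have e : (1 : ℝ) / (((2 * n + 1 : ℕ) : ℝ) + 1) = (1 / ((n : ℝ) + 1)) / 2 := by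
      push_cast
      have hn : (0 : ℝ) < (n : ℝ) + 1 := by positivity
      field_simp
      ring
    rw [e] at h1 h2
    have e2 : (F p (2 * n + 1)).val + (G p (2 * n + 1)).val - (c p + d p) =
        ((F p (2 * n + 1)).val - c p) + ((G p (2 * n + 1)).val - d p) := by ring
    rw [e2]
    calc |((F p (2 * n + 1)).val - c p) + ((G p (2 * n + 1)).val - d p)|
        ≤ |(F p (2 * n + 1)).val - c p| + |(G p (2 * n + 1)).val - d p| := abs_add_le _ _
      _ ≤ (1 / ((n : ℝ) + 1)) / 2 + (1 / ((n : ℝ) + 1)) / 2 := add_le_add h1 h2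
      _ = 1 / ((n : ℝ) + 1) := by ring

theorem neg (hc : CRealOn S c) : CRealOn S (fun p => - c p) := by
  obtain ⟨F, hF, hFa⟩ := hc
  refine ⟨fun p n => QQ.neg (F p n), QQ.neg_primrec.to_comp.comp hF, ?_⟩
  intro p hp n
  rw [QQ.neg_val]
  have e : -(F p n).val - -c p = -((F p n).val - c p) := by ring
  rw [e, abs_neg]
  exact hFa p hp n

theorem sub (hc : CRealOn S c) (hd : CRealOn S d) : CRealOn S (fun p => c p - d p) := by
  have h := hc.add hd.neg
  refine h.congr ?_
  intro p _
  ring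

lemma abs_le_bound_add_one {q : QQ} {x : ℝ} (h : |q.val - x| ≤ 1) :
    |x| ≤ (QQ.bound q : ℝ) + 1 := by
  have h1 := QQ.abs_le_bound q
  have e : x = q.val - (q.val - x) := by ring
  calc |x| = |q.val - (q.val - x)| := by rw [← e]
    _ ≤ |q.val| + |q.val - x| := abs_sub _ _
    _ ≤ (QQ.bound q : ℝ) + 1 := add_le_add h1 h

lemma mul_error {x y c d δ Bc Bd : ℝ} (hx : |x - c| ≤ δ) (hy : |y - d| ≤ δ)
    (hc : |c| ≤ Bc + 1) (hd : |d| ≤ Bd + 1) (hδ0 : 0 ≤ δ) (hδ1 : δ ≤ 1) :
    |x * y - c * d| ≤ δ * (Bc + Bd + 3) := by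
  have hyabs : |y| ≤ Bd + 2 := by
    have e : y = d + (y - d) := by ring
    calc |y| = |d + (y - d)| := by rw [← e]
      _ ≤ |d| + |y - d| := abs_add_le _ _
      _ ≤ (Bd + 1) + 1 := add_le_add hd (hy.trans hδ1)
      _ = Bd + 2 := by ring
  have e : x * y - c * d = (x - c) * y + c * (y - d) := by ring
  have hBc : 0 ≤ Bc + 1 := (abs_nonneg c).trans hc
  rw [e]
  calc |(x - c) * y + c * (y - d)| ≤ |(x - c) * y| + |c * (y - d)| := abs_add_le _ _
    _ = |x - c| * |y| + |c| * |y - d| := by rw [abs_mul, abs_mul]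
    _ ≤ δ * (Bd + 2) + (Bc + 1) * δ := by
        apply add_le_add
        · exact mul_le_mul hx hyabs (abs_nonneg _) hδ0
        · exact mul_le_mul hc hy (abs_nonneg _) hBc
    _ = δ * (Bc + Bd + 3) := by ring

theorem mul (hc : CRealOn S c) (hd : CRealOn S d) : CRealOn S (fun p => c p * d p) := by
  obtain ⟨F, hF, hFa⟩ := hc
  obtain ⟨G, hG, hGa⟩ := hd
  refine ⟨fun p n => QQ.mul
    (F p ((n + 1) * (QQ.bound (F p 0) + QQ.bound (G p 0) + 3)))
    (G p ((n + 1) * (QQ.bound (F p 0) + QQ.bound (G p 0) + 3))), ?_, ?_⟩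
  · have hF0 : Computable (fun a : P × ℕ => F a.1 0) := hF.comp Computable.fst (Computable.const 0)
    have hG0 : Computable (fun a : P × ℕ => G a.1 0) := hG.comp Computable.fst (Computable.const 0)
    have hbF : Computable (fun a : P × ℕ => QQ.bound (F a.1 0)) :=
      QQ.bound_primrec.to_comp.comp hF0
    have hbG : Computable (fun a : P × ℕ => QQ.bound (G a.1 0)) :=
      QQ.bound_primrec.to_comp.comp hG0
    have hsum : Computable (fun a : P × ℕ => QQ.bound (F a.1 0) + QQ.bound (G a.1 0) + 3) :=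
      Primrec.nat_add.to_comp.comp (Primrec.nat_add.to_comp.comp hbF hbG) (Computable.const 3)
    have hn1 : Computable (fun a : P × ℕ => a.2 + 1) := Primrec.succ.to_comp.comp Computable.snd
    have hN : Computable (fun a : P × ℕ =>
        (a.2 + 1) * (QQ.bound (F a.1 0) + QQ.bound (G a.1 0) + 3)) :=
      Primrec.nat_mul.to_comp.comp hn1 hsum
    exact (QQ.mul_primrec.to_comp).comp (hF.comp Computable.fst hN) (hG.comp Computable.fst hN)
  · intro p hp n
    rw [QQ.mul_val]
    set B : ℕ := QQ.bound (F p 0) + QQ.bound (G p 0) + 3 with hB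
    set N : ℕ := (n + 1) * B with hN
    have h1 := hFa p hp N
    have h2 := hGa p hp N
    have hc0 : |c p| ≤ (QQ.bound (F p 0) : ℝ) + 1 := by
      apply abs_le_bound_add_one
      have := hFa p hp 0
      simpa using this
    have hd0 : |d p| ≤ (QQ.bound (G p 0) : ℝ) + 1 := by
      apply abs_le_bound_add_one
      have := hGa p hp 0
      simpa using this
    have hδ0 : (0 : ℝ) ≤ 1 / ((N : ℝ) + 1) := (one_div_succ_pos N).le
    have hδ1 : (1 : ℝ) / ((N : ℝ) + 1) ≤ 1 := one_div_succ_le_one N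
    have key := mul_error h1 h2 hc0 hd0 hδ0 hδ1
    refine key.trans ?_
    have hBpos : (0 : ℝ) < (B : ℝ) := by
      rw [hB]
      push_cast
      positivity
    have hBe : (QQ.bound (F p 0) : ℝ) + (QQ.bound (G p 0) : ℝ) + 3 = (B : ℝ) := by
      rw [hB]
      push_cast
      ring
    rw [hBe]
    have hn : (0 : ℝ) < (n : ℝ) + 1 := by positivity
    have hNe : (N : ℝ) = ((n : ℝ) + 1) * (B : ℝ) := by
      rw [hN]
      push_cast
      ring
    rw [hNe, div_mul_eq_mul_div, one_mul, div_le_div_iff₀ (by positivity) hn]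
    nlinarith

/-- definition by cases on a computable test; each branch only has to be computable where it
is used -/
theorem ite (b : P → Bool) (hb : Computable b) (hc : CRealOn (S ∩ {p | b p = true}) c)
    (hd : CRealOn (S ∩ {p | b p = false}) d) :
    CRealOn S (fun p => if b p = true then c p else d p) := by
  obtain ⟨F, hF, hFa⟩ := hc
  obtain ⟨G, hG, hGa⟩ := hd
  refine ⟨fun p n => cond (b p) (F p n) (G p n), ?_, ?_⟩
  · exact Computable.cond (hb.comp Computable.fst) hF hG
  · intro p hp n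
    show |(cond (b p) (F p n) (G p n)).val - (if b p = true then c p else d p)| ≤ _
    cases hbp : b p
    · rw [cond_false, if_neg Bool.false_ne_true]
      exact hGa p ⟨hp, hbp⟩ n
    · rw [cond_true, if_pos rfl]
      exact hFa p ⟨hp, hbp⟩ n

lemma inv_error {x c δ : ℝ} (hc : 1 ≤ c) (hx : 1 ≤ x) (h : |x - c| ≤ δ) : |x⁻¹ - c⁻¹| ≤ δ := by
  have hx0 : 0 < x := by linarith
  have hc0 : 0 < c := by linarith
  have e : x⁻¹ - c⁻¹ = (c - x) / (x * c) := by
    field_simp
  rw [e, abs_div, abs_of_pos (mul_pos hx0 hc0), abs_sub_comm]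
  have h1 : (1 : ℝ) ≤ x * c := by nlinarith
  calc |x - c| / (x * c) ≤ |x - c| / 1 :=
        div_le_div_of_nonneg_left (abs_nonneg _) one_pos h1
    _ = |x - c| := div_one _
    _ ≤ δ := h

lemma inv_error' {x c δ : ℝ} (hc : 1 ≤ c) (hx : x < 1) (h : |x - c| ≤ δ) :
    |(1 : ℝ) - c⁻¹| ≤ δ := by
  have hc0 : 0 < c := by linarith
  have e : (1 : ℝ) - c⁻¹ = (c - 1) / c := by
    field_simp
  have h0 : 0 ≤ (c - 1) / c := div_nonneg (by linarith) hc0.le
  rw [e, abs_of_nonneg h0]
  have h1 : (c - 1) / c ≤ c - 1 := by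
    rw [div_le_iff₀ hc0]
    nlinarith
  have h2 : c - 1 ≤ |x - c| := by
    rw [abs_sub_comm]
    have : c - 1 ≤ c - x := by linarith
    exact this.trans (le_abs_self _)
  linarith

theorem inv_of_one_le (h1 : ∀ p ∈ S, 1 ≤ c p) (hc : CRealOn S c) :
    CRealOn S (fun p => (c p)⁻¹) := by
  obtain ⟨F, hF, hFa⟩ := hc
  refine ⟨fun p n => cond (QQ.le (QQ.ofNat 1) (F p n)) (QQ.inv (F p n)) (QQ.ofNat 1), ?_, ?_⟩
  · exact Computable.cond (QQ.le_primrec.to_comp.comp (Computable.const (QQ.ofNat 1)) hF)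
      (QQ.inv_primrec.to_comp.comp hF) (Computable.const (QQ.ofNat 1))
  · intro p hp n
    have h := hFa p hp n
    show |(cond (QQ.le (QQ.ofNat 1) (F p n)) (QQ.inv (F p n)) (QQ.ofNat 1)).val - (c p)⁻¹| ≤ _
    cases hle : QQ.le (QQ.ofNat 1) (F p n)
    · rw [cond_false]
      have hlt : (F p n).val < 1 := by
        by_contra hcon
        have h' : (QQ.ofNat 1).val ≤ (F p n).val := by
          rw [QQ.ofNat_val]
          simpa using not_lt.mp hcon
        rw [(QQ.le_iff _ _).mpr h'] at hle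
        exact Bool.noConfusion hle
      rw [QQ.ofNat_val]
      simpa using inv_error' (h1 p hp) hlt h
    · rw [cond_true]
      have hx : 1 ≤ (F p n).val := by
        have := (QQ.le_iff _ _).mp hle
        rw [QQ.ofNat_val] at this
        simpa using this
      rw [QQ.inv_val]
      exact inv_error (h1 p hp) hx h

end CRealOn

end Vale.Agent.Lib.P113
end

section
namespace Vale.Agent.Lib.P113

namespace CRealOn

variable {P : Type} [Primcodable P] {S : Set P}

/-- the recursion adding up the approximations `G (p, m) N` for `m < k` -/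
def sumRec (G : P × ℕ → ℕ → QQ) (p : P) (N : ℕ) (k : ℕ) : QQ :=
  Nat.rec (QQ.ofNat 0) (fun m acc => QQ.add acc (G (p, m) N)) k

omit [Primcodable P] in
theorem sumRec_succ (G : P × ℕ → ℕ → QQ) (p : P) (N k : ℕ) :
    sumRec G p N (k + 1) = QQ.add (sumRec G p N k) (G (p, k) N) := rfl

omit [Primcodable P] in
theorem sumRec_error (G : P × ℕ → ℕ → QQ) (g : P × ℕ → ℝ) (p : P) (N k : ℕ)
    (h : ∀ m < k, |(G (p, m) N).val - g (p, m)| ≤ 1 / ((N : ℝ) + 1)) :
    |(sumRec G p N k).val - ∑ m ∈ Finset.range k, g (p, m)| ≤ (k : ℝ) / ((N : ℝ) + 1) := by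
  induction k with
  | zero => simp [sumRec, QQ.ofNat_val]
  | succ k ih =>
    rw [sumRec_succ, QQ.add_val, Finset.sum_range_succ]
    have h1 := ih (fun m hm => h m (Nat.lt_succ_of_lt hm))
    have h2 := h k (Nat.lt_succ_self k)
    have e : ((sumRec G p N k).val + (G (p, k) N).val)
        - (∑ m ∈ Finset.range k, g (p, m) + g (p, k))
        = ((sumRec G p N k).val - ∑ m ∈ Finset.range k, g (p, m))
          + ((G (p, k) N).val - g (p, k)) := by ring
    rw [e]
    calc |((sumRec G p N k).val - ∑ m ∈ Finset.range k, g (p, m))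
          + ((G (p, k) N).val - g (p, k))|
        ≤ |(sumRec G p N k).val - ∑ m ∈ Finset.range k, g (p, m)|
          + |(G (p, k) N).val - g (p, k)| := abs_add_le _ _
      _ ≤ (k : ℝ) / ((N : ℝ) + 1) + 1 / ((N : ℝ) + 1) := add_le_add h1 h2
      _ = ((k + 1 : ℕ) : ℝ) / ((N : ℝ) + 1) := by
        push_cast
        ring

theorem sumRec_computable (K : P → ℕ) (hK : Computable K) (G : P × ℕ → ℕ → QQ)
    (hG : Computable₂ G) :
    Computable₂ (fun p n => sumRec G p ((n + 1) * (K p + 1)) (K p)) := by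
  have hmul : Computable₂ (fun a b : ℕ => a * b) := Primrec.nat_mul.to_comp
  have hsucc : Computable Nat.succ := Primrec.succ.to_comp
  have hadd : Computable₂ QQ.add := QQ.add_primrec.to_comp
  have hN : Computable (fun a : P × ℕ => (a.2 + 1) * (K a.1 + 1)) :=
    hmul.comp (hsucc.comp Computable.snd) (hsucc.comp (hK.comp Computable.fst))
  have hh : Computable₂ (fun (a : P × ℕ) (x : ℕ × QQ) =>
      QQ.add x.2 (G (a.1, x.1) ((a.2 + 1) * (K a.1 + 1)))) :=
    (hadd.comp (Computable.snd.comp Computable.snd)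
      (hG.comp (Computable.pair (Computable.fst.comp Computable.fst)
        (Computable.fst.comp Computable.snd)) (hN.comp Computable.fst))).to₂
  exact (Computable.nat_rec (hK.comp Computable.fst) (Computable.const (QQ.ofNat 0)) hh).of_eq
    (fun a => rfl)

/-- sums of computably many uniformly computable reals -/
theorem sum_range (K : P → ℕ) (hK : Computable K) {g : P × ℕ → ℝ}
    (hg : CRealOn {a : P × ℕ | a.1 ∈ S ∧ a.2 < K a.1} g) :
    CRealOn S (fun p => ∑ m ∈ Finset.range (K p), g (p, m)) := by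
  obtain ⟨G, hG, hGa⟩ := hg
  refine ⟨fun p n => sumRec G p ((n + 1) * (K p + 1)) (K p), sumRec_computable K hK G hG, ?_⟩
  intro p hp n
  have h1 := sumRec_error G g p ((n + 1) * (K p + 1)) (K p)
    (fun m hm => hGa (p, m) ⟨hp, hm⟩ ((n + 1) * (K p + 1)))
  refine h1.trans ?_
  rw [div_le_div_iff₀ (by positivity) (by positivity)]
  push_cast
  have hn : (0 : ℝ) ≤ n := Nat.cast_nonneg n
  have hk : (0 : ℝ) ≤ K p := Nat.cast_nonneg (K p)
  nlinarith

theorem sum_getElem_eq {I : Type} (f : I → ℝ) (L : List I) :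
    ∑ m ∈ Finset.range L.length, (L[m]?.map f).getD 0 = (L.map f).sum := by
  induction L with
  | nil => simp
  | cons i L ih =>
    rw [List.length_cons, Finset.sum_range_succ', List.map_cons, List.sum_cons]
    simp only [List.getElem?_cons_succ, List.getElem?_cons_zero, Option.map_some,
      Option.getD_some]
    rw [ih]
    ring

/-- sums over a computable list of indices -/
theorem list_sum {I : Type} [Primcodable I] (l : P → List I) (hl : Computable l) {g : P × I → ℝ}
    (hg : CRealOn {a : P × I | a.1 ∈ S ∧ a.2 ∈ l a.1} g) :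
    CRealOn S (fun p => ((l p).map (fun i => g (p, i))).sum) := by
  obtain ⟨G, hG, hGa⟩ := hg
  have hg' : CRealOn {a : P × ℕ | a.1 ∈ S ∧ a.2 < (l a.1).length}
      (fun a : P × ℕ => ((l a.1)[a.2]?.map (fun i => g (a.1, i))).getD 0) := by
    refine ⟨fun a n => ((l a.1)[a.2]?.map (fun i => G (a.1, i) n)).getD (QQ.ofNat 0), ?_, ?_⟩
    · have ho : Computable (fun x : (P × ℕ) × ℕ => (l x.1.1)[x.1.2]?) :=
        Computable.list_getElem?.comp (hl.comp (Computable.fst.comp Computable.fst))
          (Computable.snd.comp Computable.fst)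
      have hm : Computable₂ (fun (x : (P × ℕ) × ℕ) (i : I) => G (x.1.1, i) x.2) :=
        (hG.comp (Computable.pair
          (Computable.fst.comp (Computable.fst.comp Computable.fst)) Computable.snd)
          (Computable.snd.comp Computable.fst)).to₂
      exact Computable.option_getD (Computable.option_map ho hm) (Computable.const (QQ.ofNat 0))
    · rintro ⟨p, m⟩ ⟨hp, hm⟩ n
      have hm' : m < (l p).length := hm
      have hget : (l p)[m]? = some ((l p)[m]) := List.getElem?_eq_getElem hm'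
      simp only [hget, Option.map_some, Option.getD_some]
      exact hGa (p, (l p)[m]) ⟨hp, List.getElem_mem hm'⟩ n
  have h := sum_range (fun p => (l p).length) (Computable.list_length.comp hl) hg'
  exact congr (fun p _ => sum_getElem_eq (fun i => g (p, i)) (l p)) h

theorem pow_sub_pow_le (x c M : ℝ) (hM : 1 ≤ M) (hx : |x| ≤ M) (hc : |c| ≤ M) (k : ℕ) :
    |x ^ k - c ^ k| ≤ (k : ℝ) * |x - c| * M ^ k := by
  induction k with
  | zero => simp
  | succ k ih =>
    have hM0 : (0 : ℝ) ≤ M := by linarith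
    have e : x ^ (k + 1) - c ^ (k + 1) = x ^ k * (x - c) + (x ^ k - c ^ k) * c := by ring
    rw [e]
    have h1 : |x ^ k * (x - c)| ≤ M ^ k * |x - c| := by
      rw [abs_mul, abs_pow]
      exact mul_le_mul_of_nonneg_right (pow_le_pow_left₀ (abs_nonneg x) hx k) (abs_nonneg _)
    have h2 : |(x ^ k - c ^ k) * c| ≤ ((k : ℝ) * |x - c| * M ^ k) * M := by
      rw [abs_mul]
      exact mul_le_mul ih hc (abs_nonneg c) (by positivity)
    have h3 : M ^ k ≤ M ^ (k + 1) := pow_le_pow_right₀ hM (Nat.le_succ k)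
    have h4 : M ^ k * |x - c| ≤ M ^ (k + 1) * |x - c| :=
      mul_le_mul_of_nonneg_right h3 (abs_nonneg _)
    calc |x ^ k * (x - c) + (x ^ k - c ^ k) * c|
        ≤ |x ^ k * (x - c)| + |(x ^ k - c ^ k) * c| := abs_add_le _ _
      _ ≤ M ^ k * |x - c| + ((k : ℝ) * |x - c| * M ^ k) * M := add_le_add h1 h2
      _ ≤ M ^ (k + 1) * |x - c| + ((k : ℝ) * |x - c| * M ^ k) * M := by linarith
      _ = ((k + 1 : ℕ) : ℝ) * |x - c| * M ^ (k + 1) := by
        push_cast
        ring

theorem pow {c : P → ℝ} (e : P → ℕ) (he : Computable e) (hc : CRealOn S c) :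
    CRealOn S (fun p => c p ^ e p) := by
  obtain ⟨Fc, hFc, hFa⟩ := hc
  refine ⟨fun p n => QQ.pow (Fc p ((n + 1) * e p * (QQ.bound (Fc p 0) + 2) ^ (e p))) (e p),
    ?_, ?_⟩
  · have hmul : Computable₂ (fun a b : ℕ => a * b) := Primrec.nat_mul.to_comp
    have hsucc : Computable Nat.succ := Primrec.succ.to_comp
    have hnadd : Computable₂ (fun a b : ℕ => a + b) := Primrec.nat_add.to_comp
    have hnpow : Computable₂ (fun a b : ℕ => a ^ b) :=
      (Primrec₂.unpaired'.1 Nat.Primrec.pow).to_comp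
    have hqpow : Computable₂ QQ.pow := QQ.pow_primrec.to_comp
    have hbd : Computable QQ.bound := QQ.bound_primrec.to_comp
    have hb : Computable (fun a : P × ℕ => QQ.bound (Fc a.1 0) + 2) :=
      hnadd.comp (hbd.comp (hFc.comp Computable.fst (Computable.const 0))) (Computable.const 2)
    have hpw : Computable (fun a : P × ℕ => (QQ.bound (Fc a.1 0) + 2) ^ (e a.1)) :=
      hnpow.comp hb (he.comp Computable.fst)
    have hm1 : Computable (fun a : P × ℕ => (a.2 + 1) * e a.1) :=
      hmul.comp (hsucc.comp Computable.snd) (he.comp Computable.fst)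
    have hN : Computable (fun a : P × ℕ =>
        (a.2 + 1) * e a.1 * (QQ.bound (Fc a.1 0) + 2) ^ (e a.1)) := hmul.comp hm1 hpw
    exact hqpow.comp (hFc.comp Computable.fst hN) (he.comp Computable.fst)
  · intro p hp n
    rw [QQ.pow_val]
    have hb0 : (0 : ℝ) ≤ (QQ.bound (Fc p 0) : ℝ) := Nat.cast_nonneg _
    have h0 := hFa p hp 0
    have hbd := QQ.abs_le_bound (Fc p 0)
    have hc0 : |c p| ≤ (QQ.bound (Fc p 0) : ℝ) + 1 := by
      have h1 : |c p| ≤ |(Fc p 0).val| + |(Fc p 0).val - c p| := by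
        have h2 := abs_sub_abs_le_abs_sub (c p) ((Fc p 0).val)
        rw [abs_sub_comm (c p)] at h2
        linarith
      have h3 : |(Fc p 0).val - c p| ≤ 1 := by
        simpa using h0
      linarith
    have hN := hFa p hp ((n + 1) * e p * (QQ.bound (Fc p 0) + 2) ^ (e p))
    have hd1 : |(Fc p ((n + 1) * e p * (QQ.bound (Fc p 0) + 2) ^ (e p))).val - c p| ≤ 1 := by
      refine hN.trans ?_
      rw [div_le_one (by positivity)]
      have : (0 : ℝ) ≤ (((n + 1) * e p * (QQ.bound (Fc p 0) + 2) ^ (e p) : ℕ) : ℝ) :=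
        Nat.cast_nonneg _
      linarith
    have hx : |(Fc p ((n + 1) * e p * (QQ.bound (Fc p 0) + 2) ^ (e p))).val|
        ≤ (QQ.bound (Fc p 0) : ℝ) + 2 := by
      have h2 := abs_sub_abs_le_abs_sub
        ((Fc p ((n + 1) * e p * (QQ.bound (Fc p 0) + 2) ^ (e p))).val) (c p)
      linarith
    have h1 := pow_sub_pow_le (Fc p ((n + 1) * e p * (QQ.bound (Fc p 0) + 2) ^ (e p))).val
      (c p) ((QQ.bound (Fc p 0) : ℝ) + 2) (by linarith) hx (by linarith) (e p)
    refine h1.trans ?_
    have hX : (0 : ℝ) ≤ (e p : ℝ) * ((QQ.bound (Fc p 0) : ℝ) + 2) ^ (e p) := by positivity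
    have hcast : (((n + 1) * e p * (QQ.bound (Fc p 0) + 2) ^ (e p) : ℕ) : ℝ)
        = ((n : ℝ) + 1) * ((e p : ℝ) * ((QQ.bound (Fc p 0) : ℝ) + 2) ^ (e p)) := by
      push_cast
      ring
    rw [hcast] at hN
    have hn : (0 : ℝ) ≤ n := Nat.cast_nonneg n
    calc (e p : ℝ) * |(Fc p ((n + 1) * e p * (QQ.bound (Fc p 0) + 2) ^ (e p))).val - c p|
          * ((QQ.bound (Fc p 0) : ℝ) + 2) ^ (e p)
        = ((e p : ℝ) * ((QQ.bound (Fc p 0) : ℝ) + 2) ^ (e p))
          * |(Fc p ((n + 1) * e p * (QQ.bound (Fc p 0) + 2) ^ (e p))).val - c p| := by ring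
      _ ≤ ((e p : ℝ) * ((QQ.bound (Fc p 0) : ℝ) + 2) ^ (e p))
          * (1 / (((n : ℝ) + 1) * ((e p : ℝ) * ((QQ.bound (Fc p 0) : ℝ) + 2) ^ (e p)) + 1)) :=
        mul_le_mul_of_nonneg_left hN hX
      _ ≤ 1 / ((n : ℝ) + 1) := by
        rw [mul_one_div, div_le_div_iff₀ (by positivity) (by positivity)]
        nlinarith

end CRealOn

end Vale.Agent.Lib.P113
end

section
open scoped ContDiff

namespace Vale.Agent.Lib.P113

/-- Iterated derivatives of a scalar field on `ℝ³` along the coordinate directions listed in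
`L` (the last entry is applied first). -/
noncomputable def iterDS : List (Fin 3) → (Pt → ℝ) → (Pt → ℝ)
  | [], g => g
  | j :: L, g => dX j (iterDS L g)

theorem hasDerivAt_dX_aux {g : Pt → ℝ} (hg : Differentiable ℝ g) (j : Fin 3) (x : Pt) :
    HasDerivAt (fun s : ℝ => g (Function.update x j s)) (fderiv ℝ g x (Pi.single j 1)) (x j) := by
  have hγ : HasDerivAt (fun s : ℝ => (Function.update x j s : Pt)) (Pi.single j 1 : Pt) (x j) :=
    hasDerivAt_update x j (x j)
  have hF' : HasFDerivAt g (fderiv ℝ g x)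
      ((fun s : ℝ => (Function.update x j s : Pt)) (x j)) := by
    show HasFDerivAt g (fderiv ℝ g x) (Function.update x j (x j))
    rw [Function.update_eq_self]
    exact (hg x).hasFDerivAt
  exact hF'.comp_hasDerivAt (x j) hγ

theorem dX_eq_fderiv {g : Pt → ℝ} (hg : Differentiable ℝ g) (j : Fin 3) (x : Pt) :
    dX j g x = fderiv ℝ g x (Pi.single j 1) :=
  (hasDerivAt_dX_aux hg j x).deriv

theorem contDiff_dX_space {g : Pt → ℝ} (hg : ContDiff ℝ ∞ g) (j : Fin 3) :
    ContDiff ℝ ∞ (dX j g) := by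
  have hd : Differentiable ℝ g := hg.differentiable (by simp)
  have h : dX j g = fun x : Pt => fderiv ℝ g x (Pi.single j 1) := by
    funext x
    exact dX_eq_fderiv hd j x
  rw [h]
  exact (hg.fderiv_right (m := ∞) (by simp)).clm_apply contDiff_const

theorem contDiff_iterDS {g : Pt → ℝ} (hg : ContDiff ℝ ∞ g) (L : List (Fin 3)) :
    ContDiff ℝ ∞ (iterDS L g) := by
  induction L with
  | nil => exact hg
  | cons j L ih => exact contDiff_dX_space ih j

theorem dX_const (c : ℝ) (j : Fin 3) : dX j (fun _ : Pt => c) = fun _ => 0 := by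
  funext x
  unfold dX
  exact deriv_const (x j) c

theorem dX_add {g h : Pt → ℝ} (hg : ContDiff ℝ ∞ g) (hh : ContDiff ℝ ∞ h) (j : Fin 3) :
    dX j (fun x => g x + h x) = fun x => dX j g x + dX j h x := by
  have hdg : Differentiable ℝ g := hg.differentiable (by simp)
  have hdh : Differentiable ℝ h := hh.differentiable (by simp)
  funext x
  have h1 := hasDerivAt_dX_aux hdg j x
  have h2 := hasDerivAt_dX_aux hdh j x
  have h3 : HasDerivAt (fun s : ℝ => g (Function.update x j s) + h (Function.update x j s))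
      (fderiv ℝ g x (Pi.single j 1) + fderiv ℝ h x (Pi.single j 1)) (x j) := h1.add h2
  rw [dX_eq_fderiv hdg j x, dX_eq_fderiv hdh j x]
  exact h3.deriv

theorem dX_neg (g : Pt → ℝ) (j : Fin 3) : dX j (fun x => - g x) = fun x => - dX j g x := by
  funext x
  unfold dX
  exact deriv.fun_neg

theorem dX_const_mul (c : ℝ) (g : Pt → ℝ) (j : Fin 3) :
    dX j (fun x => c * g x) = fun x => c * dX j g x := by
  funext x
  unfold dX
  exact deriv_const_mul_field c

theorem dX_mul {g h : Pt → ℝ} (hg : ContDiff ℝ ∞ g) (hh : ContDiff ℝ ∞ h) (j : Fin 3) :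
    dX j (fun x => g x * h x) = fun x => dX j g x * h x + g x * dX j h x := by
  have hdg : Differentiable ℝ g := hg.differentiable (by simp)
  have hdh : Differentiable ℝ h := hh.differentiable (by simp)
  funext x
  have h1 := hasDerivAt_dX_aux hdg j x
  have h2 := hasDerivAt_dX_aux hdh j x
  have h3 : HasDerivAt (fun s : ℝ => g (Function.update x j s) * h (Function.update x j s))
      (fderiv ℝ g x (Pi.single j 1) * h (Function.update x j (x j))
        + g (Function.update x j (x j)) * fderiv ℝ h x (Pi.single j 1)) (x j) := h1.mul h2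
  rw [dX_eq_fderiv hdg j x, dX_eq_fderiv hdh j x]
  have h4 := h3.deriv
  rw [Function.update_eq_self] at h4
  exact h4

theorem dX_sum {ι : Type} (s : Finset ι) {g : ι → Pt → ℝ} (hg : ∀ i ∈ s, ContDiff ℝ ∞ (g i))
    (j : Fin 3) : dX j (fun x => ∑ i ∈ s, g i x) = fun x => ∑ i ∈ s, dX j (g i) x := by
  classical
  induction s using Finset.induction_on with
  | empty =>
    simp only [Finset.sum_empty]
    exact dX_const 0 j
  | insert a s ha ih =>
    have hga : ContDiff ℝ ∞ (g a) := hg a (Finset.mem_insert_self a s)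
    have hgs : ∀ i ∈ s, ContDiff ℝ ∞ (g i) := fun i hi => hg i (Finset.mem_insert_of_mem hi)
    have hsum : ContDiff ℝ ∞ (fun x => ∑ i ∈ s, g i x) := ContDiff.sum hgs
    have h1 : (fun x => ∑ i ∈ insert a s, g i x) = fun x => g a x + ∑ i ∈ s, g i x := by
      funext x
      exact Finset.sum_insert (f := fun i => g i x) ha
    rw [h1, dX_add hga hsum j, ih hgs]
    funext x
    exact (Finset.sum_insert (f := fun i => dX j (g i) x) ha).symm

theorem iterDS_const (c : ℝ) (L : List (Fin 3)) :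
    iterDS L (fun _ : Pt => c) = fun _ => if L = [] then c else 0 := by
  induction L with
  | nil => simp [iterDS]
  | cons j L ih =>
    show dX j (iterDS L (fun _ : Pt => c)) = _
    rw [ih]
    rw [dX_const (if L = [] then c else 0) j]
    simp

theorem iterDS_add {g h : Pt → ℝ} (hg : ContDiff ℝ ∞ g) (hh : ContDiff ℝ ∞ h)
    (L : List (Fin 3)) :
    iterDS L (fun x => g x + h x) = fun x => iterDS L g x + iterDS L h x := by
  induction L with
  | nil => rfl
  | cons j L ih =>
    show dX j (iterDS L (fun x => g x + h x)) = fun x => dX j (iterDS L g) x + dX j (iterDS L h) x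
    rw [ih]
    exact dX_add (contDiff_iterDS hg L) (contDiff_iterDS hh L) j

theorem iterDS_neg (g : Pt → ℝ) (L : List (Fin 3)) :
    iterDS L (fun x => - g x) = fun x => - iterDS L g x := by
  induction L with
  | nil => rfl
  | cons j L ih =>
    show dX j (iterDS L (fun x => - g x)) = fun x => - dX j (iterDS L g) x
    rw [ih]
    exact dX_neg (iterDS L g) j

theorem iterDS_const_mul (c : ℝ) (g : Pt → ℝ) (L : List (Fin 3)) :
    iterDS L (fun x => c * g x) = fun x => c * iterDS L g x := by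
  induction L with
  | nil => rfl
  | cons j L ih =>
    show dX j (iterDS L (fun x => c * g x)) = fun x => c * dX j (iterDS L g) x
    rw [ih]
    exact dX_const_mul c (iterDS L g) j

theorem iterDS_sum {ι : Type} (s : Finset ι) {g : ι → Pt → ℝ}
    (hg : ∀ i ∈ s, ContDiff ℝ ∞ (g i)) (L : List (Fin 3)) :
    iterDS L (fun x => ∑ i ∈ s, g i x) = fun x => ∑ i ∈ s, iterDS L (g i) x := by
  induction L with
  | nil => rfl
  | cons j L ih =>
    show dX j (iterDS L (fun x => ∑ i ∈ s, g i x)) = fun x => ∑ i ∈ s, dX j (iterDS L (g i)) x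
    rw [ih]
    exact dX_sum s (fun i hi => contDiff_iterDS (hg i hi) L) j

theorem iterDS_append (L L' : List (Fin 3)) (g : Pt → ℝ) :
    iterDS (L ++ L') g = iterDS L (iterDS L' g) := by
  induction L with
  | nil => rfl
  | cons j L ih =>
    show dX j (iterDS (L ++ L') g) = dX j (iterDS L (iterDS L' g))
    rw [ih]

end Vale.Agent.Lib.P113
end

section
open scoped ContDiff

namespace Vale.Agent.Lib.P113

/-- The scalar fields `g p` on `ℝ³` are smooth and their iterated derivatives of all orders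
at rational points are computable, uniformly in the parameter `p ∈ S`. -/
def Eff3On {P : Type} [Primcodable P] (S : Set P) (g : P → Pt → ℝ) : Prop :=
  (∀ p ∈ S, ContDiff ℝ ∞ (g p)) ∧
  CRealOn {a : P × List (Fin 3) × (QQ × QQ × QQ) | a.1 ∈ S}
    (fun a => iterDS a.2.1 (g a.1) (QPt a.2.2))

namespace Eff3On

variable {P : Type} [Primcodable P] {S : Set P} {g h : P → Pt → ℝ}

theorem congr (hh : ∀ p ∈ S, g p = h p) (H : Eff3On S g) : Eff3On S h := by
  refine ⟨fun p hp => hh p hp ▸ H.1 p hp, H.2.congr ?_⟩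
  intro a ha
  have ha' : a.1 ∈ S := ha
  rw [hh a.1 ha']

theorem mono {T : Set P} (hT : T ⊆ S) (H : Eff3On S g) : Eff3On T g :=
  ⟨fun p hp => H.1 p (hT hp), H.2.mono (fun _ ha => hT ha)⟩

theorem comp {Q : Type} [Primcodable Q] {T : Set Q} (φ : Q → P) (hφ : Computable φ)
    (hT : ∀ q ∈ T, φ q ∈ S) (H : Eff3On S g) : Eff3On T (fun q => g (φ q)) := by
  refine ⟨fun q hq => H.1 (φ q) (hT q hq), ?_⟩
  exact CRealOn.comp (fun a : Q × List (Fin 3) × (QQ × QQ × QQ) => (φ a.1, a.2))
    (Computable.pair (hφ.comp Computable.fst) Computable.snd) (fun a ha => hT a.1 ha) H.2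

/-- the scalar `c p` as a function of the extended parameter -/
theorem creal_fst {c : P → ℝ} (hc : CRealOn S c) :
    CRealOn {a : P × List (Fin 3) × (QQ × QQ × QQ) | a.1 ∈ S} (fun a => c a.1) :=
  CRealOn.comp (fun a : P × List (Fin 3) × (QQ × QQ × QQ) => a.1) Computable.fst
    (fun _ ha => ha) hc

theorem const {c : P → ℝ} (hc : CRealOn S c) : Eff3On S (fun p _ => c p) := by
  refine ⟨fun _ _ => contDiff_const, ?_⟩
  have hb : Computable (fun a : P × List (Fin 3) × (QQ × QQ × QQ) =>
      decide (a.2.1.length = 0)) :=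
    (PrimrecPred.decide (Primrec.eq.comp (Primrec.list_length.comp
      (Primrec.fst.comp (Primrec.snd :
        Primrec (fun a : P × List (Fin 3) × (QQ × QQ × QQ) => a.2))))
      (Primrec.const 0))).to_comp
  have h1 : CRealOn ({a : P × List (Fin 3) × (QQ × QQ × QQ) | a.1 ∈ S} ∩
      {a | decide (a.2.1.length = 0) = true}) (fun a => c a.1) :=
    (creal_fst hc).mono Set.inter_subset_left
  have h0 : CRealOn ({a : P × List (Fin 3) × (QQ × QQ × QQ) | a.1 ∈ S} ∩
      {a | decide (a.2.1.length = 0) = false}) (fun _ => ((0 : ℕ) : ℝ)) :=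
    CRealOn.natCast (fun _ => 0) (Computable.const 0)
  refine (CRealOn.ite _ hb h1 h0).congr ?_
  intro a _
  simp only
  rw [iterDS_const]
  by_cases hL : a.2.1 = []
  · simp [hL]
  · simp [hL]

theorem add (H : Eff3On S g) (G : Eff3On S h) : Eff3On S (fun p x => g p x + h p x) := by
  refine ⟨fun p hp => (H.1 p hp).add (G.1 p hp), (H.2.add G.2).congr ?_⟩
  intro a ha
  have ha' : a.1 ∈ S := ha
  simp only
  rw [iterDS_add (H.1 a.1 ha') (G.1 a.1 ha')]

theorem neg (H : Eff3On S g) : Eff3On S (fun p x => - g p x) := by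
  refine ⟨fun p hp => (H.1 p hp).neg, H.2.neg.congr ?_⟩
  intro a _
  simp only
  rw [iterDS_neg]

theorem smul {c : P → ℝ} (hc : CRealOn S c) (H : Eff3On S g) :
    Eff3On S (fun p x => c p * g p x) := by
  refine ⟨fun p hp => contDiff_const.mul (H.1 p hp), ((creal_fst hc).mul H.2).congr ?_⟩
  intro a _
  simp only
  rw [iterDS_const_mul]

theorem ite (b : P → Bool) (hb : Computable b) (H : Eff3On (S ∩ {p | b p = true}) g)
    (G : Eff3On (S ∩ {p | b p = false}) h) :
    Eff3On S (fun p => if b p = true then g p else h p) := by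
  refine ⟨?_, ?_⟩
  · intro p hp
    by_cases hbp : b p = true
    · simp only [hbp, if_true]
      exact H.1 p ⟨hp, hbp⟩
    · have hbp' : b p = false := by simpa using hbp
      simp only [hbp', Bool.false_eq_true, if_false]
      exact G.1 p ⟨hp, hbp'⟩
  · have s1 : ({a : P × List (Fin 3) × (QQ × QQ × QQ) | a.1 ∈ S} ∩ {a | b a.1 = true})
        ⊆ {a : P × List (Fin 3) × (QQ × QQ × QQ) | a.1 ∈ S ∩ {p | b p = true}} := by
      intro a ha
      exact ⟨ha.1, ha.2⟩
    have s0 : ({a : P × List (Fin 3) × (QQ × QQ × QQ) | a.1 ∈ S} ∩ {a | b a.1 = false})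
        ⊆ {a : P × List (Fin 3) × (QQ × QQ × QQ) | a.1 ∈ S ∩ {p | b p = false}} := by
      intro a ha
      exact ⟨ha.1, ha.2⟩
    have h1 : CRealOn ({a : P × List (Fin 3) × (QQ × QQ × QQ) | a.1 ∈ S} ∩
        {a | b a.1 = true}) (fun a => iterDS a.2.1 (g a.1) (QPt a.2.2)) :=
      H.2.mono s1
    have h0 : CRealOn ({a : P × List (Fin 3) × (QQ × QQ × QQ) | a.1 ∈ S} ∩
        {a | b a.1 = false}) (fun a => iterDS a.2.1 (h a.1) (QPt a.2.2)) :=
      G.2.mono s0
    refine (CRealOn.ite (fun a : P × List (Fin 3) × (QQ × QQ × QQ) => b a.1)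
      (hb.comp Computable.fst) h1 h0).congr ?_
    intro a _
    simp only
    split_ifs <;> rfl

theorem dX (j : Fin 3) (H : Eff3On S g) :
    Eff3On S (fun p => Vale.Agent.Lib.P113.dX j (g p)) := by
  refine ⟨fun p hp => contDiff_dX_space (H.1 p hp) j, ?_⟩
  have hφ : Computable (fun a : P × List (Fin 3) × (QQ × QQ × QQ) =>
      (a.1, a.2.1 ++ [j], a.2.2)) :=
    Computable.pair Computable.fst (Computable.pair
      (Computable.list_append.comp (Computable.fst.comp Computable.snd) (Computable.const [j]))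
      (Computable.snd.comp Computable.snd))
  refine (CRealOn.comp (fun a : P × List (Fin 3) × (QQ × QQ × QQ) =>
    (a.1, a.2.1 ++ [j], a.2.2)) hφ (fun _ ha => ha) H.2).congr ?_
  intro a _
  simp only
  rw [iterDS_append]
  rfl

/-- sums of computably many uniformly effective fields -/
theorem sum_range (K : P → ℕ) (hK : Computable K) {g : P × ℕ → Pt → ℝ}
    (hg : Eff3On {a : P × ℕ | a.1 ∈ S ∧ a.2 < K a.1} g) :
    Eff3On S (fun p x => ∑ m ∈ Finset.range (K p), g (p, m) x) := by
  refine ⟨fun p hp => ContDiff.sum (fun m hm => hg.1 (p, m) ⟨hp, Finset.mem_range.1 hm⟩), ?_⟩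
  have hφ : Computable (fun b : (P × List (Fin 3) × (QQ × QQ × QQ)) × ℕ =>
      ((b.1.1, b.2), b.1.2)) :=
    Computable.pair (Computable.pair (Computable.fst.comp Computable.fst) Computable.snd)
      (Computable.snd.comp Computable.fst)
  have hm : ∀ b ∈ {b : (P × List (Fin 3) × (QQ × QQ × QQ)) × ℕ |
      b.1 ∈ {a : P × List (Fin 3) × (QQ × QQ × QQ) | a.1 ∈ S} ∧ b.2 < K b.1.1},
      ((b.1.1, b.2), b.1.2) ∈ {a : (P × ℕ) × List (Fin 3) × (QQ × QQ × QQ) |
        a.1 ∈ {a : P × ℕ | a.1 ∈ S ∧ a.2 < K a.1}} := by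
    intro b hb
    exact ⟨hb.1, hb.2⟩
  have h1 : CRealOn {b : (P × List (Fin 3) × (QQ × QQ × QQ)) × ℕ |
      b.1 ∈ {a : P × List (Fin 3) × (QQ × QQ × QQ) | a.1 ∈ S} ∧ b.2 < K b.1.1}
      (fun b => iterDS b.1.2.1 (g (b.1.1, b.2)) (QPt b.1.2.2)) :=
    CRealOn.comp (fun b : (P × List (Fin 3) × (QQ × QQ × QQ)) × ℕ => ((b.1.1, b.2), b.1.2))
      hφ hm hg.2
  refine (CRealOn.sum_range (fun a : P × List (Fin 3) × (QQ × QQ × QQ) => K a.1)
    (hK.comp Computable.fst) h1).congr ?_
  intro a ha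
  have ha' : a.1 ∈ S := ha
  simp only
  rw [iterDS_sum (Finset.range (K a.1))
    (fun m hm => hg.1 (a.1, m) ⟨ha', Finset.mem_range.1 hm⟩)]

end Eff3On

end Vale.Agent.Lib.P113
end

section
open scoped ContDiff

namespace Vale.Agent.Lib.P113

/-- The functions `h p : ℝ → ℝ` are smooth and their derivatives of all orders at rational
points are computable, uniformly in the parameter `p ∈ S`. -/
def Eff1On {P : Type} [Primcodable P] (S : Set P) (h : P → ℝ → ℝ) : Prop :=
  (∀ p ∈ S, ContDiff ℝ ∞ (h p)) ∧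
  CRealOn {a : P × ℕ × QQ | a.1 ∈ S} (fun a => iteratedDeriv a.2.1 (h a.1) a.2.2.val)

/-- the factorial is primitive recursive -/
theorem eff1_primrec_factorial : Primrec Nat.factorial := by
  have h : Primrec (Nat.rec (motive := fun _ => ℕ) 1 (fun n acc => (n + 1) * acc)) :=
    Primrec.nat_rec₁ 1
      (Primrec.nat_mul.comp (Primrec.succ.comp Primrec.fst) Primrec.snd).to₂
  refine h.of_eq (fun n => ?_)
  induction n with
  | zero => rfl
  | succ n ih =>
    rw [Nat.factorial_succ, ← ih]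

/-- binomial coefficients are primitive recursive -/
theorem eff1_primrec_choose : Primrec₂ Nat.choose := by
  have h : Primrec (fun p : ℕ × ℕ => if p.2 ≤ p.1 then
      p.1.factorial / (p.2.factorial * (p.1 - p.2).factorial) else 0) :=
    Primrec.ite (Primrec.nat_le.comp Primrec.snd Primrec.fst)
      (Primrec.nat_div.comp (eff1_primrec_factorial.comp Primrec.fst)
        (Primrec.nat_mul.comp (eff1_primrec_factorial.comp Primrec.snd)
          (eff1_primrec_factorial.comp (Primrec.nat_sub.comp Primrec.fst Primrec.snd))))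
      (Primrec.const 0)
  refine h.of_eq (fun p => ?_)
  split_ifs with hk
  · exact (Nat.choose_eq_factorial_div_factorial hk).symm
  · exact (Nat.choose_eq_zero_of_lt (not_le.1 hk)).symm

/-- the constant zero is uniformly computable -/
theorem eff1_creal_zero {P : Type} [Primcodable P] (S : Set P) : CRealOn S (fun _ : P => (0 : ℝ)) :=
  (CRealOn.natCast (S := S) (fun _ : P => 0) (Computable.const 0)).congr
    (fun _ _ => Nat.cast_zero)

/-- the test whether the order of differentiation equals `k` is computable -/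
theorem eff1_order_test {P : Type} [Primcodable P] (k : ℕ) :
    Computable (fun a : P × ℕ × QQ => decide (a.2.1 = k)) :=
  (PrimrecPred.decide
    (Primrec.eq.comp (Primrec.fst.comp Primrec.snd) (Primrec.const k))).to_comp

namespace Eff1On

variable {P : Type} [Primcodable P] {S : Set P} {h g : P → ℝ → ℝ}

theorem congr (hh : ∀ p ∈ S, h p = g p) (H : Eff1On S h) : Eff1On S g := by
  refine ⟨fun p hp => hh p hp ▸ H.1 p hp, H.2.congr (fun a ha => ?_)⟩
  have ha' : a.1 ∈ S := ha
  simp only [hh a.1 ha']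

theorem mono {T : Set P} (hT : T ⊆ S) (H : Eff1On S h) : Eff1On T h :=
  ⟨fun p hp => H.1 p (hT hp), H.2.mono (fun _ ha => hT ha)⟩

theorem comp {Q : Type} [Primcodable Q] {T : Set Q} (φ : Q → P) (hφ : Computable φ)
    (hT : ∀ q ∈ T, φ q ∈ S) (H : Eff1On S h) : Eff1On T (fun q => h (φ q)) :=
  ⟨fun q hq => H.1 _ (hT q hq),
    H.2.comp (fun a : Q × ℕ × QQ => (φ a.1, a.2))
      ((hφ.comp Computable.fst).pair Computable.snd) (fun a ha => hT a.1 ha)⟩

theorem const {c : P → ℝ} (hc : CRealOn S c) : Eff1On S (fun p _ => c p) := by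
  refine ⟨fun p _ => contDiff_const, ?_⟩
  have h1 : CRealOn ({a : P × ℕ × QQ | a.1 ∈ S} ∩ {a | decide (a.2.1 = 0) = true})
      (fun a => c a.1) :=
    hc.comp (fun a : P × ℕ × QQ => a.1) Computable.fst (fun a ha => ha.1)
  have h2 := CRealOn.ite (S := {a : P × ℕ × QQ | a.1 ∈ S}) (fun a => decide (a.2.1 = 0))
    (eff1_order_test 0) h1 (eff1_creal_zero _)
  refine h2.congr (fun a _ => ?_)
  simp only [decide_eq_true_eq]
  rw [iteratedDeriv_const]

/-- the iterated derivatives of an affine function -/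
theorem _root_.Vale.Agent.Lib.P113.eff1_iteratedDeriv_lin (A B : ℝ) (n : ℕ) (x : ℝ) :
    iteratedDeriv n (fun y : ℝ => A * y + B) x =
      if n = 0 then A * x + B else if n = 1 then A else 0 := by
  have hd : _root_.deriv (fun y : ℝ => A * y + B) = fun _ => A := by
    funext y
    simp
  rcases n with _ | n
  · simp
  · rw [iteratedDeriv_succ', hd, iteratedDeriv_const]
    rcases n with _ | n
    · simp
    · simp

/-- the function `x ↦ a * x + b` with computable rational coefficients -/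
theorem lin (a b : P → QQ) (ha : Computable a) (hb : Computable b) :
    Eff1On S (fun p x => (a p).val * x + (b p).val) := by
  refine ⟨fun p _ => by fun_prop, ?_⟩
  have c1 : CRealOn ({a : P × ℕ × QQ | a.1 ∈ S} ∩ {a | decide (a.2.1 = 0) = true})
      (fun x : P × ℕ × QQ => (a x.1).val * x.2.2.val + (b x.1).val) :=
    ((CRealOn.of_rat (fun x : P × ℕ × QQ => a x.1) (ha.comp Computable.fst)).mul
      (CRealOn.of_rat (fun x : P × ℕ × QQ => x.2.2) (Computable.snd.comp Computable.snd))).add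
      (CRealOn.of_rat (fun x : P × ℕ × QQ => b x.1) (hb.comp Computable.fst))
  have c2 : CRealOn (({a : P × ℕ × QQ | a.1 ∈ S} ∩ {a | decide (a.2.1 = 0) = false}) ∩
      {a | decide (a.2.1 = 1) = true}) (fun x : P × ℕ × QQ => (a x.1).val) :=
    CRealOn.of_rat (fun x : P × ℕ × QQ => a x.1) (ha.comp Computable.fst)
  have c3 := CRealOn.ite (S := {a : P × ℕ × QQ | a.1 ∈ S} ∩ {a | decide (a.2.1 = 0) = false})
    (fun a => decide (a.2.1 = 1)) (eff1_order_test 1) c2 (eff1_creal_zero _)
  have c4 := CRealOn.ite (S := {a : P × ℕ × QQ | a.1 ∈ S}) (fun a => decide (a.2.1 = 0))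
    (eff1_order_test 0) c1 c3
  refine c4.congr (fun x _ => ?_)
  simp only [decide_eq_true_eq]
  rw [eff1_iteratedDeriv_lin]

theorem add (H : Eff1On S h) (G : Eff1On S g) : Eff1On S (fun p x => h p x + g p x) := by
  refine ⟨fun p hp => (H.1 p hp).add (G.1 p hp), (H.2.add G.2).congr (fun a ha => ?_)⟩
  have ha' : a.1 ∈ S := ha
  exact (iteratedDeriv_fun_add ((H.1 _ ha').contDiffAt.of_le (by exact_mod_cast le_top))
    ((G.1 _ ha').contDiffAt.of_le (by exact_mod_cast le_top))).symm

theorem mul (H : Eff1On S h) (G : Eff1On S g) : Eff1On S (fun p x => h p x * g p x) := by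
  refine ⟨fun p hp => (H.1 p hp).mul (G.1 p hp), ?_⟩
  have hch : CRealOn {b : (P × ℕ × QQ) × ℕ | b.1 ∈ {a : P × ℕ × QQ | a.1 ∈ S} ∧ b.2 < b.1.2.1 + 1}
      (fun b => ((b.1.2.1.choose b.2 : ℕ) : ℝ)) :=
    CRealOn.natCast (fun b : (P × ℕ × QQ) × ℕ => b.1.2.1.choose b.2)
      (eff1_primrec_choose.comp (Primrec.fst.comp (Primrec.snd.comp Primrec.fst))
        Primrec.snd).to_comp
  have hH : CRealOn {b : (P × ℕ × QQ) × ℕ | b.1 ∈ {a : P × ℕ × QQ | a.1 ∈ S} ∧ b.2 < b.1.2.1 + 1}
      (fun b => iteratedDeriv b.2 (h b.1.1) b.1.2.2.val) :=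
    H.2.comp (fun b : (P × ℕ × QQ) × ℕ => (b.1.1, b.2, b.1.2.2))
      ((Computable.fst.comp Computable.fst).pair
        (Computable.snd.pair (Computable.snd.comp (Computable.snd.comp Computable.fst))))
      (fun b hb => hb.1)
  have hG : CRealOn {b : (P × ℕ × QQ) × ℕ | b.1 ∈ {a : P × ℕ × QQ | a.1 ∈ S} ∧ b.2 < b.1.2.1 + 1}
      (fun b => iteratedDeriv (b.1.2.1 - b.2) (g b.1.1) b.1.2.2.val) :=
    G.2.comp (fun b : (P × ℕ × QQ) × ℕ => (b.1.1, b.1.2.1 - b.2, b.1.2.2))
      ((Computable.fst.comp Computable.fst).pair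
        (((Primrec.nat_sub.comp (Primrec.fst.comp (Primrec.snd.comp Primrec.fst))
          Primrec.snd).to_comp).pair (Computable.snd.comp (Computable.snd.comp Computable.fst))))
      (fun b hb => hb.1)
  have hsum := CRealOn.sum_range (S := {a : P × ℕ × QQ | a.1 ∈ S}) (fun a => a.2.1 + 1)
    ((Primrec.succ.comp (Primrec.fst.comp Primrec.snd)).to_comp) ((hch.mul hH).mul hG)
  refine hsum.congr (fun a ha => ?_)
  have ha' : a.1 ∈ S := ha
  dsimp only
  exact (iteratedDeriv_fun_mul ((H.1 _ ha').contDiffAt.of_le (by exact_mod_cast le_top))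
    ((G.1 _ ha').contDiffAt.of_le (by exact_mod_cast le_top))).symm

theorem smul {c : P → ℝ} (hc : CRealOn S c) (H : Eff1On S h) :
    Eff1On S (fun p x => c p * h p x) :=
  mul (const hc) H

theorem deriv (H : Eff1On S h) : Eff1On S (fun p => deriv (h p)) := by
  refine ⟨fun p hp => (contDiff_infty_iff_deriv.1 (H.1 p hp)).2, ?_⟩
  have h1 := H.2.comp (T := {a : P × ℕ × QQ | a.1 ∈ S})
    (fun a : P × ℕ × QQ => (a.1, a.2.1 + 1, a.2.2))
    (Computable.fst.pair (((Primrec.succ.comp (Primrec.fst.comp Primrec.snd)).to_comp).pair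
      (Computable.snd.comp Computable.snd))) (fun a ha => ha)
  refine h1.congr (fun a _ => ?_)
  simp only [iteratedDeriv_succ']

theorem ite (b : P → Bool) (hb : Computable b) (H : Eff1On (S ∩ {p | b p = true}) h)
    (G : Eff1On (S ∩ {p | b p = false}) g) :
    Eff1On S (fun p => if b p = true then h p else g p) := by
  constructor
  · intro p hp
    by_cases hbp : b p = true
    · simp only [hbp, if_true]
      exact H.1 p ⟨hp, hbp⟩
    · simp only [hbp]
      exact G.1 p ⟨hp, by simpa using hbp⟩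
  · have h1 := CRealOn.ite (S := {a : P × ℕ × QQ | a.1 ∈ S}) (fun a => b a.1)
      (hb.comp Computable.fst)
      (H.2.mono (T := {a : P × ℕ × QQ | a.1 ∈ S} ∩ {a | b a.1 = true})
        (fun a ha => (⟨ha.1, ha.2⟩ : a.1 ∈ S ∩ {p | b p = true})))
      (G.2.mono (T := {a : P × ℕ × QQ | a.1 ∈ S} ∩ {a | b a.1 = false})
        (fun a ha => (⟨ha.1, ha.2⟩ : a.1 ∈ S ∩ {p | b p = false})))
    refine h1.congr (fun a _ => ?_)
    by_cases hbp : b a.1 = true
    · simp only [hbp, if_true]
    · simp only [hbp]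
      rfl

end Eff1On

end Vale.Agent.Lib.P113
end

section
open scoped ContDiff

namespace Vale.Agent.Lib.P113

/-- counting the occurrences of a direction in a list is primitive recursive -/
theorem eff3t_primrec_count (j : Fin 3) : Primrec (fun L : List (Fin 3) => L.count j) := by
  have h : Primrec (fun L : List (Fin 3) =>
      L.foldl (fun s b => if b = j then s + 1 else s) 0) :=
    Primrec.list_foldl (f := fun L : List (Fin 3) => L) (g := fun _ => 0)
      (h := fun _ sb => if sb.2 = j then sb.1 + 1 else sb.1) Primrec.id (Primrec.const 0)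
      (Primrec.ite (Primrec.eq.comp (Primrec.snd.comp Primrec.snd) (Primrec.const j))
        (Primrec.succ.comp (Primrec.fst.comp Primrec.snd)) (Primrec.fst.comp Primrec.snd))
  refine h.of_eq (fun L => ?_)
  have key : ∀ (L : List (Fin 3)) (acc : ℕ),
      L.foldl (fun s b => if b = j then s + 1 else s) acc = acc + L.count j := by
    intro L
    induction L with
    | nil =>
      intro acc
      simp
    | cons b L ih =>
      intro acc
      rw [List.foldl_cons, ih]
      by_cases hb : b = j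
      · subst hb
        rw [if_pos rfl, List.count_cons_self]
        ring
      · rw [if_neg hb, List.count_cons_of_ne hb]
  have h0 := key L 0
  rw [zero_add] at h0
  exact h0

/-- the derivative in the direction `0` of a product of functions of the single coordinates -/
theorem eff3t_dX_zero (f0 f1 f2 : ℝ → ℝ) :
    dX 0 (fun x : Pt => f0 (x 0) * f1 (x 1) * f2 (x 2)) =
      fun x => deriv f0 (x 0) * f1 (x 1) * f2 (x 2) := by
  funext x
  unfold dX
  have h : (fun s : ℝ => f0 ((Function.update x 0 s) 0) * f1 ((Function.update x 0 s) 1) *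
      f2 ((Function.update x 0 s) 2)) = fun s => f0 s * f1 (x 1) * f2 (x 2) := by
    funext s
    have e1 : (Function.update x 0 s) 1 = x 1 := Function.update_of_ne (by decide) _ _
    have e2 : (Function.update x 0 s) 2 = x 2 := Function.update_of_ne (by decide) _ _
    rw [Function.update_self, e1, e2]
  rw [h, deriv_mul_const_field, deriv_mul_const_field]

/-- the derivative in the direction `1` of a product of functions of the single coordinates -/
theorem eff3t_dX_one (f0 f1 f2 : ℝ → ℝ) :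
    dX 1 (fun x : Pt => f0 (x 0) * f1 (x 1) * f2 (x 2)) =
      fun x => f0 (x 0) * deriv f1 (x 1) * f2 (x 2) := by
  funext x
  unfold dX
  have h : (fun s : ℝ => f0 ((Function.update x 1 s) 0) * f1 ((Function.update x 1 s) 1) *
      f2 ((Function.update x 1 s) 2)) = fun s => f0 (x 0) * f1 s * f2 (x 2) := by
    funext s
    have e1 : (Function.update x 1 s) 0 = x 0 := Function.update_of_ne (by decide) _ _
    have e2 : (Function.update x 1 s) 2 = x 2 := Function.update_of_ne (by decide) _ _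
    rw [Function.update_self, e1, e2]
  rw [h, deriv_mul_const_field, deriv_const_mul_field]

/-- the derivative in the direction `2` of a product of functions of the single coordinates -/
theorem eff3t_dX_two (f0 f1 f2 : ℝ → ℝ) :
    dX 2 (fun x : Pt => f0 (x 0) * f1 (x 1) * f2 (x 2)) =
      fun x => f0 (x 0) * f1 (x 1) * deriv f2 (x 2) := by
  funext x
  unfold dX
  have h : (fun s : ℝ => f0 ((Function.update x 2 s) 0) * f1 ((Function.update x 2 s) 1) *
      f2 ((Function.update x 2 s) 2)) = fun s => f0 (x 0) * f1 (x 1) * f2 s := by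
    funext s
    have e1 : (Function.update x 2 s) 0 = x 0 := Function.update_of_ne (by decide) _ _
    have e2 : (Function.update x 2 s) 1 = x 1 := Function.update_of_ne (by decide) _ _
    rw [Function.update_self, e1, e2]
  rw [h, deriv_const_mul_field]

/-- all iterated coordinate derivatives of a product of functions of the single coordinates -/
theorem eff3t_iterDS_tensor (a b c : ℝ → ℝ) (L : List (Fin 3)) :
    iterDS L (fun x : Pt => a (x 0) * b (x 1) * c (x 2)) =
      fun x => iteratedDeriv (L.count 0) a (x 0) * iteratedDeriv (L.count 1) b (x 1) *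
        iteratedDeriv (L.count 2) c (x 2) := by
  induction L with
  | nil =>
    funext x
    simp [iterDS]
  | cons j L ih =>
    show dX j (iterDS L (fun x : Pt => a (x 0) * b (x 1) * c (x 2))) = _
    rw [ih]
    have hj : j = 0 ∨ j = 1 ∨ j = 2 := by
      fin_cases j
      · exact Or.inl rfl
      · exact Or.inr (Or.inl rfl)
      · exact Or.inr (Or.inr rfl)
    rcases hj with rfl | rfl | rfl
    · rw [eff3t_dX_zero]
      funext x
      rw [List.count_cons_self, List.count_cons_of_ne (by decide : (0 : Fin 3) ≠ 1),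
        List.count_cons_of_ne (by decide : (0 : Fin 3) ≠ 2), iteratedDeriv_succ]
    · rw [eff3t_dX_one]
      funext x
      rw [List.count_cons_self, List.count_cons_of_ne (by decide : (1 : Fin 3) ≠ 0),
        List.count_cons_of_ne (by decide : (1 : Fin 3) ≠ 2), iteratedDeriv_succ]
    · rw [eff3t_dX_two]
      funext x
      rw [List.count_cons_self, List.count_cons_of_ne (by decide : (2 : Fin 3) ≠ 0),
        List.count_cons_of_ne (by decide : (2 : Fin 3) ≠ 1), iteratedDeriv_succ]

namespace Eff3On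

variable {P : Type} [Primcodable P] {S : Set P}

/-- products of functions of the single coordinates -/
theorem tensor {A B C : P → ℝ → ℝ} (hA : Eff1On S A) (hB : Eff1On S B) (hC : Eff1On S C) :
    Eff3On S (fun p x => A p (x 0) * B p (x 1) * C p (x 2)) := by
  constructor
  · intro p hp
    have h0 : ContDiff ℝ ∞ (fun x : Pt => A p (x 0)) :=
      (hA.1 p hp).comp (contDiff_apply ℝ ℝ (0 : Fin 3))
    have h1 : ContDiff ℝ ∞ (fun x : Pt => B p (x 1)) :=
      (hB.1 p hp).comp (contDiff_apply ℝ ℝ (1 : Fin 3))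
    have h2 : ContDiff ℝ ∞ (fun x : Pt => C p (x 2)) :=
      (hC.1 p hp).comp (contDiff_apply ℝ ℝ (2 : Fin 3))
    exact (h0.mul h1).mul h2
  · have cA : CRealOn {a : P × List (Fin 3) × (QQ × QQ × QQ) | a.1 ∈ S}
        (fun a => iteratedDeriv (a.2.1.count 0) (A a.1) a.2.2.1.val) :=
      hA.2.comp (fun a : P × List (Fin 3) × (QQ × QQ × QQ) => (a.1, a.2.1.count 0, a.2.2.1))
        (Computable.fst.pair
          (((eff3t_primrec_count 0).to_comp.comp (Computable.fst.comp Computable.snd)).pair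
            (Computable.fst.comp (Computable.snd.comp Computable.snd))))
        (fun a ha => ha)
    have cB : CRealOn {a : P × List (Fin 3) × (QQ × QQ × QQ) | a.1 ∈ S}
        (fun a => iteratedDeriv (a.2.1.count 1) (B a.1) a.2.2.2.1.val) :=
      hB.2.comp (fun a : P × List (Fin 3) × (QQ × QQ × QQ) => (a.1, a.2.1.count 1, a.2.2.2.1))
        (Computable.fst.pair
          (((eff3t_primrec_count 1).to_comp.comp (Computable.fst.comp Computable.snd)).pair
            (Computable.fst.comp (Computable.snd.comp (Computable.snd.comp Computable.snd)))))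
        (fun a ha => ha)
    have cC : CRealOn {a : P × List (Fin 3) × (QQ × QQ × QQ) | a.1 ∈ S}
        (fun a => iteratedDeriv (a.2.1.count 2) (C a.1) a.2.2.2.2.val) :=
      hC.2.comp (fun a : P × List (Fin 3) × (QQ × QQ × QQ) => (a.1, a.2.1.count 2, a.2.2.2.2))
        (Computable.fst.pair
          (((eff3t_primrec_count 2).to_comp.comp (Computable.fst.comp Computable.snd)).pair
            (Computable.snd.comp (Computable.snd.comp (Computable.snd.comp Computable.snd)))))
        (fun a ha => ha)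
    refine ((cA.mul cB).mul cC).congr (fun a _ => ?_)
    rw [eff3t_iterDS_tensor]
    rfl

end Eff3On

end Vale.Agent.Lib.P113
end

section
open scoped ContDiff

namespace Vale.Agent.Lib.P113

/-- A term with components c, j, a, b stands for the function `c * S ^ j * x⁻¹ ^ a * (1 - x)⁻¹ ^ b` of `x`,
where `S` is the smooth transition function. -/
abbrev STerm : Type := QQ × ℕ × ℕ × ℕ

/-- value of a term, given the value `s` of the smooth transition function at `x` -/
noncomputable def STerm.eval (s x : ℝ) (τ : STerm) : ℝ :=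
  τ.1.val * s ^ τ.2.1 * x⁻¹ ^ τ.2.2.1 * (1 - x)⁻¹ ^ τ.2.2.2

/-- the derivative of a term on the open unit interval, as a list of terms -/
def STerm.d (τ : STerm) : List STerm :=
  [(QQ.mul τ.1 (QQ.ofNat τ.2.1), τ.2.1, τ.2.2.1 + 2, τ.2.2.2),
   (QQ.mul τ.1 (QQ.ofNat τ.2.1), τ.2.1, τ.2.2.1, τ.2.2.2 + 2),
   (QQ.neg (QQ.mul τ.1 (QQ.ofNat τ.2.1)), τ.2.1 + 1, τ.2.2.1 + 2, τ.2.2.2),
   (QQ.neg (QQ.mul τ.1 (QQ.ofNat τ.2.1)), τ.2.1 + 1, τ.2.2.1, τ.2.2.2 + 2),
   (QQ.neg (QQ.mul τ.1 (QQ.ofNat τ.2.2.1)), τ.2.1, τ.2.2.1 + 1, τ.2.2.2),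
   (QQ.mul τ.1 (QQ.ofNat τ.2.2.2), τ.2.1, τ.2.2.1, τ.2.2.2 + 1)]

/-- the list of terms of the `n`-th derivative of the smooth transition function on the open unit interval -/
def sTab (n : ℕ) : List STerm :=
  Nat.rec [(QQ.ofNat 1, 1, 0, 0)] (fun _ l => l.flatMap STerm.d) n

theorem sTable_d_primrec : Primrec STerm.d := by
  have hc : Primrec (fun τ : STerm => τ.1) := Primrec.fst
  have hj : Primrec (fun τ : STerm => τ.2.1) := Primrec.fst.comp Primrec.snd
  have ha : Primrec (fun τ : STerm => τ.2.2.1) :=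
    Primrec.fst.comp (Primrec.snd.comp Primrec.snd)
  have hb : Primrec (fun τ : STerm => τ.2.2.2) :=
    Primrec.snd.comp (Primrec.snd.comp Primrec.snd)
  have hcj : Primrec (fun τ : STerm => QQ.mul τ.1 (QQ.ofNat τ.2.1)) :=
    QQ.mul_primrec.comp hc (QQ.ofNat_primrec.comp hj)
  have hca : Primrec (fun τ : STerm => QQ.mul τ.1 (QQ.ofNat τ.2.2.1)) :=
    QQ.mul_primrec.comp hc (QQ.ofNat_primrec.comp ha)
  have hcb : Primrec (fun τ : STerm => QQ.mul τ.1 (QQ.ofNat τ.2.2.2)) :=
    QQ.mul_primrec.comp hc (QQ.ofNat_primrec.comp hb)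
  have hncj : Primrec (fun τ : STerm => QQ.neg (QQ.mul τ.1 (QQ.ofNat τ.2.1))) :=
    QQ.neg_primrec.comp hcj
  have hnca : Primrec (fun τ : STerm => QQ.neg (QQ.mul τ.1 (QQ.ofNat τ.2.2.1))) :=
    QQ.neg_primrec.comp hca
  have add2 : ∀ {f : STerm → ℕ}, Primrec f → Primrec (fun τ => f τ + 2) :=
    fun hf => Primrec.nat_add.comp hf (Primrec.const 2)
  have add1 : ∀ {f : STerm → ℕ}, Primrec f → Primrec (fun τ => f τ + 1) :=
    fun hf => Primrec.nat_add.comp hf (Primrec.const 1)
  have mk : ∀ {q : STerm → QQ} {j a b : STerm → ℕ}, Primrec q → Primrec j → Primrec a →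
      Primrec b → Primrec (fun τ => ((q τ, j τ, a τ, b τ) : STerm)) :=
    fun hq hj ha hb => Primrec.pair hq (Primrec.pair hj (Primrec.pair ha hb))
  exact Primrec.list_cons.comp (mk hcj hj (add2 ha) hb) <|
    Primrec.list_cons.comp (mk hcj hj ha (add2 hb)) <|
    Primrec.list_cons.comp (mk hncj (add1 hj) (add2 ha) hb) <|
    Primrec.list_cons.comp (mk hncj (add1 hj) ha (add2 hb)) <|
    Primrec.list_cons.comp (mk hnca hj (add1 ha) hb) <|
    Primrec.list_cons.comp (mk hcb hj ha (add1 hb)) <| Primrec.const []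

theorem sTab_primrec : Primrec sTab := by
  have h1 : Primrec (fun p : ℕ × List STerm => p.2.flatMap STerm.d) :=
    Primrec.list_flatMap Primrec.snd (sTable_d_primrec.comp Primrec.snd).to₂
  have h2 : Primrec₂ (fun (_ : ℕ) (l : List STerm) => l.flatMap STerm.d) := h1.to₂
  exact Primrec.nat_rec₁ _ h2

/-- on the open unit interval the smooth transition function is `1 / (1 + exp (1/x - 1/(1-x)))` -/
theorem smoothTransition_mid {x : ℝ} (h0 : 0 < x) (h1 : x < 1) :
    Real.smoothTransition x = (1 + Real.exp (x⁻¹ - (1 - x)⁻¹))⁻¹ := by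
  have h1' : 0 < 1 - x := by linarith
  unfold Real.smoothTransition expNegInvGlue
  rw [if_neg (not_le.mpr h0), if_neg (not_le.mpr h1')]
  have e : Real.exp (x⁻¹ - (1 - x)⁻¹) = Real.exp (-(1 - x)⁻¹) / Real.exp (-x⁻¹) := by
    rw [← Real.exp_sub]
    congr 1
    ring
  rw [e]
  have hpos := Real.exp_pos (-x⁻¹)
  have hpos2 := Real.exp_pos (-(1 - x)⁻¹)
  field_simp

/-- the derivative of the smooth transition function on the open unit interval -/
theorem sTable_hasDerivAt {x : ℝ} (h0 : 0 < x) (h1 : x < 1) :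
    HasDerivAt Real.smoothTransition
      (Real.smoothTransition x * (1 - Real.smoothTransition x) * (x⁻¹ ^ 2 + (1 - x)⁻¹ ^ 2)) x := by
  have h1' : 0 < 1 - x := by linarith
  have ha : HasDerivAt (fun y : ℝ => y⁻¹) (-(x ^ 2)⁻¹) x := hasDerivAt_inv h0.ne'
  have hb : HasDerivAt (fun y : ℝ => (1 - y)⁻¹) (-(-1) / (1 - x) ^ 2) x :=
    ((hasDerivAt_id x).const_sub 1).inv h1'.ne'
  have hg : HasDerivAt (fun y : ℝ => y⁻¹ - (1 - y)⁻¹)
      (-(x ^ 2)⁻¹ - (-(-1) / (1 - x) ^ 2)) x := ha.sub hb
  have hden : HasDerivAt (fun y : ℝ => 1 + Real.exp (y⁻¹ - (1 - y)⁻¹))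
      (Real.exp (x⁻¹ - (1 - x)⁻¹) * (-(x ^ 2)⁻¹ - (-(-1) / (1 - x) ^ 2))) x :=
    hg.exp.const_add 1
  have hne : (1 + Real.exp (x⁻¹ - (1 - x)⁻¹)) ≠ 0 := by positivity
  have hF : HasDerivAt (fun y : ℝ => (1 + Real.exp (y⁻¹ - (1 - y)⁻¹))⁻¹)
      (-(Real.exp (x⁻¹ - (1 - x)⁻¹) * (-(x ^ 2)⁻¹ - (-(-1) / (1 - x) ^ 2)))
        / (1 + Real.exp (x⁻¹ - (1 - x)⁻¹)) ^ 2) x := hden.inv hne
  have hev : Real.smoothTransition =ᶠ[nhds x]
      (fun y : ℝ => (1 + Real.exp (y⁻¹ - (1 - y)⁻¹))⁻¹) := by
    filter_upwards [Ioo_mem_nhds h0 h1] with y hy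
    exact smoothTransition_mid hy.1 hy.2
  have hS := hF.congr_of_eventuallyEq hev
  refine hS.congr_deriv ?_
  rw [smoothTransition_mid h0 h1]
  have hx2 : x ≠ 0 := h0.ne'
  have hx3 : 1 - x ≠ 0 := h1'.ne'
  have hE := Real.exp_pos (x⁻¹ - (1 - x)⁻¹)
  generalize Real.exp (x⁻¹ - (1 - x)⁻¹) = E at hE hne ⊢
  field_simp
  ring

theorem sTable_alg (c s X Y : ℝ) (j a b : ℕ) :
    (c * (↑j * s ^ (j - 1) * (s * (1 - s) * (X ^ 2 + Y ^ 2))) * X ^ a
        + c * s ^ j * (↑a * X ^ (a - 1) * (-(X ^ 2)))) * Y ^ b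
      + c * s ^ j * X ^ a * (↑b * Y ^ (b - 1) * Y ^ 2)
    = c * ↑j * s ^ j * X ^ (a + 2) * Y ^ b + (c * ↑j * s ^ j * X ^ a * Y ^ (b + 2)
      + (-(c * ↑j) * s ^ (j + 1) * X ^ (a + 2) * Y ^ b
      + (-(c * ↑j) * s ^ (j + 1) * X ^ a * Y ^ (b + 2)
      + (-(c * ↑a) * s ^ j * X ^ (a + 1) * Y ^ b
      + (c * ↑b * s ^ j * X ^ a * Y ^ (b + 1) + 0))))) := by
  have key : ∀ (t : ℝ) (m : ℕ), (m : ℝ) * t ^ (m - 1) * t = m * t ^ m := by
    intro t m
    cases m with
    | zero => simp
    | succ m =>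
      rw [Nat.add_sub_cancel, pow_succ]
      ring
  have hj := key s j
  have ha := key X a
  have hb := key Y b
  linear_combination (c * (1 - s) * (X ^ 2 + Y ^ 2) * X ^ a * Y ^ b) * hj
    - (c * s ^ j * Y ^ b * X) * ha + (c * s ^ j * X ^ a * Y) * hb

/-- the derivative of a term on the open unit interval -/
theorem sTable_term_hasDerivAt (τ : STerm) {x : ℝ} (h0 : 0 < x) (h1 : x < 1) :
    HasDerivAt (fun y => STerm.eval (Real.smoothTransition y) y τ)
      (((STerm.d τ).map (STerm.eval (Real.smoothTransition x) x)).sum) x := by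
  obtain ⟨c, j, a, b⟩ := τ
  have h1' : 0 < 1 - x := by linarith
  have hS := sTable_hasDerivAt h0 h1
  have hX : HasDerivAt (fun y : ℝ => y⁻¹) (-(x⁻¹ ^ 2)) x := by
    have h := hasDerivAt_inv h0.ne'
    rw [← inv_pow] at h
    exact h
  have hY : HasDerivAt (fun y : ℝ => (1 - y)⁻¹) ((1 - x)⁻¹ ^ 2) x := by
    have h : HasDerivAt (fun y : ℝ => (1 - y)⁻¹) (-(-1) / (1 - x) ^ 2) x :=
      ((hasDerivAt_id x).const_sub 1).inv h1'.ne'
    convert h using 1
    rw [inv_pow]
    ring
  have hall := (((hS.pow j).const_mul c.val).mul (hX.pow a)).mul (hY.pow b)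
  have hfun : (fun y => STerm.eval (Real.smoothTransition y) y (c, j, a, b))
      = fun y => c.val * (Real.smoothTransition ^ j) y * ((fun y : ℝ => y⁻¹) ^ a) y
          * ((fun y : ℝ => (1 - y)⁻¹) ^ b) y := rfl
  rw [hfun]
  refine hall.congr_deriv ?_
  simp only [STerm.d, List.map, List.sum_cons, List.sum_nil, STerm.eval, QQ.mul_val, QQ.neg_val,
    QQ.ofNat_val, Pi.pow_apply, Pi.mul_apply]
  have hkey := sTable_alg c.val (Real.smoothTransition x) x⁻¹ (1 - x)⁻¹ j a b
  linear_combination hkey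

/-- the derivative of a sum of terms on the open unit interval -/
theorem sTable_list_hasDerivAt (l : List STerm) {x : ℝ} (h0 : 0 < x) (h1 : x < 1) :
    HasDerivAt (fun y => (l.map (STerm.eval (Real.smoothTransition y) y)).sum)
      (((l.flatMap STerm.d).map (STerm.eval (Real.smoothTransition x) x)).sum) x := by
  induction l with
  | nil =>
    simp only [List.map_nil, List.sum_nil, List.flatMap_nil]
    exact hasDerivAt_const x 0
  | cons τ l ih =>
    simp only [List.map_cons, List.sum_cons, List.flatMap_cons, List.map_append, List.sum_append]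
    exact (sTable_term_hasDerivAt τ h0 h1).add ih

/-- the derivatives of the smooth transition function on the open unit interval -/
theorem smoothTransition_iteratedDeriv_mid (n : ℕ) {x : ℝ} (h0 : 0 < x) (h1 : x < 1) :
    iteratedDeriv n Real.smoothTransition x
      = ((sTab n).map (STerm.eval (Real.smoothTransition x) x)).sum := by
  induction n generalizing x with
  | zero =>
    rw [iteratedDeriv_zero]
    simp [sTab, STerm.eval, QQ.ofNat_val]
  | succ n ih =>
    rw [iteratedDeriv_succ]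
    have hev : iteratedDeriv n Real.smoothTransition =ᶠ[nhds x]
        fun y => ((sTab n).map (STerm.eval (Real.smoothTransition y) y)).sum := by
      filter_upwards [Ioo_mem_nhds h0 h1] with y hy
      exact ih hy.1 hy.2
    rw [hev.deriv_eq]
    exact (sTable_list_hasDerivAt (sTab n) h0 h1).deriv

/-- a function that is constant on an open set has vanishing derivatives of positive order
there -/
theorem sTable_const_open {f : ℝ → ℝ} {c : ℝ} {U : Set ℝ} (hU : IsOpen U)
    (hf : ∀ y ∈ U, f y = c) : ∀ n : ℕ, ∀ x ∈ U, iteratedDeriv (n + 1) f x = 0 := by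
  intro n
  induction n with
  | zero =>
    intro x hx
    rw [zero_add, iteratedDeriv_one]
    have hev : f =ᶠ[nhds x] fun _ => c := Filter.eventually_of_mem (hU.mem_nhds hx) hf
    rw [hev.deriv_eq]
    exact deriv_const x c
  | succ n ih =>
    intro x hx
    rw [iteratedDeriv_succ]
    have hev : iteratedDeriv (n + 1) f =ᶠ[nhds x] fun _ => (0 : ℝ) :=
      Filter.eventually_of_mem (hU.mem_nhds hx) ih
    rw [hev.deriv_eq]
    exact deriv_const x 0

/-- outside the open unit interval all derivatives of positive order of the smooth transition function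
vanish -/
theorem smoothTransition_iteratedDeriv_out (n : ℕ) {x : ℝ} (h : x ≤ 0 ∨ 1 ≤ x) :
    iteratedDeriv (n + 1) Real.smoothTransition x = 0 := by
  have hcd : ContDiff ℝ (((n + 1 : ℕ) : ℕ∞) : WithTop ℕ∞) Real.smoothTransition :=
    Real.smoothTransition.contDiff
  have hcont : Continuous (iteratedDeriv (n + 1) Real.smoothTransition) :=
    ContDiff.continuous_iteratedDeriv (n + 1) hcd le_rfl
  have hcl : IsClosed {y : ℝ | iteratedDeriv (n + 1) Real.smoothTransition y = 0} :=
    isClosed_eq hcont continuous_const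
  rcases h with h | h
  · have hsub : Set.Iio (0 : ℝ) ⊆ {y : ℝ | iteratedDeriv (n + 1) Real.smoothTransition y = 0} :=
      fun y hy => sTable_const_open isOpen_Iio
        (fun z hz => Real.smoothTransition.zero_of_nonpos (le_of_lt hz)) n y hy
    have hclos := closure_minimal hsub hcl
    rw [closure_Iio] at hclos
    exact hclos h
  · have hsub : Set.Ioi (1 : ℝ) ⊆ {y : ℝ | iteratedDeriv (n + 1) Real.smoothTransition y = 0} :=
      fun y hy => sTable_const_open isOpen_Ioi
        (fun z hz => Real.smoothTransition.one_of_one_le (le_of_lt hz)) n y hy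
    have hclos := closure_minimal hsub hcl
    rw [closure_Ioi] at hclos
    exact hclos h

end Vale.Agent.Lib.P113
end

section
namespace Vale.Agent.Lib.P113

/-- the factorial is primitive recursive -/
theorem fact_primrec : Primrec Nat.factorial := by
  have h : Nat.factorial = fun n : ℕ => Nat.rec (motive := fun _ => ℕ) 1 (fun k acc => (k + 1) * acc) n := by
    funext n
    induction n with
    | zero => rfl
    | succ k ih => simp only [Nat.factorial_succ]; rw [ih]
  rw [h]
  refine Primrec.nat_rec₁ 1 ?_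
  exact Primrec.nat_mul.comp (Primrec.succ.comp Primrec.fst) Primrec.snd

/-- the coded rational `q / (bound q + 1)`, of absolute value at most one -/
def expArg (q : QQ) : QQ := QQ.mul q (QQ.frac 1 (QQ.bound q))

theorem expArg_val (q : QQ) : (expArg q).val = q.val / ((QQ.bound q : ℝ) + 1) := by
  unfold expArg
  rw [QQ.mul_val, QQ.frac_val]
  push_cast
  ring

theorem expArg_abs (q : QQ) : |(expArg q).val| ≤ 1 := by
  rw [expArg_val, abs_div]
  have h1 := QQ.abs_le_bound q
  have h2 : (0 : ℝ) ≤ (QQ.bound q : ℝ) := Nat.cast_nonneg _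
  rw [abs_of_pos (by linarith : (0 : ℝ) < (QQ.bound q : ℝ) + 1), div_le_one (by linarith)]
  linarith

theorem expArg_primrec : Primrec expArg := by
  unfold expArg
  exact QQ.mul_primrec.comp Primrec.id
    (QQ.frac_primrec.comp (Primrec.const 1) QQ.bound_primrec)

theorem expArg_mul (q : QQ) :
    (((QQ.bound q + 1 : ℕ) : ℝ)) * (expArg q).val = q.val := by
  rw [expArg_val]
  have h2 : (0 : ℝ) ≤ (QQ.bound q : ℝ) := Nat.cast_nonneg _
  push_cast
  field_simp

/-- the `k`-th term of the exponential series of `expArg q` -/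
def expTerm (a : (QQ × ℕ) × ℕ) : QQ :=
  QQ.mul (QQ.pow (expArg a.1.1) a.2) (QQ.inv (QQ.ofNat a.2.factorial))

theorem expTerm_val (a : (QQ × ℕ) × ℕ) :
    (expTerm a).val = (expArg a.1.1).val ^ a.2 / (a.2.factorial : ℝ) := by
  unfold expTerm
  rw [QQ.mul_val, QQ.pow_val, QQ.inv_val, QQ.ofNat_val]
  rfl

theorem expTerm_primrec : Primrec expTerm := by
  unfold expTerm
  refine QQ.mul_primrec.comp ?_ ?_
  · exact QQ.pow_primrec.comp (expArg_primrec.comp (Primrec.fst.comp Primrec.fst)) Primrec.snd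
  · exact QQ.inv_primrec.comp (QQ.ofNat_primrec.comp (fact_primrec.comp Primrec.snd))

/-- finite sums of the exponential series, with a computable number of terms -/
theorem creal_expSum : CRealOn (Set.univ : Set (QQ × ℕ))
    (fun a => ∑ k ∈ Finset.range (4 * a.2 + 4), (expArg a.1).val ^ k / (k.factorial : ℝ)) := by
  have hK : Computable (fun a : QQ × ℕ => 4 * a.2 + 4) := by
    have : Primrec (fun a : QQ × ℕ => 4 * a.2 + 4) :=
      Primrec.nat_add.comp (Primrec.nat_mul.comp (Primrec.const 4) Primrec.snd) (Primrec.const 4)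
    exact this.to_comp
  have hg : CRealOn {b : (QQ × ℕ) × ℕ | b.1 ∈ (Set.univ : Set (QQ × ℕ)) ∧ b.2 < 4 * b.1.2 + 4}
      (fun b => (expArg b.1.1).val ^ b.2 / (b.2.factorial : ℝ)) := by
    refine CRealOn.congr ?_ (CRealOn.of_rat expTerm expTerm_primrec.to_comp)
    intro b _
    exact expTerm_val b
  exact CRealOn.sum_range (S := (Set.univ : Set (QQ × ℕ))) (fun a : QQ × ℕ => 4 * a.2 + 4) hK hg

theorem exp_tail_bound (y : ℝ) (hy : |y| ≤ 1) (n : ℕ) :
    |Real.exp y - ∑ k ∈ Finset.range (4 * n + 4), y ^ k / (k.factorial : ℝ)|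
      ≤ 1 / (2 * ((n : ℝ) + 1)) := by
  have hN : 0 < 4 * n + 4 := by omega
  have h := Real.exp_bound hy hN
  refine h.trans ?_
  have hfac : ((4 * n + 4 : ℕ) : ℝ) ≤ ((4 * n + 4).factorial : ℝ) := by
    exact_mod_cast Nat.self_le_factorial (4 * n + 4)
  have hpow : |y| ^ (4 * n + 4) ≤ 1 := pow_le_one₀ (abs_nonneg y) hy
  have hNpos : (0 : ℝ) < ((4 * n + 4 : ℕ) : ℝ) := by exact_mod_cast hN
  have hfpos : (0 : ℝ) < ((4 * n + 4).factorial : ℝ) := by
    exact_mod_cast Nat.factorial_pos (4 * n + 4)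
  have hn0 : (0 : ℝ) ≤ (n : ℝ) := Nat.cast_nonneg n
  have hquot : (((4 * n + 4 : ℕ).succ : ℝ)) / (((4 * n + 4).factorial : ℝ) * ((4 * n + 4 : ℕ) : ℝ))
      ≤ 1 / (2 * ((n : ℝ) + 1)) := by
    rw [div_le_div_iff₀ (by positivity) (by positivity)]
    have hs : (((4 * n + 4 : ℕ).succ : ℝ)) = 4 * (n : ℝ) + 5 := by push_cast; ring
    have hc : ((4 * n + 4 : ℕ) : ℝ) = 4 * (n : ℝ) + 4 := by push_cast; ring
    rw [hs, hc]
    rw [hc] at hfac
    nlinarith
  calc |y| ^ (4 * n + 4) * (((4 * n + 4 : ℕ).succ : ℝ) / (((4 * n + 4).factorial : ℝ) * ((4 * n + 4 : ℕ) : ℝ)))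
      ≤ 1 * (((4 * n + 4 : ℕ).succ : ℝ) / (((4 * n + 4).factorial : ℝ) * ((4 * n + 4 : ℕ) : ℝ))) := by
        apply mul_le_mul_of_nonneg_right hpow
        positivity
    _ ≤ 1 / (2 * ((n : ℝ) + 1)) := by rw [one_mul]; exact hquot

/-- the exponential of the reduced argument is computable -/
theorem creal_exp_arg : CRealOn (Set.univ : Set QQ) (fun q => Real.exp (expArg q).val) := by
  obtain ⟨G, hG, hGa⟩ := creal_expSum
  refine ⟨fun q n => G (q, n) (2 * n + 1), ?_, ?_⟩
  · have h2 : Computable₂ (fun (_ : QQ) (n : ℕ) => 2 * n + 1) :=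
      (Primrec.nat_double_succ.comp Primrec.snd).to_comp
    have h1 : Computable₂ (fun (q : QQ) (n : ℕ) => (q, n)) :=
      Computable.pair Computable.fst Computable.snd
    exact hG.comp h1 h2
  · intro q _ n
    have hA := hGa (q, n) (Set.mem_univ _) (2 * n + 1)
    have hB := exp_tail_bound (expArg q).val (expArg_abs q) n
    have hn0 : (0 : ℝ) ≤ (n : ℝ) := Nat.cast_nonneg n
    have hcast : (((2 * n + 1 : ℕ) : ℝ)) + 1 = 2 * ((n : ℝ) + 1) := by push_cast; ring
    rw [hcast] at hA
    have hsum : 1 / (2 * ((n : ℝ) + 1)) + 1 / (2 * ((n : ℝ) + 1)) = 1 / ((n : ℝ) + 1) := by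
      field_simp
      ring
    have htri : |(G (q, n) (2 * n + 1)).val - Real.exp (expArg q).val|
        ≤ |(G (q, n) (2 * n + 1)).val -
            ∑ k ∈ Finset.range (4 * n + 4), (expArg q).val ^ k / (k.factorial : ℝ)|
          + |Real.exp (expArg q).val -
            ∑ k ∈ Finset.range (4 * n + 4), (expArg q).val ^ k / (k.factorial : ℝ)| := by
      have := abs_sub_le (G (q, n) (2 * n + 1)).val
        (∑ k ∈ Finset.range (4 * n + 4), (expArg q).val ^ k / (k.factorial : ℝ))
        (Real.exp (expArg q).val)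
      rw [abs_sub_comm (∑ k ∈ Finset.range (4 * n + 4), (expArg q).val ^ k / (k.factorial : ℝ))
        (Real.exp (expArg q).val)] at this
      exact this
    calc |(G (q, n) (2 * n + 1)).val - Real.exp (expArg q).val|
        ≤ 1 / (2 * ((n : ℝ) + 1)) + 1 / (2 * ((n : ℝ) + 1)) := htri.trans (add_le_add hA hB)
      _ = 1 / ((n : ℝ) + 1) := hsum

/-- the exponential function is computable on the rationals -/
theorem creal_exp : CRealOn (Set.univ : Set QQ) (fun q => Real.exp q.val) := by
  have hpow := CRealOn.pow (S := (Set.univ : Set QQ)) (fun q : QQ => QQ.bound q + 1)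
    (Primrec.succ.comp QQ.bound_primrec).to_comp creal_exp_arg
  refine CRealOn.congr ?_ hpow
  intro q _
  show Real.exp (expArg q).val ^ (QQ.bound q + 1) = Real.exp q.val
  rw [← Real.exp_nat_mul, expArg_mul]

end Vale.Agent.Lib.P113
end

section
open scoped ContDiff

namespace Vale.Agent.Lib.P113

/-- the smooth transition function is computable at the rational points of `(0, 1)` -/
theorem creal_smoothTransition_mid :
    CRealOn {r : QQ | 0 < r.val ∧ r.val < 1} (fun r => Real.smoothTransition r.val) := by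
  have hφ : Computable (fun r : QQ => QQ.sub (QQ.inv r) (QQ.inv (QQ.sub (QQ.ofNat 1) r))) :=
    (QQ.sub_primrec.comp (QQ.inv_primrec.comp Primrec.id)
      (QQ.inv_primrec.comp (QQ.sub_primrec.comp (Primrec.const (QQ.ofNat 1)) Primrec.id))).to_comp
  have h1 : CRealOn {r : QQ | 0 < r.val ∧ r.val < 1}
      (fun r => Real.exp (QQ.sub (QQ.inv r) (QQ.inv (QQ.sub (QQ.ofNat 1) r))).val) :=
    CRealOn.comp (S := (Set.univ : Set QQ)) (c := fun q : QQ => Real.exp q.val)
      (fun r : QQ => QQ.sub (QQ.inv r) (QQ.inv (QQ.sub (QQ.ofNat 1) r))) hφ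
      (fun _ _ => Set.mem_univ _) creal_exp
  have h2 : CRealOn {r : QQ | 0 < r.val ∧ r.val < 1} (fun _ : QQ => ((1 : ℕ) : ℝ)) :=
    CRealOn.natCast (fun _ => 1) (Computable.const 1)
  have h3 := (h2.add h1).inv_of_one_le (by
    intro r _
    have := Real.exp_pos (QQ.sub (QQ.inv r) (QQ.inv (QQ.sub (QQ.ofNat 1) r))).val
    simp only [Nat.cast_one]
    linarith)
  refine h3.congr ?_
  intro r hr
  rw [Set.mem_ofPred_eq] at hr
  rw [smoothTransition_mid hr.1 hr.2, QQ.sub_val, QQ.inv_val, QQ.inv_val, QQ.sub_val,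
    QQ.ofNat_val]
  simp

/-- the test for a coded rational to lie in `(0, 1)` -/
def QQ.mid (r : QQ) : Bool := QQ.lt (QQ.ofNat 0) r && QQ.lt r (QQ.ofNat 1)

theorem QQ.mid_primrec : Primrec QQ.mid :=
  Primrec.and.comp (QQ.lt_primrec.comp (Primrec.const (QQ.ofNat 0)) Primrec.id)
    (QQ.lt_primrec.comp Primrec.id (Primrec.const (QQ.ofNat 1)))

theorem QQ.mid_iff (r : QQ) : QQ.mid r = true ↔ 0 < r.val ∧ r.val < 1 := by
  unfold QQ.mid
  rw [Bool.and_eq_true, QQ.lt_iff, QQ.lt_iff, QQ.ofNat_val, QQ.ofNat_val]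
  simp

/-- the value of the derivatives of the smooth transition function outside `(0, 1)` -/
def sOut (a : Unit × ℕ × QQ) : QQ :=
  bif (decide (a.2.1 = 0) && QQ.le (QQ.ofNat 1) a.2.2) then QQ.ofNat 1 else QQ.ofNat 0

theorem sOut_primrec : Primrec sOut := by
  unfold sOut
  refine Primrec.cond ?_ (Primrec.const _) (Primrec.const _)
  refine Primrec.and.comp ?_ ?_
  · exact PrimrecPred.decide (Primrec.eq.comp
      (Primrec.fst.comp (Primrec.snd : Primrec (fun a : Unit × ℕ × QQ => a.2)))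
      (Primrec.const 0))
  · exact QQ.le_primrec.comp (Primrec.const (QQ.ofNat 1))
      (Primrec.snd.comp (Primrec.snd : Primrec (fun a : Unit × ℕ × QQ => a.2)))

theorem sOut_val (a : Unit × ℕ × QQ) (h : QQ.mid a.2.2 = false) :
    (sOut a).val = iteratedDeriv a.2.1 Real.smoothTransition a.2.2.val := by
  obtain ⟨u, n, r⟩ := a
  have hout : r.val ≤ 0 ∨ 1 ≤ r.val := by
    by_contra hcon
    push Not at hcon
    have := (QQ.mid_iff r).2 ⟨hcon.1, hcon.2⟩
    simp only at h
    rw [this] at h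
    exact Bool.noConfusion h
  cases n with
  | zero =>
    simp only [iteratedDeriv_zero]
    by_cases h1 : 1 ≤ r.val
    · have hle : QQ.le (QQ.ofNat 1) r = true := by
        rw [QQ.le_iff, QQ.ofNat_val]; simpa using h1
      have : sOut (u, 0, r) = QQ.ofNat 1 := by
        unfold sOut
        simp [hle]
      rw [this, QQ.ofNat_val, Real.smoothTransition.one_of_one_le h1]
      simp
    · have hle : QQ.le (QQ.ofNat 1) r = false := by
        rw [← Bool.not_eq_true, QQ.le_iff, QQ.ofNat_val]; simpa using h1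
      have : sOut (u, 0, r) = QQ.ofNat 0 := by
        unfold sOut
        simp [hle]
      have h0 : r.val ≤ 0 := by
        rcases hout with h0 | h0
        · exact h0
        · exact absurd h0 h1
      rw [this, QQ.ofNat_val, Real.smoothTransition.zero_of_nonpos h0]
      simp
  | succ k =>
    have : sOut (u, k + 1, r) = QQ.ofNat 0 := by
      unfold sOut
      simp
    rw [this, QQ.ofNat_val, smoothTransition_iteratedDeriv_out k hout]
    simp

/-- the derivatives of all orders of the smooth transition function are computable at the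
rational points -/
theorem eff1_smoothTransition :
    Eff1On (Set.univ : Set Unit) (fun _ => Real.smoothTransition) := by
  refine ⟨fun _ _ => Real.smoothTransition.contDiff, ?_⟩
  -- the terms of the sum on `(0, 1)`
  have hterm : CRealOn {b : (Unit × ℕ × QQ) × STerm |
      b.1 ∈ ({a : Unit × ℕ × QQ | a.1 ∈ (Set.univ : Set Unit)} ∩
        {a : Unit × ℕ × QQ | QQ.mid a.2.2 = true}) ∧ b.2 ∈ sTab b.1.2.1}
      (fun b => STerm.eval (Real.smoothTransition b.1.2.2.val) b.1.2.2.val b.2) := by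
    have hr : Computable (fun b : (Unit × ℕ × QQ) × STerm => b.1.2.2) :=
      Computable.snd.comp (Computable.snd.comp Computable.fst)
    have e1 : CRealOn {b : (Unit × ℕ × QQ) × STerm |
        b.1 ∈ ({a : Unit × ℕ × QQ | a.1 ∈ (Set.univ : Set Unit)} ∩
          {a : Unit × ℕ × QQ | QQ.mid a.2.2 = true}) ∧ b.2 ∈ sTab b.1.2.1}
        (fun b => b.2.1.val) :=
      CRealOn.of_rat (fun b : (Unit × ℕ × QQ) × STerm => b.2.1)
        (Computable.fst.comp Computable.snd)
    have e2 : CRealOn {b : (Unit × ℕ × QQ) × STerm |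
        b.1 ∈ ({a : Unit × ℕ × QQ | a.1 ∈ (Set.univ : Set Unit)} ∩
          {a : Unit × ℕ × QQ | QQ.mid a.2.2 = true}) ∧ b.2 ∈ sTab b.1.2.1}
        (fun b => Real.smoothTransition b.1.2.2.val ^ b.2.2.1) := by
      refine CRealOn.pow (fun b : (Unit × ℕ × QQ) × STerm => b.2.2.1)
        (Computable.fst.comp (Computable.snd.comp Computable.snd)) ?_
      refine CRealOn.comp (fun b : (Unit × ℕ × QQ) × STerm => b.1.2.2) hr ?_
        creal_smoothTransition_mid
      intro b hb
      exact (QQ.mid_iff _).1 hb.1.2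
    have e3 : CRealOn {b : (Unit × ℕ × QQ) × STerm |
        b.1 ∈ ({a : Unit × ℕ × QQ | a.1 ∈ (Set.univ : Set Unit)} ∩
          {a : Unit × ℕ × QQ | QQ.mid a.2.2 = true}) ∧ b.2 ∈ sTab b.1.2.1}
        (fun b => (QQ.inv b.1.2.2).val ^ b.2.2.2.1) :=
      CRealOn.pow (fun b : (Unit × ℕ × QQ) × STerm => b.2.2.2.1)
        (Computable.fst.comp (Computable.snd.comp (Computable.snd.comp Computable.snd)))
        (CRealOn.of_rat (fun b : (Unit × ℕ × QQ) × STerm => QQ.inv b.1.2.2)
          (QQ.inv_primrec.to_comp.comp hr))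
    have e4 : CRealOn {b : (Unit × ℕ × QQ) × STerm |
        b.1 ∈ ({a : Unit × ℕ × QQ | a.1 ∈ (Set.univ : Set Unit)} ∩
          {a : Unit × ℕ × QQ | QQ.mid a.2.2 = true}) ∧ b.2 ∈ sTab b.1.2.1}
        (fun b => (QQ.inv (QQ.sub (QQ.ofNat 1) b.1.2.2)).val ^ b.2.2.2.2) :=
      CRealOn.pow (fun b : (Unit × ℕ × QQ) × STerm => b.2.2.2.2)
        (Computable.snd.comp (Computable.snd.comp (Computable.snd.comp Computable.snd)))
        (CRealOn.of_rat (fun b : (Unit × ℕ × QQ) × STerm => QQ.inv (QQ.sub (QQ.ofNat 1) b.1.2.2))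
          (QQ.inv_primrec.to_comp.comp
            (QQ.sub_primrec.to_comp.comp (Computable.const (QQ.ofNat 1)) hr)))
    refine (((e1.mul e2).mul e3).mul e4).congr ?_
    intro b _
    unfold STerm.eval
    simp only [QQ.inv_val, QQ.sub_val, QQ.ofNat_val, Nat.cast_one]
  have hmid : CRealOn ({a : Unit × ℕ × QQ | a.1 ∈ (Set.univ : Set Unit)} ∩
      {a : Unit × ℕ × QQ | QQ.mid a.2.2 = true})
      (fun a => ((sTab a.2.1).map (fun τ =>
        STerm.eval (Real.smoothTransition a.2.2.val) a.2.2.val τ)).sum) :=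
    CRealOn.list_sum (fun a : Unit × ℕ × QQ => sTab a.2.1)
      (sTab_primrec.to_comp.comp (Computable.fst.comp Computable.snd))
      (g := fun b : (Unit × ℕ × QQ) × STerm =>
        STerm.eval (Real.smoothTransition b.1.2.2.val) b.1.2.2.val b.2) hterm
  have hout : CRealOn ({a : Unit × ℕ × QQ | a.1 ∈ (Set.univ : Set Unit)} ∩
      {a : Unit × ℕ × QQ | QQ.mid a.2.2 = false}) (fun a => (sOut a).val) :=
    CRealOn.of_rat sOut sOut_primrec.to_comp
  have hb : Computable (fun a : Unit × ℕ × QQ => QQ.mid a.2.2) :=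
    QQ.mid_primrec.to_comp.comp (Computable.snd.comp Computable.snd)
  refine (CRealOn.ite (fun a : Unit × ℕ × QQ => QQ.mid a.2.2) hb hmid hout).congr ?_
  intro a _
  by_cases hm : QQ.mid a.2.2 = true
  · have h01 := (QQ.mid_iff _).1 hm
    simp only [hm, if_true]
    rw [smoothTransition_iteratedDeriv_mid a.2.1 h01.1 h01.2]
  · have hm' : QQ.mid a.2.2 = false := by simpa using hm
    simp only [hm', Bool.false_eq_true, if_false]
    exact sOut_val a hm'

end Vale.Agent.Lib.P113
end

section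
namespace Vale.Agent.Lib.P113

/-- the rational finite sum `∑ i < N, x ^ (i + 1) / (i + 1)` with `x = n / (n + 1)` -/
def logSumQ (n N : ℕ) : QQ :=
  Nat.rec (QQ.ofNat 0)
    (fun i acc => QQ.add acc (QQ.mul (QQ.pow (QQ.frac n n) (i + 1)) (QQ.frac 1 i))) N

theorem logSumQ_val (n N : ℕ) :
    (logSumQ n N).val
      = ∑ i ∈ Finset.range N, ((n : ℝ) / ((n : ℝ) + 1)) ^ (i + 1) / ((i : ℝ) + 1) := by
  induction N with
  | zero =>
    simp [logSumQ, QQ.ofNat_val]
  | succ N ih =>
    have hstep : logSumQ n (N + 1)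
        = QQ.add (logSumQ n N) (QQ.mul (QQ.pow (QQ.frac n n) (N + 1)) (QQ.frac 1 N)) := rfl
    rw [hstep, QQ.add_val, ih, Finset.sum_range_succ, QQ.mul_val, QQ.pow_val, QQ.frac_val,
      QQ.frac_val]
    congr 1
    push_cast
    ring

/-- the number of terms used for the accuracy `1 / (k + 1)` -/
def logTerms (a : ℕ × ℕ) : ℕ := (a.1 + 1) * (a.1 + 1) * (a.2 + 1)

theorem logTerms_primrec : Primrec logTerms := by
  unfold logTerms
  apply Primrec.nat_mul.comp
  · exact Primrec.nat_mul.comp (Primrec.succ.comp Primrec.fst) (Primrec.succ.comp Primrec.fst)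
  · exact Primrec.succ.comp Primrec.snd

theorem logSumQ_primrec : Primrec (fun a : ℕ × ℕ => logSumQ a.1 (logTerms a)) := by
  have hh : Primrec₂ (fun (a : ℕ × ℕ) (b : ℕ × QQ) =>
      QQ.add b.2 (QQ.mul (QQ.pow (QQ.frac a.1 a.1) (b.1 + 1)) (QQ.frac 1 b.1))) := by
    apply QQ.add_primrec.comp
    · exact Primrec.snd.comp Primrec.snd
    · apply QQ.mul_primrec.comp
      · apply QQ.pow_primrec.comp
        · exact QQ.frac_primrec.comp (Primrec.fst.comp Primrec.fst) (Primrec.fst.comp Primrec.fst)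
        · exact Primrec.succ.comp (Primrec.fst.comp Primrec.snd)
      · exact QQ.frac_primrec.comp (Primrec.const 1) (Primrec.fst.comp Primrec.snd)
  have hg : Primrec (fun _ : ℕ × ℕ => QQ.ofNat 0) := Primrec.const _
  exact Primrec.nat_rec' logTerms_primrec hg hh

theorem log_tail_bound (n k : ℕ) :
    ((n : ℝ) / ((n : ℝ) + 1)) ^ (logTerms (n, k) + 1) * ((n : ℝ) + 1) ≤ 1 / ((k : ℝ) + 1) := by
  rcases Nat.eq_zero_or_pos n with h0 | hpos
  · subst h0
    simp
    positivity
  · have hn : (0:ℝ) < n := by exact_mod_cast hpos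
    have hk : (0:ℝ) < (k : ℝ) + 1 := by positivity
    set N : ℕ := logTerms (n, k) with hN
    have hNval : (N : ℝ) = ((n : ℝ) + 1) * ((n : ℝ) + 1) * ((k : ℝ) + 1) := by
      rw [hN]
      unfold logTerms
      push_cast
      ring
    have hbern : 1 + ((N + 1 : ℕ) : ℝ) * (1 / (n : ℝ)) ≤ (1 + 1 / (n : ℝ)) ^ (N + 1) :=
      one_add_mul_le_pow (by have : (0:ℝ) ≤ 1 / (n : ℝ) := by positivity
                             linarith) (N + 1)
    have hx : (n : ℝ) / ((n : ℝ) + 1) = (1 + 1 / (n : ℝ))⁻¹ := by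
      field_simp
    rw [hx, inv_pow]
    have hpow : (0:ℝ) < (1 + 1 / (n : ℝ)) ^ (N + 1) := by positivity
    have hB : (0:ℝ) < 1 + ((N + 1 : ℕ) : ℝ) * (1 / (n : ℝ)) := by positivity
    have h1 : ((1 + 1 / (n : ℝ)) ^ (N + 1))⁻¹ ≤ (1 + ((N + 1 : ℕ) : ℝ) * (1 / (n : ℝ)))⁻¹ :=
      inv_anti₀ hB hbern
    have h2 : (1 + ((N + 1 : ℕ) : ℝ) * (1 / (n : ℝ)))⁻¹ * ((n : ℝ) + 1) ≤ 1 / ((k : ℝ) + 1) := by
      rw [inv_mul_eq_div, div_le_div_iff₀ hB hk]
      push_cast
      rw [hNval]
      have : ((n : ℝ) + 1) * ((k : ℝ) + 1) * (n : ℝ)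
          ≤ (n : ℝ) + (((n : ℝ) + 1) * ((n : ℝ) + 1) * ((k : ℝ) + 1) + 1) := by
        nlinarith [mul_pos hn hk, mul_pos (mul_pos hn hn) hk]
      have e : 1 * (1 + (((n : ℝ) + 1) * ((n : ℝ) + 1) * ((k : ℝ) + 1) + 1) * (1 / (n : ℝ)))
          = ((n : ℝ) + (((n : ℝ) + 1) * ((n : ℝ) + 1) * ((k : ℝ) + 1) + 1)) / (n : ℝ) := by
        field_simp
      rw [e, le_div_iff₀ hn]
      linarith
    calc ((1 + 1 / (n : ℝ)) ^ (N + 1))⁻¹ * ((n : ℝ) + 1)
        ≤ (1 + ((N + 1 : ℕ) : ℝ) * (1 / (n : ℝ)))⁻¹ * ((n : ℝ) + 1) :=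
          mul_le_mul_of_nonneg_right h1 (by positivity)
      _ ≤ 1 / ((k : ℝ) + 1) := h2

/-- the logarithms of the positive natural numbers are uniformly computable -/
theorem creal_log : CRealOn (Set.univ : Set ℕ) (fun n => Real.log ((n : ℝ) + 1)) := by
  refine ⟨fun n k => logSumQ n (logTerms (n, k)), logSumQ_primrec.to_comp, ?_⟩
  intro n _ k
  have hn0 : (0:ℝ) ≤ n := Nat.cast_nonneg n
  have hn1 : (0:ℝ) < (n : ℝ) + 1 := by positivity
  set x : ℝ := (n : ℝ) / ((n : ℝ) + 1) with hx
  have hx0 : 0 ≤ x := by positivity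
  have hx1 : x < 1 := by
    rw [hx, div_lt_one hn1]
    linarith
  have habs : |x| < 1 := by
    rw [abs_of_nonneg hx0]
    exact hx1
  have hone : 1 - x = ((n : ℝ) + 1)⁻¹ := by
    rw [hx]
    field_simp
    ring
  have hlog : Real.log (1 - x) = - Real.log ((n : ℝ) + 1) := by
    rw [hone, Real.log_inv]
  have hser := Real.abs_log_sub_add_sum_range_le habs (logTerms (n, k))
  rw [hlog, abs_of_nonneg hx0, hone] at hser
  rw [logSumQ_val]
  have hrw : x ^ (logTerms (n, k) + 1) / ((n : ℝ) + 1)⁻¹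
      = x ^ (logTerms (n, k) + 1) * ((n : ℝ) + 1) := by
    rw [div_inv_eq_mul]
  rw [hrw] at hser
  have htail := log_tail_bound n k
  have heq : (∑ i ∈ Finset.range (logTerms (n, k)), x ^ (i + 1) / ((i : ℝ) + 1))
        - Real.log ((n : ℝ) + 1)
      = (∑ i ∈ Finset.range (logTerms (n, k)), x ^ (i + 1) / ((i : ℝ) + 1))
        + - Real.log ((n : ℝ) + 1) := by ring
  rw [heq]
  exact hser.trans htail

end Vale.Agent.Lib.P113
end

section
open scoped ContDiff

namespace Vale.Agent.Lib.P113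

/-- all ways of distributing the directions of a list over two factors (Leibniz rule) -/
def splits : List (Fin 3) → List (List (Fin 3) × List (Fin 3))
  | [] => [([], [])]
  | j :: L => (splits L).flatMap (fun s => [(j :: s.1, s.2), (s.1, j :: s.2)])

theorem splits_eq_foldr (L : List (Fin 3)) :
    splits L = L.foldr
      (fun j acc => acc.flatMap (fun s => [(j :: s.1, s.2), (s.1, j :: s.2)])) [([], [])] := by
  induction L with
  | nil => rfl
  | cons j L ih =>
    show (splits L).flatMap (fun s => [(j :: s.1, s.2), (s.1, j :: s.2)]) = _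
    rw [ih]
    rfl

theorem splits_primrec : Primrec splits := by
  have hg : Primrec₂ (fun (x : List (Fin 3) × (Fin 3 × List (List (Fin 3) × List (Fin 3))))
      (s : List (Fin 3) × List (Fin 3)) => [(x.2.1 :: s.1, s.2), (s.1, x.2.1 :: s.2)]) := by
    have hj : Primrec (fun y : (List (Fin 3) × (Fin 3 × List (List (Fin 3) × List (Fin 3))))
        × (List (Fin 3) × List (Fin 3)) => y.1.2.1) :=
      Primrec.fst.comp (Primrec.snd.comp Primrec.fst)
    have hs1 : Primrec (fun y : (List (Fin 3) × (Fin 3 × List (List (Fin 3) × List (Fin 3))))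
        × (List (Fin 3) × List (Fin 3)) => y.2.1) := Primrec.fst.comp Primrec.snd
    have hs2 : Primrec (fun y : (List (Fin 3) × (Fin 3 × List (List (Fin 3) × List (Fin 3))))
        × (List (Fin 3) × List (Fin 3)) => y.2.2) := Primrec.snd.comp Primrec.snd
    have ha : Primrec (fun y : (List (Fin 3) × (Fin 3 × List (List (Fin 3) × List (Fin 3))))
        × (List (Fin 3) × List (Fin 3)) => (y.1.2.1 :: y.2.1, y.2.2)) :=
      Primrec.pair (Primrec.list_cons.comp hj hs1) hs2
    have hb : Primrec (fun y : (List (Fin 3) × (Fin 3 × List (List (Fin 3) × List (Fin 3))))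
        × (List (Fin 3) × List (Fin 3)) => (y.2.1, y.1.2.1 :: y.2.2)) :=
      Primrec.pair hs1 (Primrec.list_cons.comp hj hs2)
    exact Primrec.list_cons.comp ha (Primrec.list_cons.comp hb (Primrec.const []))
  have hh : Primrec₂ (fun (_ : List (Fin 3))
      (y : Fin 3 × List (List (Fin 3) × List (Fin 3))) =>
      y.2.flatMap (fun s => [(y.1 :: s.1, s.2), (s.1, y.1 :: s.2)])) :=
    Primrec.list_flatMap (Primrec.snd.comp Primrec.snd) hg
  have h := Primrec.list_foldr (f := fun L : List (Fin 3) => L)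
    (g := fun _ : List (Fin 3) => [(([] : List (Fin 3)), ([] : List (Fin 3)))])
    Primrec.id (Primrec.const _) hh
  exact h.of_eq fun L => (splits_eq_foldr L).symm

theorem sum_map_flatMap_pair {α : Type} (l : List α) (f : α → List α) (φ : α → ℝ) :
    ((l.flatMap f).map φ).sum = (l.map (fun s => ((f s).map φ).sum)).sum := by
  induction l with
  | nil => rfl
  | cons a l ih =>
    rw [List.flatMap_cons, List.map_append, List.sum_append, ih, List.map_cons, List.sum_cons]

theorem contDiff_list_sum {ι : Type} (l : List ι) (F : ι → Pt → ℝ)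
    (hF : ∀ i ∈ l, ContDiff ℝ ∞ (F i)) :
    ContDiff ℝ ∞ (fun x => (l.map (fun i => F i x)).sum) := by
  induction l with
  | nil =>
    simp only [List.map_nil, List.sum_nil]
    exact contDiff_const
  | cons a l ih =>
    simp only [List.map_cons, List.sum_cons]
    exact (hF a List.mem_cons_self).add (ih fun i hi => hF i (List.mem_cons_of_mem a hi))

theorem dX_list_sum {ι : Type} (l : List ι) (F : ι → Pt → ℝ)
    (hF : ∀ i ∈ l, ContDiff ℝ ∞ (F i)) (j : Fin 3) :
    dX j (fun x => (l.map (fun i => F i x)).sum)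
      = fun x => (l.map (fun i => dX j (F i) x)).sum := by
  induction l with
  | nil =>
    simp only [List.map_nil, List.sum_nil]
    exact dX_const 0 j
  | cons a l ih =>
    have hl : ∀ i ∈ l, ContDiff ℝ ∞ (F i) := fun i hi => hF i (List.mem_cons_of_mem a hi)
    have h1 : (fun x => ((a :: l).map (fun i => F i x)).sum)
        = fun x => F a x + (l.map (fun i => F i x)).sum := by
      funext x
      simp only [List.map_cons, List.sum_cons]
    rw [h1, dX_add (hF a List.mem_cons_self) (contDiff_list_sum l F hl) j, ih hl]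
    funext x
    simp only [List.map_cons, List.sum_cons]

/-- the Leibniz rule for iterated coordinate derivatives of a product -/
theorem iterDS_mul {g h : Pt → ℝ} (hg : ContDiff ℝ ∞ g) (hh : ContDiff ℝ ∞ h)
    (L : List (Fin 3)) :
    iterDS L (fun x => g x * h x)
      = fun x => ((splits L).map (fun s => iterDS s.1 g x * iterDS s.2 h x)).sum := by
  induction L with
  | nil =>
    funext x
    simp [splits, iterDS]
  | cons j L ih =>
    show dX j (iterDS L (fun x => g x * h x)) = _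
    rw [ih]
    have hsm : ∀ s ∈ splits L, ContDiff ℝ ∞ (fun y => iterDS s.1 g y * iterDS s.2 h y) :=
      fun s _ => (contDiff_iterDS hg s.1).mul (contDiff_iterDS hh s.2)
    rw [dX_list_sum (splits L) (fun s y => iterDS s.1 g y * iterDS s.2 h y) hsm j]
    funext x
    show _ = (((splits L).flatMap (fun s => [(j :: s.1, s.2), (s.1, j :: s.2)])).map
      (fun s => iterDS s.1 g x * iterDS s.2 h x)).sum
    rw [sum_map_flatMap_pair]
    congr 1
    apply List.map_congr_left
    intro s _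
    rw [dX_mul (contDiff_iterDS hg s.1) (contDiff_iterDS hh s.2) j]
    simp only [List.map_cons, List.map_nil, List.sum_cons, List.sum_nil, add_zero]
    rfl

namespace Eff3On

variable {P : Type} [Primcodable P] {S : Set P} {g h : P → Pt → ℝ}

theorem mul (H : Eff3On S g) (G : Eff3On S h) : Eff3On S (fun p x => g p x * h p x) := by
  refine ⟨fun p hp => (H.1 p hp).mul (G.1 p hp), ?_⟩
  have hl : Computable (fun a : P × List (Fin 3) × (QQ × QQ × QQ) => splits a.2.1) :=
    splits_primrec.to_comp.comp (Computable.fst.comp Computable.snd)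
  have hφ1 : Computable (fun b : (P × List (Fin 3) × (QQ × QQ × QQ))
      × (List (Fin 3) × List (Fin 3)) => (b.1.1, b.2.1, b.1.2.2)) :=
    Computable.pair (Computable.fst.comp Computable.fst)
      (Computable.pair (Computable.fst.comp Computable.snd)
        (Computable.snd.comp (Computable.snd.comp Computable.fst)))
  have hφ2 : Computable (fun b : (P × List (Fin 3) × (QQ × QQ × QQ))
      × (List (Fin 3) × List (Fin 3)) => (b.1.1, b.2.2, b.1.2.2)) :=
    Computable.pair (Computable.fst.comp Computable.fst)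
      (Computable.pair (Computable.snd.comp Computable.snd)
        (Computable.snd.comp (Computable.snd.comp Computable.fst)))
  have h1 : CRealOn {b : (P × List (Fin 3) × (QQ × QQ × QQ)) × (List (Fin 3) × List (Fin 3)) |
        b.1 ∈ {a : P × List (Fin 3) × (QQ × QQ × QQ) | a.1 ∈ S} ∧ b.2 ∈ splits b.1.2.1}
      (fun b => iterDS b.2.1 (g b.1.1) (QPt b.1.2.2)) :=
    CRealOn.comp (fun b : (P × List (Fin 3) × (QQ × QQ × QQ))
      × (List (Fin 3) × List (Fin 3)) => (b.1.1, b.2.1, b.1.2.2)) hφ1 (fun b hb => hb.1) H.2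
  have h2 : CRealOn {b : (P × List (Fin 3) × (QQ × QQ × QQ)) × (List (Fin 3) × List (Fin 3)) |
        b.1 ∈ {a : P × List (Fin 3) × (QQ × QQ × QQ) | a.1 ∈ S} ∧ b.2 ∈ splits b.1.2.1}
      (fun b => iterDS b.2.2 (h b.1.1) (QPt b.1.2.2)) :=
    CRealOn.comp (fun b : (P × List (Fin 3) × (QQ × QQ × QQ))
      × (List (Fin 3) × List (Fin 3)) => (b.1.1, b.2.2, b.1.2.2)) hφ2 (fun b hb => hb.1) G.2
  have h3 := CRealOn.list_sum (S := {a : P × List (Fin 3) × (QQ × QQ × QQ) | a.1 ∈ S})
    (fun a : P × List (Fin 3) × (QQ × QQ × QQ) => splits a.2.1) hl (h1.mul h2)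
  refine CRealOn.congr ?_ h3
  intro a ha
  have hLeib := iterDS_mul (H.1 a.1 ha) (G.1 a.1 ha) a.2.1
  exact (congrFun hLeib (QPt a.2.2)).symm

end Eff3On

end Vale.Agent.Lib.P113
end

section
open scoped ContDiff

namespace Vale.Agent.Lib.P113

/-- Iterated derivatives at a point only depend on the field near the point. -/
theorem iterD_congr_of_open {g g' : ℝ → Pt → ℝ} {U : Set (ℝ × Pt)} (hU : IsOpen U)
    (h : ∀ q ∈ U, g q.1 q.2 = g' q.1 q.2) (L : List (Option (Fin 3))) :
    ∀ q ∈ U, iterD L g q.1 q.2 = iterD L g' q.1 q.2 := by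
  induction L with
  | nil =>
    intro q hq
    exact h q hq
  | cons a L ih =>
    rintro ⟨t, x⟩ hq
    cases a with
    | none =>
      show deriv (fun s => iterD L g s x) t = deriv (fun s => iterD L g' s x) t
      have hc : Continuous (fun s : ℝ => ((s, x) : ℝ × Pt)) := by fun_prop
      have hopen : IsOpen ((fun s : ℝ => ((s, x) : ℝ × Pt)) ⁻¹' U) := hU.preimage hc
      have hmem : t ∈ (fun s : ℝ => ((s, x) : ℝ × Pt)) ⁻¹' U := hq
      have hev : (fun s => iterD L g s x) =ᶠ[nhds t] (fun s => iterD L g' s x) := by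
        filter_upwards [hopen.mem_nhds hmem] with s hs
        exact ih (s, x) hs
      exact hev.deriv_eq
    | some j =>
      show deriv (fun s : ℝ => iterD L g t (Function.update x j s)) (x j)
        = deriv (fun s : ℝ => iterD L g' t (Function.update x j s)) (x j)
      have hc : Continuous (fun s : ℝ => ((t, Function.update x j s) : ℝ × Pt)) := by
        refine Continuous.prodMk continuous_const ?_
        exact continuous_const.update j continuous_id
      have hopen : IsOpen ((fun s : ℝ => ((t, Function.update x j s) : ℝ × Pt)) ⁻¹' U) :=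
        hU.preimage hc
      have hmem : x j ∈ (fun s : ℝ => ((t, Function.update x j s) : ℝ × Pt)) ⁻¹' U := by
        show ((t, Function.update x j (x j)) : ℝ × Pt) ∈ U
        rw [Function.update_eq_self]
        exact hq
      have hev : (fun s : ℝ => iterD L g t (Function.update x j s)) =ᶠ[nhds (x j)]
          (fun s : ℝ => iterD L g' t (Function.update x j s)) := by
        filter_upwards [hopen.mem_nhds hmem] with s hs
        exact ih (t, Function.update x j s) hs
      exact hev.deriv_eq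

theorem iterd_tensor_sum_fun {ι : Type} (s : Finset ι) (A : ι → ℝ → ℝ) (B : ι → Pt → ℝ)
    (hA : ∀ i ∈ s, ContDiff ℝ ∞ (A i)) (hB : ∀ i ∈ s, ContDiff ℝ ∞ (B i))
    (L : List (Option (Fin 3))) :
    iterD L (fun r y => ∑ i ∈ s, A i r * B i y)
      = fun t x => ∑ i ∈ s, iteratedDeriv (L.count none) (A i) t
          * iterDS L.reduceOption (B i) x := by
  induction L with
  | nil =>
    funext t x
    simp [iterD, iterDS]
  | cons a L ih =>
    cases a with
    | none =>
      funext t x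
      show deriv (fun r => iterD L (fun r y => ∑ i ∈ s, A i r * B i y) r x) t = _
      rw [ih]
      have hd : ∀ i ∈ s, DifferentiableAt ℝ
          (fun r => iteratedDeriv (L.count none) (A i) r * iterDS L.reduceOption (B i) x) t := by
        intro i hi
        have h1 : Differentiable ℝ (iteratedDeriv (L.count none) (A i)) :=
          (hA i hi).differentiable_iteratedDeriv (L.count none)
            (WithTop.coe_lt_coe.mpr (ENat.natCast_lt_top _))
        exact (h1 t).mul_const _
      rw [deriv_fun_sum hd]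
      refine Finset.sum_congr rfl ?_
      intro i hi
      rw [deriv_mul_const_field]
      have hcount : (none :: L : List (Option (Fin 3))).count none = L.count none + 1 := by
        simp
      have hred : (none :: L : List (Option (Fin 3))).reduceOption = L.reduceOption := by
        simp [List.reduceOption_cons_of_none]
      rw [hcount, hred, iteratedDeriv_succ]
    | some j =>
      funext t x
      show dX j (iterD L (fun r y => ∑ i ∈ s, A i r * B i y) t) x = _
      rw [ih]
      have hsm : ∀ i ∈ s, ContDiff ℝ ∞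
          (fun y => iteratedDeriv (L.count none) (A i) t * iterDS L.reduceOption (B i) y) := by
        intro i hi
        exact contDiff_const.mul (contDiff_iterDS (hB i hi) _)
      have h1 := dX_sum s hsm j
      rw [h1]
      show ∑ i ∈ s, dX j (fun y => iteratedDeriv (L.count none) (A i) t
          * iterDS L.reduceOption (B i) y) x = _
      refine Finset.sum_congr rfl ?_
      intro i hi
      rw [dX_const_mul]
      have hcount : (some j :: L : List (Option (Fin 3))).count none = L.count none := by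
        simp
      have hred : (some j :: L : List (Option (Fin 3))).reduceOption = j :: L.reduceOption := by
        simp [List.reduceOption_cons_of_some]
      rw [hcount, hred]
      rfl

/-- Iterated derivatives of a finite sum of products of a function of time and a function of
space. -/
theorem iterD_tensor_sum {ι : Type} (s : Finset ι) (A : ι → ℝ → ℝ) (B : ι → Pt → ℝ)
    (hA : ∀ i ∈ s, ContDiff ℝ ∞ (A i)) (hB : ∀ i ∈ s, ContDiff ℝ ∞ (B i))
    (L : List (Option (Fin 3))) (t : ℝ) (x : Pt) :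
    iterD L (fun r y => ∑ i ∈ s, A i r * B i y) t x
      = ∑ i ∈ s, iteratedDeriv (L.count none) (A i) t * iterDS L.reduceOption (B i) x := by
  rw [iterd_tensor_sum_fun s A B hA hB L]

end Vale.Agent.Lib.P113
end
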