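import Vale.Agent.Lib.P113.Eff.Core
import Vale.Agent.Lib.P113.MachL

section
namespace Vale.Agent.Lib.P113

/-! Raw (numerical) data of a machine description, with primitive recursiveness. -/

def MDesc.k (d : MDesc) : ℕ := d.1

def MDesc.m (d : MDesc) : ℕ := d.2.1

def MDesc.NS (d : MDesc) : ℕ := d.m + 2 + 2 * ((d.k + 1) * (d.m + 1))

/-- new state of the instruction for the state `q` and the symbol `s` -/
def MDesc.trq (d : MDesc) (q s : ℕ) : ℕ := (d.entry q s).1 % (d.k + 1)

/-- written symbol of that instruction -/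
def MDesc.trs (d : MDesc) (q s : ℕ) : ℕ := (d.entry q s).2.1 % (d.m + 1)

/-- move of that instruction -/
def MDesc.trm (d : MDesc) (q s : ℕ) : Bool := (d.entry q s).2.2

/-- halting flag of the state `q` -/
def MDesc.hlt (d : MDesc) (q : ℕ) : Bool := d.2.2.2.1.getD q false

theorem MDesc.toMachine_k (d : MDesc) : d.toMachine.k = d.k := rfl

theorem MDesc.toMachine_m (d : MDesc) : d.toMachine.m = d.m := rfl

theorem MDesc.toMachine_NS (d : MDesc) : d.toMachine.NS = d.NS := rfl

theorem MDesc.toMachine_halting (d : MDesc) (q : Fin (d.toMachine.k + 1)) :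
    d.toMachine.halting q = d.hlt q.val := rfl

theorem MDesc.toMachine_trq (d : MDesc) (q : Fin (d.toMachine.k + 1))
    (s : Fin (d.toMachine.m + 1)) : (d.toMachine.trans q s).1.val = d.trq q.val s.val := by
  rfl

theorem MDesc.toMachine_trs (d : MDesc) (q : Fin (d.toMachine.k + 1))
    (s : Fin (d.toMachine.m + 1)) : (d.toMachine.trans q s).2.1.val = d.trs q.val s.val := by
  rfl

theorem MDesc.toMachine_trm (d : MDesc) (q : Fin (d.toMachine.k + 1))
    (s : Fin (d.toMachine.m + 1)) : (d.toMachine.trans q s).2.2 = d.trm q.val s.val := by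
  rfl

theorem MDesc.k_primrec : Primrec MDesc.k := Primrec.fst

theorem MDesc.m_primrec : Primrec MDesc.m := Primrec.fst.comp Primrec.snd

theorem MDesc.NS_primrec : Primrec MDesc.NS := by
  unfold MDesc.NS
  exact Primrec.nat_add.comp (Primrec.nat_add.comp MDesc.m_primrec (Primrec.const 2))
    (Primrec.nat_mul.comp (Primrec.const 2)
      (Primrec.nat_mul.comp (Primrec.nat_add.comp MDesc.k_primrec (Primrec.const 1))
        (Primrec.nat_add.comp MDesc.m_primrec (Primrec.const 1))))

theorem MDesc.entry_primrec : Primrec (fun a : MDesc × ℕ × ℕ => a.1.entry a.2.1 a.2.2) := by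
  unfold MDesc.entry
  have h1 : Primrec (fun a : MDesc × ℕ × ℕ => a.1.2.2.2.2) :=
    (Primrec.snd.comp (Primrec.snd.comp (Primrec.snd.comp Primrec.snd))).comp Primrec.fst
  have h2 : Primrec (fun a : MDesc × ℕ × ℕ => a.2.1 * (a.1.2.1 + 1) + a.2.2) :=
    Primrec.nat_add.comp
      (Primrec.nat_mul.comp (Primrec.fst.comp Primrec.snd)
        (Primrec.nat_add.comp (MDesc.m_primrec.comp Primrec.fst) (Primrec.const 1)))
      (Primrec.snd.comp Primrec.snd)
  exact (Primrec.list_getD (0, 0, false)).comp h1 h2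

theorem MDesc.trq_primrec : Primrec (fun a : MDesc × ℕ × ℕ => a.1.trq a.2.1 a.2.2) := by
  unfold MDesc.trq
  exact Primrec.nat_mod.comp (Primrec.fst.comp MDesc.entry_primrec)
    (Primrec.nat_add.comp (MDesc.k_primrec.comp Primrec.fst) (Primrec.const 1))

theorem MDesc.trs_primrec : Primrec (fun a : MDesc × ℕ × ℕ => a.1.trs a.2.1 a.2.2) := by
  unfold MDesc.trs
  exact Primrec.nat_mod.comp (Primrec.fst.comp (Primrec.snd.comp MDesc.entry_primrec))
    (Primrec.nat_add.comp (MDesc.m_primrec.comp Primrec.fst) (Primrec.const 1))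

theorem MDesc.trm_primrec : Primrec (fun a : MDesc × ℕ × ℕ => a.1.trm a.2.1 a.2.2) := by
  unfold MDesc.trm
  exact Primrec.snd.comp (Primrec.snd.comp MDesc.entry_primrec)

theorem MDesc.hlt_primrec : Primrec₂ MDesc.hlt := by
  have h1 : Primrec (fun a : MDesc × ℕ => a.1.2.2.2.1) :=
    (Primrec.fst.comp (Primrec.snd.comp (Primrec.snd.comp Primrec.snd))).comp Primrec.fst
  exact (Primrec.list_getD false).comp h1 Primrec.snd

/-- a description of the machine `M` -/
def descOf (M : Machine) : MDesc :=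
  (M.k, M.m, M.start.val, List.ofFn M.halting,
    List.ofFn (fun i : Fin ((M.k + 1) * (M.m + 1)) =>
      ((M.trans (Fin.ofNat (M.k + 1) (i.val / (M.m + 1)))
          (Fin.ofNat (M.m + 1) (i.val % (M.m + 1)))).1.val,
       (M.trans (Fin.ofNat (M.k + 1) (i.val / (M.m + 1)))
          (Fin.ofNat (M.m + 1) (i.val % (M.m + 1)))).2.1.val,
       (M.trans (Fin.ofNat (M.k + 1) (i.val / (M.m + 1)))
          (Fin.ofNat (M.m + 1) (i.val % (M.m + 1)))).2.2)))

theorem desc_ofNat_val (n : ℕ) (x : Fin (n + 1)) : Fin.ofNat (n + 1) x.val = x :=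
  Fin.ext (Nat.mod_eq_of_lt x.isLt)

theorem descOf_entry (M : Machine) (q : Fin (M.k + 1)) (s : Fin (M.m + 1)) :
    (descOf M).entry q.val s.val
      = ((M.trans q s).1.val, (M.trans q s).2.1.val, (M.trans q s).2.2) := by
  have hlt : q.val * (M.m + 1) + s.val < (M.k + 1) * (M.m + 1) := by
    have hq := q.isLt
    have hs := s.isLt
    nlinarith
  have hdiv : (q.val * (M.m + 1) + s.val) / (M.m + 1) = q.val := by
    rw [Nat.add_comm, Nat.add_mul_div_right _ _ (by omega), Nat.div_eq_of_lt s.isLt, Nat.zero_add]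
  have hmod : (q.val * (M.m + 1) + s.val) % (M.m + 1) = s.val := by
    rw [Nat.add_comm, Nat.add_mul_mod_self_right, Nat.mod_eq_of_lt s.isLt]
  unfold MDesc.entry descOf
  simp only
  rw [List.getD_eq_getElem _ _ (by rw [List.length_ofFn]; exact hlt), List.getElem_ofFn]
  simp only [hdiv, hmod, desc_ofNat_val]

theorem desc_machine_ext (k m : ℕ) (s s' : Fin (k + 1)) (h h' : Fin (k + 1) → Bool)
    (t t' : Fin (k + 1) → Fin (m + 1) → Fin (k + 1) × Fin (m + 1) × Bool)
    (hs : s = s') (hh : h = h') (ht : t = t') :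
    (⟨k, m, s, h, t⟩ : Machine) = ⟨k, m, s', h', t'⟩ := by
  subst hs
  subst hh
  subst ht
  rfl

theorem descOf_toMachine (M : Machine) : (descOf M).toMachine = M := by
  have hentry := descOf_entry M
  obtain ⟨k, m, start, halting, trans⟩ := M
  apply desc_machine_ext
  · exact desc_ofNat_val k start
  · funext q
    show (List.ofFn halting).getD q.val false = halting q
    rw [List.getD_eq_getElem _ _ (by rw [List.length_ofFn]; exact q.isLt), List.getElem_ofFn]
    rfl
  · funext q s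
    have h1 := hentry q s
    simp only at h1
    apply Prod.ext
    · show Fin.ofNat (k + 1) ((descOf ⟨k, m, start, halting, trans⟩).entry q.val s.val).1 = _
      rw [h1]
      exact desc_ofNat_val k _
    · apply Prod.ext
      · show Fin.ofNat (m + 1) ((descOf ⟨k, m, start, halting, trans⟩).entry q.val s.val).2.1 = _
        rw [h1]
        exact desc_ofNat_val m _
      · show ((descOf ⟨k, m, start, halting, trans⟩).entry q.val s.val).2.2 = _
        rw [h1]

/-- every machine has a description -/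
theorem MDesc.toMachine_surjective (M : Machine) : ∃ d : MDesc, d.toMachine = M :=
  ⟨descOf M, descOf_toMachine M⟩

/-- every input word of the machine of a description is described by a list of numbers -/
theorem MDesc.word_surjective (d : MDesc) (w' : List (Fin (d.toMachine.m + 1))) :
    ∃ w : List ℕ, d.word w = w' := by
  refine ⟨w'.map Fin.val, ?_⟩
  unfold MDesc.word
  rw [List.map_map]
  have hid : (Fin.ofNat (d.toMachine.m + 1) ∘ Fin.val : Fin (d.toMachine.m + 1) → _) = id := by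
    funext x
    exact desc_ofNat_val _ x
  rw [hid, List.map_id]

/-- the base of the machine of a description -/
def MDesc.bs (d : MDesc) : ℕ := 2 * (d.2.1 + 2 + 2 * ((d.1 + 1) * (d.2.1 + 1)))

theorem MDesc.bs_primrec : Primrec MDesc.bs := by
  unfold MDesc.bs
  exact Primrec.nat_mul.comp (Primrec.const 2)
    (Primrec.nat_add.comp (Primrec.nat_add.comp MDesc.m_primrec (Primrec.const 2))
      (Primrec.nat_mul.comp (Primrec.const 2)
        (Primrec.nat_mul.comp (Primrec.nat_add.comp MDesc.k_primrec (Primrec.const 1))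
          (Primrec.nat_add.comp MDesc.m_primrec (Primrec.const 1)))))

theorem MDesc.bs_cast (d : MDesc) : ((d.bs - 1 : ℕ) : ℝ) + 1 = (d.bs : ℝ) := by
  have h1 : 1 ≤ d.bs := by
    unfold MDesc.bs
    omega
  rw [Nat.cast_sub h1]
  simp

/-- one digit of the code of the input -/
def icqTerm (a : MDesc × List ℕ) (i : ℕ) : QQ :=
  QQ.mul (QQ.ofNat (a.2.getD i 0 % (a.1.2.1 + 1))) (QQ.pow (QQ.frac 1 (a.1.bs - 1)) (i + 2))

/-- the sum of the first `n` digits of the code of the input -/
def icqSum (a : MDesc × List ℕ) (n : ℕ) : QQ :=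
  Nat.rec (QQ.ofNat 0) (fun i acc => QQ.add acc (icqTerm a i)) n

/-- the code of the input, as a coded rational number -/
def icqFun (a : MDesc × List ℕ) : QQ :=
  QQ.add (QQ.frac (2 * (a.1.2.2.1 % (a.1.1 + 1)) + 1) (a.1.bs - 1)) (icqSum a a.2.length)

theorem icqTerm_val (a : MDesc × List ℕ) (i : ℕ) :
    (icqTerm a i).val = ((a.2.getD i 0 % (a.1.2.1 + 1) : ℕ) : ℝ) / (a.1.bs : ℝ) ^ (i + 2) := by
  unfold icqTerm
  rw [QQ.mul_val, QQ.ofNat_val, QQ.pow_val, QQ.frac_val, MDesc.bs_cast, Nat.cast_one, one_div,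
    inv_pow, div_eq_mul_inv]

theorem icqSum_val (a : MDesc × List ℕ) (n : ℕ) :
    (icqSum a n).val = ∑ i ∈ Finset.range n,
      ((a.2.getD i 0 % (a.1.2.1 + 1) : ℕ) : ℝ) / (a.1.bs : ℝ) ^ (i + 2) := by
  induction n with
  | zero =>
    show (QQ.ofNat 0).val = _
    rw [QQ.ofNat_val]
    simp
  | succ n ih =>
    show (QQ.add (icqSum a n) (icqTerm a n)).val = _
    rw [QQ.add_val, ih, icqTerm_val, Finset.sum_range_succ]

theorem icqDigit_primrec :
    Primrec (fun x : (MDesc × List ℕ) × (ℕ × QQ) => x.1.2.getD x.2.1 0 % (x.1.1.2.1 + 1)) := by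
  have h1 : Primrec (fun x : (MDesc × List ℕ) × (ℕ × QQ) => x.1.2.getD x.2.1 0) :=
    (Primrec.list_getD 0).comp (Primrec.snd.comp Primrec.fst) (Primrec.fst.comp Primrec.snd)
  have h2 : Primrec (fun x : (MDesc × List ℕ) × (ℕ × QQ) => x.1.1.2.1 + 1) :=
    Primrec.nat_add.comp (MDesc.m_primrec.comp (Primrec.fst.comp Primrec.fst)) (Primrec.const 1)
  exact Primrec.nat_mod.comp h1 h2

theorem icqPow_primrec :
    Primrec (fun x : (MDesc × List ℕ) × (ℕ × QQ) =>
      QQ.pow (QQ.frac 1 (x.1.1.bs - 1)) (x.2.1 + 2)) := by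
  have h1 : Primrec (fun x : (MDesc × List ℕ) × (ℕ × QQ) => x.1.1.bs - 1) :=
    Primrec.nat_sub.comp (MDesc.bs_primrec.comp (Primrec.fst.comp Primrec.fst)) (Primrec.const 1)
  have h2 : Primrec (fun x : (MDesc × List ℕ) × (ℕ × QQ) => QQ.frac 1 (x.1.1.bs - 1)) :=
    QQ.frac_primrec.comp (Primrec.const 1) h1
  have h3 : Primrec (fun x : (MDesc × List ℕ) × (ℕ × QQ) => x.2.1 + 2) :=
    Primrec.nat_add.comp (Primrec.fst.comp Primrec.snd) (Primrec.const 2)
  exact QQ.pow_primrec.comp h2 h3

theorem icqTerm_primrec :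
    Primrec (fun x : (MDesc × List ℕ) × (ℕ × QQ) => icqTerm x.1 x.2.1) := by
  have h1 : Primrec (fun x : (MDesc × List ℕ) × (ℕ × QQ) =>
      QQ.ofNat (x.1.2.getD x.2.1 0 % (x.1.1.2.1 + 1))) :=
    QQ.ofNat_primrec.comp icqDigit_primrec
  exact QQ.mul_primrec.comp h1 icqPow_primrec

theorem icqSum_primrec : Primrec (fun a : MDesc × List ℕ => icqSum a a.2.length) := by
  have hstep : Primrec₂ (fun (a : MDesc × List ℕ) (p : ℕ × QQ) => QQ.add p.2 (icqTerm a p.1)) :=
    QQ.add_primrec.comp (Primrec.snd.comp Primrec.snd) icqTerm_primrec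
  have hlen : Primrec (fun a : MDesc × List ℕ => a.2.length) :=
    Primrec.list_length.comp Primrec.snd
  have hzero : Primrec (fun _ : MDesc × List ℕ => QQ.ofNat 0) := Primrec.const _
  have key := Primrec.nat_rec' hlen hzero hstep
  exact key.of_eq (fun a => rfl)

theorem icqHead_primrec :
    Primrec (fun a : MDesc × List ℕ =>
      QQ.frac (2 * (a.1.2.2.1 % (a.1.1 + 1)) + 1) (a.1.bs - 1)) := by
  have h1 : Primrec (fun a : MDesc × List ℕ => a.1.2.2.1) :=
    (Primrec.fst.comp (Primrec.snd.comp Primrec.snd)).comp Primrec.fst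
  have h2 : Primrec (fun a : MDesc × List ℕ => a.1.1 + 1) :=
    Primrec.nat_add.comp (MDesc.k_primrec.comp Primrec.fst) (Primrec.const 1)
  have h3 : Primrec (fun a : MDesc × List ℕ => a.1.2.2.1 % (a.1.1 + 1)) :=
    Primrec.nat_mod.comp h1 h2
  have h4 : Primrec (fun a : MDesc × List ℕ => 2 * (a.1.2.2.1 % (a.1.1 + 1)) + 1) :=
    Primrec.nat_add.comp (Primrec.nat_mul.comp (Primrec.const 2) h3) (Primrec.const 1)
  have h5 : Primrec (fun a : MDesc × List ℕ => a.1.bs - 1) :=
    Primrec.nat_sub.comp (MDesc.bs_primrec.comp Primrec.fst) (Primrec.const 1)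
  exact QQ.frac_primrec.comp h4 h5

theorem icqFun_primrec : Primrec icqFun :=
  QQ.add_primrec.comp icqHead_primrec icqSum_primrec

theorem desc_word_getD (d : MDesc) (w : List ℕ) (i : ℕ) :
    ((d.word w).getD i 0).val = w.getD i 0 % (d.2.1 + 1) := by
  unfold MDesc.word
  have h0 : (0 : Fin (d.toMachine.m + 1)) = Fin.ofNat (d.toMachine.m + 1) 0 := rfl
  rw [h0, List.getD_map]
  rfl

theorem icqFun_val (d : MDesc) (w : List ℕ) :
    (icqFun (d, w)).val = inputCode d.toMachine (d.word w) := by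
  unfold icqFun inputCode
  rw [QQ.add_val, QQ.frac_val, icqSum_val, MDesc.bs_cast]
  have hlen : (d.word w).length = w.length := by
    unfold MDesc.word
    rw [List.length_map]
  have hbase : d.toMachine.base = d.bs := rfl
  have hstart : d.toMachine.start.val = d.2.2.1 % (d.1 + 1) := rfl
  rw [hlen, hbase, hstart]
  congr 1
  · push_cast
    rfl
  · apply Finset.sum_congr rfl
    intro i _
    rw [desc_word_getD]

/-- the rational code of the input is computable from the description and the word -/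
theorem inputCode_computable :
    ∃ icq : MDesc × List ℕ → QQ, Computable icq ∧
      ∀ (d : MDesc) (w : List ℕ), (icq (d, w)).val = inputCode d.toMachine (d.word w) :=
  ⟨icqFun, icqFun_primrec.to_comp, icqFun_val⟩

end Vale.Agent.Lib.P113
end

section
namespace Vale.Agent.Lib.P113

/-- Raw rule keys: a description, a mode, the number of a state and the digit of a stack
symbol. -/
abbrev RK : Type := MDesc × Bool × ℕ × ℕ

/-- the raw form of a rule key of the machine of a description -/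
def rawKey (d : MDesc) (κ : Key d.toMachine) : RK :=
  (d, κ.1, κ.2.1.val, symDigit d.toMachine κ.2.2)

def MDesc.KN (d : MDesc) : ℕ := 2 * (d.k + 1) * d.NS

theorem MDesc.toMachine_KN (d : MDesc) : d.toMachine.KN = d.KN := rfl

end Vale.Agent.Lib.P113
end

section
open scoped ContDiff

namespace Vale.Agent.Lib.P113

/-- the number of stack symbols -/
theorem keySum_card_sym (M : Machine) : Fintype.card (Sym M) = M.NS := by
  unfold Machine.NS
  simp only [Fintype.card_sum, Fintype.card_option, Fintype.card_prod, Fintype.card_fin,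
    Fintype.card_bool]
  ring

/-- a sum over the stack symbols as a sum over their digits -/
theorem keySum_sum_sym (M : Machine) (G : ℕ → ℝ) :
    ∑ s : Sym M, G (symDigit M s) = ∑ sd ∈ Finset.range M.NS, G sd := by
  have hbij : Function.Bijective
      (fun s : Sym M => (⟨symDigit M s, symDigit_lt M s⟩ : Fin M.NS)) := by
    rw [Fintype.bijective_iff_injective_and_card]
    refine ⟨fun s s' h => symDigit_inj M s s' (congrArg Fin.val h), ?_⟩
    rw [keySum_card_sym, Fintype.card_fin]
  rw [← Fin.sum_univ_eq_sum_range G M.NS]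
  exact Fintype.sum_bijective _ hbij _ _ (fun s => rfl)

/-- a sum over the rule keys as a double sum over raw states and digits -/
theorem sum_key_eq (M : Machine) (F : Bool → ℕ → ℕ → ℝ) :
    ∑ κ : Key M, F κ.1 κ.2.1.val (symDigit M κ.2.2)
      = ∑ q ∈ Finset.range (M.k + 1), ∑ sd ∈ Finset.range M.NS,
          (F true q sd + F false q sd) := by
  rw [Fintype.sum_prod_type]
  simp only [Fintype.sum_prod_type, keySum_sum_sym M]
  rw [Fintype.sum_bool,
    Fin.sum_univ_eq_sum_range (fun q => ∑ sd ∈ Finset.range M.NS, F true q sd) (M.k + 1),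
    Fin.sum_univ_eq_sum_range (fun q => ∑ sd ∈ Finset.range M.NS, F false q sd) (M.k + 1),
    ← Finset.sum_add_distrib]
  refine Finset.sum_congr rfl (fun q _ => ?_)
  rw [← Finset.sum_add_distrib]

/-- sums over the rule keys of uniformly effective fields are uniformly effective -/
theorem eff3_key_sum (T : RK → Pt → ℝ)
    (hT : Eff3On {a : RK | a.2.2.1 < a.1.k + 1 ∧ a.2.2.2 < a.1.NS} T) :
    Eff3On (Set.univ : Set MDesc)
      (fun d x => ∑ κ : Key d.toMachine, T (rawKey d κ) x) := by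
  have hφ : ∀ b : Bool, Computable (fun a : (MDesc × ℕ) × ℕ => ((a.1.1, b, a.1.2, a.2) : RK)) :=
    fun b => Computable.pair (Computable.fst.comp Computable.fst)
      (Computable.pair (Computable.const b)
        (Computable.pair (Computable.snd.comp Computable.fst) Computable.snd))
  have hmem : ∀ b : Bool, ∀ a ∈ {a : (MDesc × ℕ) × ℕ |
      a.1 ∈ {a : MDesc × ℕ | a.1 ∈ (Set.univ : Set MDesc) ∧ a.2 < a.1.k + 1} ∧ a.2 < a.1.1.NS},
      ((a.1.1, b, a.1.2, a.2) : RK) ∈ {a : RK | a.2.2.1 < a.1.k + 1 ∧ a.2.2.2 < a.1.NS} :=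
    fun b a ha => ⟨ha.1.2, ha.2⟩
  have A1 := Eff3On.comp (fun a : (MDesc × ℕ) × ℕ => ((a.1.1, true, a.1.2, a.2) : RK))
    (hφ true) (hmem true) hT
  have A0 := Eff3On.comp (fun a : (MDesc × ℕ) × ℕ => ((a.1.1, false, a.1.2, a.2) : RK))
    (hφ false) (hmem false) hT
  have B := Eff3On.sum_range
    (S := {a : MDesc × ℕ | a.1 ∈ (Set.univ : Set MDesc) ∧ a.2 < a.1.k + 1})
    (fun a : MDesc × ℕ => a.1.NS) (MDesc.NS_primrec.to_comp.comp Computable.fst)
    (Eff3On.add A1 A0)
  have C := Eff3On.sum_range (S := (Set.univ : Set MDesc)) (fun d : MDesc => d.k + 1)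
    ((Primrec.succ.comp MDesc.k_primrec).to_comp) B
  refine C.congr (fun d _ => ?_)
  funext x
  exact (sum_key_eq d.toMachine (fun b q sd => T (d, b, q, sd) x)).symm

end Vale.Agent.Lib.P113
end

section
namespace Vale.Agent.Lib.P113

/-! The heights and the node data of the rules are primitive recursive rational functions of
the raw rule key. -/

section Blocks

variable {α : Type} [Primcodable α]

lemma pn_add {f g : α → ℕ} (hf : Primrec f) (hg : Primrec g) : Primrec (fun a => f a + g a) :=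
  Primrec.nat_add.comp hf hg

lemma pn_mul {f g : α → ℕ} (hf : Primrec f) (hg : Primrec g) : Primrec (fun a => f a * g a) :=
  Primrec.nat_mul.comp hf hg

lemma pn_sub {f g : α → ℕ} (hf : Primrec f) (hg : Primrec g) : Primrec (fun a => f a - g a) :=
  Primrec.nat_sub.comp hf hg

lemma pq_ofNat {f : α → ℕ} (hf : Primrec f) : Primrec (fun a => QQ.ofNat (f a)) :=
  QQ.ofNat_primrec.comp hf

lemma pq_add {f g : α → QQ} (hf : Primrec f) (hg : Primrec g) :
    Primrec (fun a => QQ.add (f a) (g a)) :=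
  QQ.add_primrec.comp hf hg

lemma pq_sub {f g : α → QQ} (hf : Primrec f) (hg : Primrec g) :
    Primrec (fun a => QQ.sub (f a) (g a)) :=
  QQ.sub_primrec.comp hf hg

lemma pq_mul {f g : α → QQ} (hf : Primrec f) (hg : Primrec g) :
    Primrec (fun a => QQ.mul (f a) (g a)) :=
  QQ.mul_primrec.comp hf hg

lemma pq_neg {f : α → QQ} (hf : Primrec f) : Primrec (fun a => QQ.neg (f a)) :=
  QQ.neg_primrec.comp hf

lemma pq_inv {f : α → QQ} (hf : Primrec f) : Primrec (fun a => QQ.inv (f a)) :=
  QQ.inv_primrec.comp hf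

lemma pq_pow {f : α → QQ} (hf : Primrec f) (e : ℕ) : Primrec (fun a => QQ.pow (f a) e) :=
  QQ.pow_primrec.comp hf (Primrec.const e)

end Blocks

lemma rk_b : Primrec (fun a : RK => a.2.1) := Primrec.fst.comp Primrec.snd

lemma rk_q : Primrec (fun a : RK => a.2.2.1) := Primrec.fst.comp (Primrec.snd.comp Primrec.snd)

lemma rk_sd : Primrec (fun a : RK => a.2.2.2) := Primrec.snd.comp (Primrec.snd.comp Primrec.snd)

lemma rk_k : Primrec (fun a : RK => a.1.k) := MDesc.k_primrec.comp Primrec.fst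

lemma rk_m : Primrec (fun a : RK => a.1.m) := MDesc.m_primrec.comp Primrec.fst

lemma rk_NS : Primrec (fun a : RK => a.1.NS) := MDesc.NS_primrec.comp Primrec.fst

lemma rk_triple : Primrec (fun a : RK => (a.1, a.2.2.1, a.2.2.2)) :=
  Primrec.pair Primrec.fst (Primrec.pair rk_q rk_sd)

lemma rk_trq : Primrec (fun a : RK => a.1.trq a.2.2.1 a.2.2.2) := by
  have h := MDesc.trq_primrec.comp rk_triple
  exact h.of_eq (fun a => rfl)

lemma rk_trs : Primrec (fun a : RK => a.1.trs a.2.2.1 a.2.2.2) := by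
  have h := MDesc.trs_primrec.comp rk_triple
  exact h.of_eq (fun a => rfl)

lemma rk_trm : Primrec (fun a : RK => a.1.trm a.2.2.1 a.2.2.2) := by
  have h := MDesc.trm_primrec.comp rk_triple
  exact h.of_eq (fun a => rfl)

lemma rk_hlt : Primrec (fun a : RK => a.1.hlt a.2.2.1) :=
  MDesc.hlt_primrec.comp Primrec.fst rk_q

lemma rk_KN : Primrec (fun a : RK => a.1.KN) :=
  pn_mul (pn_mul (Primrec.const 2) (pn_add rk_k (Primrec.const 1))) rk_NS

/-- the six cases of a raw key: mode `true` with a tape symbol and a move to the right, or to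
the left, mode `true` with another symbol, and the same three cases in mode `false` -/
def rkCase {σ : Type} (a : RK) (x1 x2 x3 x4 x5 x6 : σ) : σ :=
  if a.2.1 = true then
    (if a.2.2.2 ≤ a.1.m then (if a.1.trm a.2.2.1 a.2.2.2 = true then x1 else x2) else x3)
  else
    (if a.2.2.2 ≤ a.1.m then (if a.1.trm a.2.2.1 a.2.2.2 = true then x4 else x5) else x6)

lemma rkCase_primrec {σ : Type} [Primcodable σ] {f1 f2 f3 f4 f5 f6 : RK → σ}
    (h1 : Primrec f1) (h2 : Primrec f2) (h3 : Primrec f3) (h4 : Primrec f4) (h5 : Primrec f5)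
    (h6 : Primrec f6) :
    Primrec (fun a => rkCase a (f1 a) (f2 a) (f3 a) (f4 a) (f5 a) (f6 a)) := by
  have hb : PrimrecPred (fun a : RK => a.2.1 = true) :=
    Primrec.eq.comp rk_b (Primrec.const true)
  have hs : PrimrecPred (fun a : RK => a.2.2.2 ≤ a.1.m) := Primrec.nat_le.comp rk_sd rk_m
  have hm : PrimrecPred (fun a : RK => a.1.trm a.2.2.1 a.2.2.2 = true) :=
    Primrec.eq.comp rk_trm (Primrec.const true)
  unfold rkCase
  exact Primrec.ite hb (Primrec.ite hs (Primrec.ite hm h1 h2) h3)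
    (Primrec.ite hs (Primrec.ite hm h4 h5) h6)

lemma symDigit_inr_ge (d : MDesc)
    (g : Option (Bool × Fin (d.toMachine.k + 1) × Fin (d.toMachine.m + 1))) :
    d.m + 1 ≤ symDigit d.toMachine (Sum.inr g) := by
  have hm : d.toMachine.m = d.m := rfl
  rcases g with _ | ⟨b', q', s'⟩
  · show d.m + 1 ≤ d.toMachine.m + 1
    omega
  · show d.m + 1 ≤ d.toMachine.m + 2
      + (2 * (q'.val * (d.toMachine.m + 1) + s'.val) + (if b' then 1 else 0))
    omega

lemma rkCase_true_inl {σ : Type} (d : MDesc) (q : Fin (d.toMachine.k + 1))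
    (s : Fin (d.toMachine.m + 1)) (x1 x2 x3 x4 x5 x6 : σ) :
    rkCase (rawKey d (true, q, Sum.inl s)) x1 x2 x3 x4 x5 x6
      = if (d.toMachine.trans q s).2.2 = true then x1 else x2 := by
  have hs : s.val ≤ d.m := Nat.lt_succ_iff.1 s.isLt
  have hm : d.trm q.val s.val = (d.toMachine.trans q s).2.2 := (MDesc.toMachine_trm d q s).symm
  unfold rkCase
  show (if (true = true) then (if s.val ≤ d.m then
      (if d.trm q.val s.val = true then x1 else x2) else x3) else _) = _
  rw [if_pos rfl, if_pos hs, hm]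

lemma rkCase_false_inl {σ : Type} (d : MDesc) (q : Fin (d.toMachine.k + 1))
    (s : Fin (d.toMachine.m + 1)) (x1 x2 x3 x4 x5 x6 : σ) :
    rkCase (rawKey d (false, q, Sum.inl s)) x1 x2 x3 x4 x5 x6
      = if (d.toMachine.trans q s).2.2 = true then x4 else x5 := by
  have hs : s.val ≤ d.m := Nat.lt_succ_iff.1 s.isLt
  have hm : d.trm q.val s.val = (d.toMachine.trans q s).2.2 := (MDesc.toMachine_trm d q s).symm
  unfold rkCase
  show (if (false = true) then _ else (if s.val ≤ d.m then
      (if d.trm q.val s.val = true then x4 else x5) else x6)) = _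
  rw [if_neg Bool.false_ne_true, if_pos hs, hm]

lemma rkCase_true_inr {σ : Type} (d : MDesc) (q : Fin (d.toMachine.k + 1))
    (g : Option (Bool × Fin (d.toMachine.k + 1) × Fin (d.toMachine.m + 1)))
    (x1 x2 x3 x4 x5 x6 : σ) :
    rkCase (rawKey d (true, q, Sum.inr g)) x1 x2 x3 x4 x5 x6 = x3 := by
  have hg := symDigit_inr_ge d g
  unfold rkCase
  show (if (true = true) then (if symDigit d.toMachine (Sum.inr g) ≤ d.m then _ else x3)
    else _) = _
  rw [if_pos rfl, if_neg (by omega)]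

lemma rkCase_false_inr {σ : Type} (d : MDesc) (q : Fin (d.toMachine.k + 1))
    (g : Option (Bool × Fin (d.toMachine.k + 1) × Fin (d.toMachine.m + 1)))
    (x1 x2 x3 x4 x5 x6 : σ) :
    rkCase (rawKey d (false, q, Sum.inr g)) x1 x2 x3 x4 x5 x6 = x6 := by
  have hg := symDigit_inr_ge d g
  unfold rkCase
  show (if (false = true) then _ else
    (if symDigit d.toMachine (Sum.inr g) ≤ d.m then _ else x6)) = _
  rw [if_neg Bool.false_ne_true, if_neg (by omega)]

/-- the base `2 * NS` as a coded rational -/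
def rkB (a : RK) : QQ := QQ.ofNat (2 * a.1.NS)

/-- the coded rational `n / (2 * NS) ^ e` -/
def rkT (e n : ℕ) (a : RK) : QQ := QQ.mul (QQ.ofNat n) (QQ.inv (QQ.pow (rkB a) e))

lemma rkB_primrec : Primrec rkB := pq_ofNat (pn_mul (Primrec.const 2) rk_NS)

lemma rkT_primrec (e : ℕ) {n : RK → ℕ} (hn : Primrec n) : Primrec (fun a => rkT e (n a) a) :=
  pq_mul (pq_ofNat hn) (pq_inv (pq_pow rkB_primrec e))

lemma rkB_val (a : RK) : (rkB a).val = 2 * (a.1.NS : ℝ) := by
  unfold rkB
  rw [QQ.ofNat_val]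
  push_cast
  ring

lemma rkT_val (e n : ℕ) (a : RK) : (rkT e n a).val = (n : ℝ) / (2 * (a.1.NS : ℝ)) ^ e := by
  unfold rkT
  rw [QQ.mul_val, QQ.ofNat_val, QQ.inv_val, QQ.pow_val, rkB_val, div_eq_mul_inv]

/-! ### heights -/

/-- the height of a raw key -/
def lvlQ (a : RK) : QQ :=
  QQ.add
    (QQ.frac ((2 * a.2.2.1 + (if a.2.1 = true then 1 else 0)) * a.1.NS + a.2.2.2 + 1)
      (8 * a.1.KN - 1))
    (if a.1.hlt a.2.2.1 = true then QQ.frac 1 3 else QQ.ofNat 0)

lemma lvlQ_primrec : Primrec lvlQ := by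
  have hb : PrimrecPred (fun a : RK => a.2.1 = true) :=
    Primrec.eq.comp rk_b (Primrec.const true)
  have hh : PrimrecPred (fun a : RK => a.1.hlt a.2.2.1 = true) :=
    Primrec.eq.comp rk_hlt (Primrec.const true)
  have h1 : Primrec (fun a : RK =>
      (2 * a.2.2.1 + (if a.2.1 = true then 1 else 0)) * a.1.NS + a.2.2.2 + 1) :=
    pn_add (pn_add (pn_mul (pn_add (pn_mul (Primrec.const 2) rk_q)
      (Primrec.ite hb (Primrec.const 1) (Primrec.const 0))) rk_NS) rk_sd) (Primrec.const 1)
  have h2 : Primrec (fun a : RK => 8 * a.1.KN - 1) :=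
    pn_sub (pn_mul (Primrec.const 8) rk_KN) (Primrec.const 1)
  unfold lvlQ
  exact pq_add (QQ.frac_primrec.comp h1 h2) (Primrec.ite hh (Primrec.const _) (Primrec.const _))

lemma MDesc.KN_pos (d : MDesc) : 1 ≤ d.KN := by
  have h1 : 1 ≤ d.NS := by unfold MDesc.NS; omega
  have h2 : 1 ≤ 2 * (d.k + 1) := by omega
  unfold MDesc.KN
  exact Nat.mul_pos h2 h1

lemma lvlQ_val (a : RK) :
    (lvlQ a).val
      = ((((2 * a.2.2.1 + (if a.2.1 = true then 1 else 0)) * a.1.NS + a.2.2.2 : ℕ) : ℝ) + 1)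
          / (8 * (a.1.KN : ℝ))
        + (if a.1.hlt a.2.2.1 = true then 1 / 4 else 0) := by
  have hKN := a.1.KN_pos
  have h1 : ((8 * a.1.KN - 1 : ℕ) : ℝ) + 1 = 8 * (a.1.KN : ℝ) := by
    have h2 : 8 * a.1.KN - 1 + 1 = 8 * a.1.KN := by omega
    exact_mod_cast h2
  unfold lvlQ
  rw [QQ.add_val, QQ.frac_val, h1]
  congr 1
  · push_cast
    ring
  · split_ifs
    · rw [QQ.frac_val]
      norm_num
    · rw [QQ.ofNat_val]
      norm_num

lemma lvlQ_range (a : RK) (hq : a.2.2.1 < a.1.k + 1) (hs : a.2.2.2 < a.1.NS) :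
    0 < (lvlQ a).val ∧ (lvlQ a).val ≤ 3 / 8 := by
  have hKN := a.1.KN_pos
  have hKN' : (0 : ℝ) < (a.1.KN : ℝ) := by exact_mod_cast hKN
  have hb : (if a.2.1 = true then 1 else 0) ≤ 1 := by split_ifs <;> omega
  have h1 : (2 * a.2.2.1 + (if a.2.1 = true then 1 else 0)) * a.1.NS + a.2.2.2 + 1
      ≤ a.1.KN := by
    have h2 : (2 * a.2.2.1 + (if a.2.1 = true then 1 else 0)) * a.1.NS
        ≤ (2 * a.1.k + 1) * a.1.NS := Nat.mul_le_mul_right _ (by omega)
    have h3 : a.1.KN = (2 * a.1.k + 1) * a.1.NS + a.1.NS := by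
      unfold MDesc.KN
      ring
    omega
  have h4 : ((((2 * a.2.2.1 + (if a.2.1 = true then 1 else 0)) * a.1.NS + a.2.2.2 : ℕ) : ℝ) + 1)
      ≤ (a.1.KN : ℝ) := by exact_mod_cast h1
  have h5 : (0 : ℝ) ≤ (((2 * a.2.2.1 + (if a.2.1 = true then 1 else 0)) * a.1.NS
      + a.2.2.2 : ℕ) : ℝ) := Nat.cast_nonneg _
  have h6 : 0 < ((((2 * a.2.2.1 + (if a.2.1 = true then 1 else 0)) * a.1.NS
      + a.2.2.2 : ℕ) : ℝ) + 1) / (8 * (a.1.KN : ℝ)) := by positivity
  have h7 : ((((2 * a.2.2.1 + (if a.2.1 = true then 1 else 0)) * a.1.NS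
      + a.2.2.2 : ℕ) : ℝ) + 1) / (8 * (a.1.KN : ℝ)) ≤ 1 / 8 := by
    rw [div_le_iff₀ (by positivity)]
    linarith
  rw [lvlQ_val]
  generalize ((((2 * a.2.2.1 + (if a.2.1 = true then 1 else 0)) * a.1.NS
      + a.2.2.2 : ℕ) : ℝ) + 1) / (8 * (a.1.KN : ℝ)) = Y at h6 h7 ⊢
  split_ifs
  · constructor <;> linarith
  · constructor <;> linarith

theorem lvl_raw :
    ∃ lvlq : RK → QQ, Primrec lvlq ∧
      (∀ (d : MDesc) (κ : Key d.toMachine), (lvlq (rawKey d κ)).val = lvlK d.toMachine κ) ∧
      (∀ a : RK, a.2.2.1 < a.1.k + 1 → a.2.2.2 < a.1.NS →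
        0 < (lvlq a).val ∧ (lvlq a).val ≤ 3 / 8) := by
  refine ⟨lvlQ, lvlQ_primrec, ?_, lvlQ_range⟩
  intro d κ
  rw [lvlQ_val]
  rfl

/-! ### rates -/

/-- the exponent of the rate of the first coordinate -/
def alE (a : RK) : QQ :=
  rkCase a (QQ.ofNat 1) (QQ.neg (QQ.ofNat 1)) (QQ.ofNat 1) (QQ.neg (QQ.ofNat 1))
    (QQ.neg (QQ.ofNat 2)) (QQ.neg (QQ.ofNat 1))

/-- the exponent of the rate of the second coordinate -/
def beE (a : RK) : QQ :=
  rkCase a (QQ.neg (QQ.ofNat 2)) (QQ.ofNat 0) (QQ.neg (QQ.ofNat 1)) (QQ.neg (QQ.ofNat 1))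
    (QQ.ofNat 1) (QQ.ofNat 1)

lemma alE_primrec : Primrec alE :=
  rkCase_primrec (Primrec.const _) (Primrec.const _) (Primrec.const _) (Primrec.const _)
    (Primrec.const _) (Primrec.const _)

lemma beE_primrec : Primrec beE :=
  rkCase_primrec (Primrec.const _) (Primrec.const _) (Primrec.const _) (Primrec.const _)
    (Primrec.const _) (Primrec.const _)

lemma log_leaf_one (x : ℝ) : Real.log x = (QQ.ofNat 1).val * Real.log x := by
  rw [QQ.ofNat_val]
  push_cast
  ring

lemma log_leaf_neg_one (x : ℝ) :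
    Real.log (1 / x) = (QQ.neg (QQ.ofNat 1)).val * Real.log x := by
  rw [QQ.neg_val, QQ.ofNat_val, one_div, Real.log_inv]
  push_cast
  ring

lemma log_leaf_neg_two (x : ℝ) :
    Real.log (1 / x ^ 2) = (QQ.neg (QQ.ofNat 2)).val * Real.log x := by
  rw [QQ.neg_val, QQ.ofNat_val, one_div, Real.log_inv, Real.log_pow]
  push_cast
  ring

lemma log_leaf_zero (x : ℝ) : Real.log 1 = (QQ.ofNat 0).val * Real.log x := by
  rw [QQ.ofNat_val, Real.log_one]
  push_cast
  ring

/-- the rate of the first coordinate is an integer multiple of `log (2 * NS)` -/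
theorem al_raw :
    ∃ e : RK → QQ, Primrec e ∧ ∀ (d : MDesc) (κ : Key d.toMachine),
      alK d.toMachine κ = (e (rawKey d κ)).val * Real.log (2 * (d.NS : ℝ)) := by
  refine ⟨alE, alE_primrec, ?_⟩
  intro d κ
  rcases κ with ⟨b, q, s | g⟩ <;> cases b <;> unfold alK alE
  · rw [rkCase_false_inl]
    simp only [lamX]
    split_ifs
    · exact log_leaf_neg_one _
    · exact log_leaf_neg_two _
  · rw [rkCase_true_inl]
    simp only [lamX]
    split_ifs
    · exact log_leaf_one _
    · exact log_leaf_neg_one _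
  · rw [rkCase_false_inr]
    simp only [lamX]
    exact log_leaf_neg_one _
  · rw [rkCase_true_inr]
    simp only [lamX]
    exact log_leaf_one _

theorem be_raw :
    ∃ e : RK → QQ, Primrec e ∧ ∀ (d : MDesc) (κ : Key d.toMachine),
      beK d.toMachine κ = (e (rawKey d κ)).val * Real.log (2 * (d.NS : ℝ)) := by
  refine ⟨beE, beE_primrec, ?_⟩
  intro d κ
  rcases κ with ⟨b, q, s | g⟩ <;> cases b <;> unfold beK beE
  · rw [rkCase_false_inl]
    simp only [lamY]
    split_ifs
    · exact log_leaf_neg_one _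
    · exact log_leaf_one _
  · rw [rkCase_true_inl]
    simp only [lamY]
    split_ifs
    · exact log_leaf_neg_two _
    · exact log_leaf_zero _
  · rw [rkCase_false_inr]
    simp only [lamY]
    exact log_leaf_one _
  · rw [rkCase_true_inr]
    simp only [lamY]
    exact log_leaf_neg_one _

/-! ### centres -/

/-- the slope of the first coordinate -/
def lamXq (a : RK) : QQ :=
  rkCase a (rkB a) (rkT 1 1 a) (rkB a) (rkT 1 1 a) (rkT 2 1 a) (rkT 1 1 a)

/-- the slope of the second coordinate -/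
def lamYq (a : RK) : QQ :=
  rkCase a (rkT 2 1 a) (QQ.ofNat 1) (rkT 1 1 a) (rkT 1 1 a) (rkB a) (rkB a)

/-- the offset of the first coordinate -/
def muXq (a : RK) : QQ :=
  rkCase a
    (QQ.sub (QQ.sub (rkT 1 (2 * a.1.trq a.2.2.1 a.2.2.2 + 1) a) (QQ.ofNat (2 * a.2.2.1 + 1)))
      (rkT 1 a.2.2.2 a))
    (QQ.sub (QQ.sub (QQ.add (QQ.add (rkT 1 (2 * a.1.trq a.2.2.1 a.2.2.2) a)
      (rkT 2 (a.1.trs a.2.2.1 a.2.2.2) a))
      (rkT 3 (a.1.m + 2 + (2 * (a.2.2.1 * (a.1.m + 1) + a.2.2.2) + 1)) a))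
      (rkT 2 (2 * a.2.2.1 + 1) a)) (rkT 3 a.2.2.2 a))
    (QQ.sub (QQ.sub (rkT 1 (2 * a.2.2.1 + 1) a) (QQ.ofNat (2 * a.2.2.1 + 1))) (rkT 1 a.2.2.2 a))
    (QQ.sub (QQ.add (rkT 1 (2 * a.1.trq a.2.2.1 a.2.2.2 + 1) a) (rkT 2 (a.1.m + 1) a))
      (rkT 2 (2 * a.2.2.1) a))
    (QQ.sub (QQ.add (QQ.add (rkT 1 (2 * a.1.trq a.2.2.1 a.2.2.2) a)
      (rkT 2 (a.1.trs a.2.2.1 a.2.2.2) a))
      (rkT 3 (a.1.m + 2 + 2 * (a.2.2.1 * (a.1.m + 1) + a.2.2.2)) a))
      (rkT 3 (2 * a.2.2.1) a))
    (QQ.sub (QQ.add (rkT 1 (2 * a.2.2.1) a) (rkT 2 a.2.2.2 a)) (rkT 2 (2 * a.2.2.1) a))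

/-- the offset of the second coordinate -/
def muYq (a : RK) : QQ :=
  rkCase a
    (QQ.add (rkT 1 (a.1.trs a.2.2.1 a.2.2.2) a)
      (rkT 2 (a.1.m + 2 + (2 * (a.2.2.1 * (a.1.m + 1) + a.2.2.2) + 1)) a))
    (QQ.ofNat 0)
    (rkT 1 a.2.2.2 a)
    (QQ.sub (QQ.add (rkT 1 (a.1.trs a.2.2.1 a.2.2.2) a)
      (rkT 2 (a.1.m + 2 + 2 * (a.2.2.1 * (a.1.m + 1) + a.2.2.2)) a)) (rkT 2 a.2.2.2 a))
    (QQ.neg (QQ.ofNat a.2.2.2))
    (QQ.neg (QQ.ofNat a.2.2.2))

lemma rk_two_q : Primrec (fun a : RK => 2 * a.2.2.1) := pn_mul (Primrec.const 2) rk_q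

lemma rk_two_q_one : Primrec (fun a : RK => 2 * a.2.2.1 + 1) :=
  pn_add rk_two_q (Primrec.const 1)

lemma rk_two_trq : Primrec (fun a : RK => 2 * a.1.trq a.2.2.1 a.2.2.2) :=
  pn_mul (Primrec.const 2) rk_trq

lemma rk_two_trq_one : Primrec (fun a : RK => 2 * a.1.trq a.2.2.1 a.2.2.2 + 1) :=
  pn_add rk_two_trq (Primrec.const 1)

lemma rk_rec0 : Primrec (fun a : RK => a.1.m + 2 + 2 * (a.2.2.1 * (a.1.m + 1) + a.2.2.2)) :=
  pn_add (pn_add rk_m (Primrec.const 2))
    (pn_mul (Primrec.const 2) (pn_add (pn_mul rk_q (pn_add rk_m (Primrec.const 1))) rk_sd))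

lemma rk_rec1 :
    Primrec (fun a : RK => a.1.m + 2 + (2 * (a.2.2.1 * (a.1.m + 1) + a.2.2.2) + 1)) :=
  pn_add (pn_add rk_m (Primrec.const 2))
    (pn_add (pn_mul (Primrec.const 2)
      (pn_add (pn_mul rk_q (pn_add rk_m (Primrec.const 1))) rk_sd)) (Primrec.const 1))

lemma lamXq_primrec : Primrec lamXq :=
  rkCase_primrec rkB_primrec (rkT_primrec 1 (Primrec.const 1)) rkB_primrec
    (rkT_primrec 1 (Primrec.const 1)) (rkT_primrec 2 (Primrec.const 1))
    (rkT_primrec 1 (Primrec.const 1))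

lemma lamYq_primrec : Primrec lamYq :=
  rkCase_primrec (rkT_primrec 2 (Primrec.const 1)) (Primrec.const _)
    (rkT_primrec 1 (Primrec.const 1)) (rkT_primrec 1 (Primrec.const 1)) rkB_primrec rkB_primrec

lemma muXq_primrec : Primrec muXq :=
  rkCase_primrec
    (pq_sub (pq_sub (rkT_primrec 1 rk_two_trq_one) (pq_ofNat rk_two_q_one)) (rkT_primrec 1 rk_sd))
    (pq_sub (pq_sub (pq_add (pq_add (rkT_primrec 1 rk_two_trq) (rkT_primrec 2 rk_trs))
      (rkT_primrec 3 rk_rec1)) (rkT_primrec 2 rk_two_q_one)) (rkT_primrec 3 rk_sd))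
    (pq_sub (pq_sub (rkT_primrec 1 rk_two_q_one) (pq_ofNat rk_two_q_one)) (rkT_primrec 1 rk_sd))
    (pq_sub (pq_add (rkT_primrec 1 rk_two_trq_one)
      (rkT_primrec 2 (pn_add rk_m (Primrec.const 1)))) (rkT_primrec 2 rk_two_q))
    (pq_sub (pq_add (pq_add (rkT_primrec 1 rk_two_trq) (rkT_primrec 2 rk_trs))
      (rkT_primrec 3 rk_rec0)) (rkT_primrec 3 rk_two_q))
    (pq_sub (pq_add (rkT_primrec 1 rk_two_q) (rkT_primrec 2 rk_sd)) (rkT_primrec 2 rk_two_q))

lemma muYq_primrec : Primrec muYq :=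
  rkCase_primrec
    (pq_add (rkT_primrec 1 rk_trs) (rkT_primrec 2 rk_rec1))
    (Primrec.const _)
    (rkT_primrec 1 rk_sd)
    (pq_sub (pq_add (rkT_primrec 1 rk_trs) (rkT_primrec 2 rk_rec0)) (rkT_primrec 2 rk_sd))
    (pq_neg (pq_ofNat rk_sd))
    (pq_neg (pq_ofNat rk_sd))

lemma rkB_rawKey (d : MDesc) (κ : Key d.toMachine) :
    (rkB (rawKey d κ)).val = d.toMachine.BS :=
  rkB_val _

lemma rkT_rawKey (e n : ℕ) (d : MDesc) (κ : Key d.toMachine) :
    (rkT e n (rawKey d κ)).val = (n : ℝ) / d.toMachine.BS ^ e :=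
  rkT_val e n _

lemma rkT_rawKey_one (d : MDesc) (κ : Key d.toMachine) :
    (rkT 1 1 (rawKey d κ)).val = 1 / d.toMachine.BS := by
  rw [rkT_rawKey, Nat.cast_one, pow_one]

lemma rkT_rawKey_two (d : MDesc) (κ : Key d.toMachine) :
    (rkT 2 1 (rawKey d κ)).val = 1 / d.toMachine.BS ^ 2 := by
  rw [rkT_rawKey, Nat.cast_one]

lemma lamXq_val (d : MDesc) (κ : Key d.toMachine) :
    (lamXq (rawKey d κ)).val = lamX d.toMachine κ := by
  rcases κ with ⟨b, q, s | g⟩ <;> cases b <;> unfold lamXq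
  · rw [rkCase_false_inl]
    simp only [lamX]
    split_ifs
    · exact rkT_rawKey_one _ _
    · exact rkT_rawKey_two _ _
  · rw [rkCase_true_inl]
    simp only [lamX]
    split_ifs
    · exact rkB_rawKey _ _
    · exact rkT_rawKey_one _ _
  · rw [rkCase_false_inr]
    simp only [lamX]
    exact rkT_rawKey_one _ _
  · rw [rkCase_true_inr]
    simp only [lamX]
    exact rkB_rawKey _ _

lemma lamYq_val (d : MDesc) (κ : Key d.toMachine) :
    (lamYq (rawKey d κ)).val = lamY d.toMachine κ := by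
  rcases κ with ⟨b, q, s | g⟩ <;> cases b <;> unfold lamYq
  · rw [rkCase_false_inl]
    simp only [lamY]
    split_ifs
    · exact rkT_rawKey_one _ _
    · exact rkB_rawKey _ _
  · rw [rkCase_true_inl]
    simp only [lamY]
    split_ifs
    · exact rkT_rawKey_two _ _
    · rw [QQ.ofNat_val, Nat.cast_one]
  · rw [rkCase_false_inr]
    simp only [lamY]
    exact rkB_rawKey _ _
  · rw [rkCase_true_inr]
    simp only [lamY]
    exact rkT_rawKey_one _ _

lemma muXq_val (d : MDesc) (κ : Key d.toMachine) :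
    (muXq (rawKey d κ)).val = muX d.toMachine κ := by
  have hm : d.toMachine.m = d.m := rfl
  have hBS : d.toMachine.BS = 2 * (d.NS : ℝ) := rfl
  rcases κ with ⟨b, q, s | g⟩ <;> cases b <;> unfold muXq
  · rw [rkCase_false_inl]
    simp only [muX]
    split_ifs <;>
      simp only [QQ.sub_val, QQ.add_val, rkT_val, hBS, rawKey, symDigit, stDigit,
        MDesc.toMachine_trq, MDesc.toMachine_trs, hm, if_true, Bool.false_eq_true,
        if_false] <;>
      push_cast <;> ring
  · rw [rkCase_true_inl]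
    simp only [muX]
    split_ifs <;>
      simp only [QQ.sub_val, QQ.add_val, QQ.ofNat_val, rkT_val, hBS, rawKey, symDigit, stDigit,
        MDesc.toMachine_trq, MDesc.toMachine_trs, hm, if_true, Bool.false_eq_true,
        if_false] <;>
      push_cast <;> ring
  · rw [rkCase_false_inr]
    simp only [muX, QQ.sub_val, QQ.add_val, rkT_val, hBS, rawKey, stDigit, Bool.false_eq_true,
      if_false]
    push_cast
    ring
  · rw [rkCase_true_inr]
    simp only [muX, QQ.sub_val, QQ.ofNat_val, rkT_val, hBS, rawKey, stDigit, if_true]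
    push_cast
    ring

lemma muYq_val (d : MDesc) (κ : Key d.toMachine) :
    (muYq (rawKey d κ)).val = muY d.toMachine κ := by
  have hm : d.toMachine.m = d.m := rfl
  have hBS : d.toMachine.BS = 2 * (d.NS : ℝ) := rfl
  rcases κ with ⟨b, q, s | g⟩ <;> cases b <;> unfold muYq
  · rw [rkCase_false_inl]
    simp only [muY]
    split_ifs
    · simp only [QQ.sub_val, QQ.add_val, rkT_val, hBS, rawKey, symDigit, MDesc.toMachine_trs,
        hm, Bool.false_eq_true, if_false]
      push_cast
      ring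
    · simp only [QQ.neg_val, QQ.ofNat_val, rawKey, symDigit]
  · rw [rkCase_true_inl]
    simp only [muY]
    split_ifs
    · simp only [QQ.add_val, rkT_val, hBS, rawKey, symDigit, MDesc.toMachine_trs, hm, if_true]
      push_cast
      ring
    · rw [QQ.ofNat_val, Nat.cast_zero]
  · rw [rkCase_false_inr]
    simp only [muY, QQ.neg_val, QQ.ofNat_val, rawKey]
  · rw [rkCase_true_inr]
    simp only [muY, rkT_val, hBS, rawKey]
    ring

theorem xc_raw :
    ∃ c : RK → QQ, Primrec c ∧ ∀ (d : MDesc) (κ : Key d.toMachine),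
      xcK d.toMachine κ = (c (rawKey d κ)).val := by
  refine ⟨fun a => QQ.mul (muXq a) (QQ.inv (QQ.sub (QQ.ofNat 1) (lamXq a))),
    pq_mul muXq_primrec (pq_inv (pq_sub (Primrec.const _) lamXq_primrec)), ?_⟩
  intro d κ
  unfold xcK
  rw [QQ.mul_val, QQ.inv_val, QQ.sub_val, QQ.ofNat_val, muXq_val, lamXq_val, Nat.cast_one,
    div_eq_mul_inv]

theorem yc_raw :
    ∃ c : RK → QQ, Primrec c ∧ ∀ (d : MDesc) (κ : Key d.toMachine),
      ycK d.toMachine κ = (c (rawKey d κ)).val := by
  refine ⟨fun a => QQ.mul (muYq a) (QQ.inv (QQ.sub (QQ.ofNat 1) (lamYq a))),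
    pq_mul muYq_primrec (pq_inv (pq_sub (Primrec.const _) lamYq_primrec)), ?_⟩
  intro d κ
  unfold ycK
  rw [QQ.mul_val, QQ.inv_val, QQ.sub_val, QQ.ofNat_val, muYq_val, lamYq_val, Nat.cast_one,
    div_eq_mul_inv]

end Vale.Agent.Lib.P113
end

section
namespace Vale.Agent.Lib.P113

/-- Periodic test of the first `c.1` digits (at most three) of a code in base `2 * N`: the
digits tested are `c.2.1`, `c.2.2.1`, `c.2.2.2`. With no digit the test is the constant `1`. -/
noncomputable def cylT (N : ℕ) (c : ℕ × ℕ × ℕ × ℕ) : ℝ → ℝ :=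
  if c.1 = 0 then fun _ => 1
  else if c.1 = 1 then per (cyl1 N c.2.1)
  else if c.1 = 2 then per (cyl2 N c.2.1 c.2.2.1)
  else per (cyl3 N c.2.1 c.2.2.1 c.2.2.2)

end Vale.Agent.Lib.P113
end

section
namespace Vale.Agent.Lib.P113

/-! The selection functions of the rules are products of two digit tests whose data are
primitive recursive functions of the raw rule key. -/

/-- the digit of the record of a rule, from raw data -/
def rawRec (a : RK) : ℕ :=
  a.1.m + 2 + (2 * (a.2.2.1 * (a.1.m + 1) + a.2.2.2) + (bif a.2.1 then 1 else 0))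

/-- data of the first digit test of the source selection -/
def srcCx (a : RK) : ℕ × ℕ × ℕ × ℕ :=
  bif a.2.1 then (2, 2 * a.2.2.1 + 1, a.2.2.2, 0) else (1, 2 * a.2.2.1, 0, 0)

/-- data of the second digit test of the source selection -/
def srcCy (a : RK) : ℕ × ℕ × ℕ × ℕ :=
  bif a.2.1 then (0, 0, 0, 0) else (1, a.2.2.2, 0, 0)

/-- data of the first digit test of the image selection -/
def imgCx (a : RK) : ℕ × ℕ × ℕ × ℕ :=
  if a.2.2.2 ≤ a.1.m then
    (bif a.1.trm a.2.2.1 a.2.2.2 then (1, 2 * a.1.trq a.2.2.1 a.2.2.2 + 1, 0, 0)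
      else (3, 2 * a.1.trq a.2.2.1 a.2.2.2, a.1.trs a.2.2.1 a.2.2.2, rawRec a))
  else (bif a.2.1 then (1, 2 * a.2.2.1 + 1, 0, 0) else (2, 2 * a.2.2.1, a.2.2.2, 0))

/-- data of the second digit test of the image selection -/
def imgCy (a : RK) : ℕ × ℕ × ℕ × ℕ :=
  if a.2.2.2 ≤ a.1.m then
    (bif a.1.trm a.2.2.1 a.2.2.2 then (2, a.1.trs a.2.2.1 a.2.2.2, rawRec a, 0)
      else (0, 0, 0, 0))
  else (bif a.2.1 then (1, a.2.2.2, 0, 0) else (0, 0, 0, 0))

theorem rk_d_primrec : Primrec (fun a : RK => a.1) := Primrec.fst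

theorem rk_b_primrec : Primrec (fun a : RK => a.2.1) := Primrec.fst.comp Primrec.snd

theorem rk_q_primrec : Primrec (fun a : RK => a.2.2.1) :=
  Primrec.fst.comp (Primrec.snd.comp Primrec.snd)

theorem rk_s_primrec : Primrec (fun a : RK => a.2.2.2) :=
  Primrec.snd.comp (Primrec.snd.comp Primrec.snd)

theorem rk_m_primrec : Primrec (fun a : RK => a.1.m) := by
  have h := MDesc.m_primrec.comp rk_d_primrec
  exact h

theorem rk_triple_primrec : Primrec (fun a : RK => (a.1, a.2.2.1, a.2.2.2)) :=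
  Primrec.pair rk_d_primrec (Primrec.pair rk_q_primrec rk_s_primrec)

theorem rk_two_q_primrec : Primrec (fun a : RK => 2 * a.2.2.1) :=
  Primrec.nat_mul.comp (Primrec.const 2) rk_q_primrec

theorem rk_two_q_succ_primrec : Primrec (fun a : RK => 2 * a.2.2.1 + 1) :=
  Primrec.succ.comp rk_two_q_primrec

theorem rk_trq_primrec : Primrec (fun a : RK => a.1.trq a.2.2.1 a.2.2.2) := by
  have h := MDesc.trq_primrec.comp (rk_triple_primrec)
  exact h

theorem rk_trs_primrec : Primrec (fun a : RK => a.1.trs a.2.2.1 a.2.2.2) := by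
  have h := MDesc.trs_primrec.comp (rk_triple_primrec)
  exact h

theorem rk_trm_primrec : Primrec (fun a : RK => a.1.trm a.2.2.1 a.2.2.2) := by
  have h := MDesc.trm_primrec.comp (rk_triple_primrec)
  exact h

theorem rawRec_primrec : Primrec rawRec := by
  unfold rawRec
  refine Primrec.nat_add.comp (Primrec.nat_add.comp rk_m_primrec (Primrec.const 2)) ?_
  refine Primrec.nat_add.comp ?_ (Primrec.cond rk_b_primrec (Primrec.const 1) (Primrec.const 0))
  refine Primrec.nat_mul.comp (Primrec.const 2) ?_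
  exact Primrec.nat_add.comp
    (Primrec.nat_mul.comp rk_q_primrec (Primrec.succ.comp rk_m_primrec)) rk_s_primrec

theorem srcCx_primrec : Primrec srcCx := by
  unfold srcCx
  refine Primrec.cond rk_b_primrec ?_ ?_
  · exact Primrec.pair (Primrec.const 2) (Primrec.pair rk_two_q_succ_primrec
      (Primrec.pair rk_s_primrec (Primrec.const 0)))
  · exact Primrec.pair (Primrec.const 1) (Primrec.pair rk_two_q_primrec
      (Primrec.pair (Primrec.const 0) (Primrec.const 0)))

theorem srcCy_primrec : Primrec srcCy := by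
  unfold srcCy
  refine Primrec.cond rk_b_primrec (Primrec.const _) ?_
  exact Primrec.pair (Primrec.const 1) (Primrec.pair rk_s_primrec
    (Primrec.pair (Primrec.const 0) (Primrec.const 0)))

theorem rk_tape_primrec : PrimrecPred (fun a : RK => a.2.2.2 ≤ a.1.m) :=
  Primrec.nat_le.comp rk_s_primrec rk_m_primrec

theorem imgCx_primrec : Primrec imgCx := by
  unfold imgCx
  refine Primrec.ite rk_tape_primrec ?_ ?_
  · refine Primrec.cond rk_trm_primrec ?_ ?_
    · exact Primrec.pair (Primrec.const 1) (Primrec.pair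
        (Primrec.succ.comp (Primrec.nat_mul.comp (Primrec.const 2) rk_trq_primrec))
        (Primrec.pair (Primrec.const 0) (Primrec.const 0)))
    · exact Primrec.pair (Primrec.const 3) (Primrec.pair
        (Primrec.nat_mul.comp (Primrec.const 2) rk_trq_primrec)
        (Primrec.pair rk_trs_primrec rawRec_primrec))
  · refine Primrec.cond rk_b_primrec ?_ ?_
    · exact Primrec.pair (Primrec.const 1) (Primrec.pair rk_two_q_succ_primrec
        (Primrec.pair (Primrec.const 0) (Primrec.const 0)))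
    · exact Primrec.pair (Primrec.const 2) (Primrec.pair rk_two_q_primrec
        (Primrec.pair rk_s_primrec (Primrec.const 0)))

theorem imgCy_primrec : Primrec imgCy := by
  unfold imgCy
  refine Primrec.ite rk_tape_primrec ?_ ?_
  · refine Primrec.cond rk_trm_primrec ?_ (Primrec.const _)
    exact Primrec.pair (Primrec.const 2) (Primrec.pair rk_trs_primrec
      (Primrec.pair rawRec_primrec (Primrec.const 0)))
  · refine Primrec.cond rk_b_primrec ?_ (Primrec.const _)
    exact Primrec.pair (Primrec.const 1) (Primrec.pair rk_s_primrec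
      (Primrec.pair (Primrec.const 0) (Primrec.const 0)))

/-- twice a state number, plus one, is below the digit bound -/
theorem two_q_succ_lt_NS (d : MDesc) {q : ℕ} (hq : q < d.k + 1) : 2 * q + 1 < d.NS := by
  unfold MDesc.NS
  have h1 : d.k + 1 ≤ (d.k + 1) * (d.m + 1) := Nat.le_mul_of_pos_right _ (Nat.succ_pos _)
  omega

theorem trq_lt (d : MDesc) (q s : ℕ) : d.trq q s < d.k + 1 := by
  unfold MDesc.trq
  exact Nat.mod_lt _ (Nat.succ_pos _)

theorem trs_lt_NS (d : MDesc) (q s : ℕ) : d.trs q s < d.NS := by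
  have h1 : d.trs q s < d.m + 1 := by
    unfold MDesc.trs
    exact Nat.mod_lt _ (Nat.succ_pos _)
  unfold MDesc.NS
  omega

theorem cylT_zero (N : ℕ) (x : ℝ) : cylT N (0, 0, 0, 0) x = 1 := by
  simp [cylT]

theorem cylT_one (N e0 : ℕ) (x : ℝ) : cylT N (1, e0, 0, 0) x = per (cyl1 N e0) x := by
  simp [cylT]

theorem cylT_two (N e0 e1 : ℕ) (x : ℝ) : cylT N (2, e0, e1, 0) x = per (cyl2 N e0 e1) x := by
  simp [cylT]

theorem cylT_three (N e0 e1 e2 : ℕ) (x : ℝ) :
    cylT N (3, e0, e1, e2) x = per (cyl3 N e0 e1 e2) x := by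
  simp [cylT]

theorem src_raw :
    ∃ cx cy : RK → ℕ × ℕ × ℕ × ℕ, Primrec cx ∧ Primrec cy ∧
      (∀ (d : MDesc) (κ : Key d.toMachine) (x y : ℝ),
        srcS d.toMachine κ x y
          = cylT d.NS (cx (rawKey d κ)) x * cylT d.NS (cy (rawKey d κ)) y) ∧
      (∀ a : RK, a.2.2.1 < a.1.k + 1 → a.2.2.2 < a.1.NS →
        ((cx a).1 = 0 ∨ (cx a).2.1 < a.1.NS) ∧ ((cy a).1 = 0 ∨ (cy a).2.1 < a.1.NS)) := by
  refine ⟨srcCx, srcCy, srcCx_primrec, srcCy_primrec, ?_, ?_⟩
  · intro d κ x y
    rcases κ with ⟨b, q, σ⟩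
    cases b
    · have h1 : srcCx (rawKey d (false, q, σ)) = (1, 2 * q.val, 0, 0) := rfl
      have h2 : srcCy (rawKey d (false, q, σ)) = (1, symDigit d.toMachine σ, 0, 0) := rfl
      rw [h1, h2, cylT_one, cylT_one]
      simp [srcS, stDigit, MDesc.toMachine_NS]
    · have h1 : srcCx (rawKey d (true, q, σ))
          = (2, 2 * q.val + 1, symDigit d.toMachine σ, 0) := rfl
      have h2 : srcCy (rawKey d (true, q, σ)) = (0, 0, 0, 0) := rfl
      rw [h1, h2, cylT_two, cylT_zero, mul_one]
      simp [srcS, stDigit, MDesc.toMachine_NS]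
  · rintro ⟨d, b, q, s⟩ hq hs
    simp only at hq hs
    have h1 := two_q_succ_lt_NS d hq
    cases b
    · refine ⟨Or.inr ?_, Or.inr ?_⟩
      · show 2 * q < d.NS
        omega
      · exact hs
    · refine ⟨Or.inr ?_, Or.inl rfl⟩
      exact h1

theorem symDigit_inl_le (M : Machine) (s : Fin (M.m + 1)) : symDigit M (Sum.inl s) ≤ M.m :=
  Nat.lt_succ_iff.1 s.isLt

theorem symDigit_inr_gt (M : Machine) (g : Option (Bool × Fin (M.k + 1) × Fin (M.m + 1))) :
    ¬ symDigit M (Sum.inr g) ≤ M.m := by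
  rcases g with _ | ⟨b, q, s⟩
  · show ¬ M.m + 1 ≤ M.m
    omega
  · show ¬ M.m + 2 + (2 * (q.val * (M.m + 1) + s.val) + (if b then 1 else 0)) ≤ M.m
    omega

theorem img_raw :
    ∃ cx cy : RK → ℕ × ℕ × ℕ × ℕ, Primrec cx ∧ Primrec cy ∧
      (∀ (d : MDesc) (κ : Key d.toMachine) (x y : ℝ),
        imgS d.toMachine κ x y
          = cylT d.NS (cx (rawKey d κ)) x * cylT d.NS (cy (rawKey d κ)) y) ∧
      (∀ a : RK, a.2.2.1 < a.1.k + 1 → a.2.2.2 < a.1.NS →
        ((cx a).1 = 0 ∨ (cx a).2.1 < a.1.NS) ∧ ((cy a).1 = 0 ∨ (cy a).2.1 < a.1.NS)) := by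
  refine ⟨imgCx, imgCy, imgCx_primrec, imgCy_primrec, ?_, ?_⟩
  · intro d κ x y
    rcases κ with ⟨b, q, s | g⟩
    · -- a tape symbol
      have hle : (rawKey d (b, q, Sum.inl s)).2.2.2 ≤ (rawKey d (b, q, Sum.inl s)).1.m :=
        symDigit_inl_le d.toMachine s
      have hm : (rawKey d (b, q, Sum.inl s)).1.trm (rawKey d (b, q, Sum.inl s)).2.2.1
          (rawKey d (b, q, Sum.inl s)).2.2.2 = (d.toMachine.trans q s).2.2 :=
        (MDesc.toMachine_trm d q s).symm
      have hq : (rawKey d (b, q, Sum.inl s)).1.trq (rawKey d (b, q, Sum.inl s)).2.2.1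
          (rawKey d (b, q, Sum.inl s)).2.2.2 = (d.toMachine.trans q s).1.val :=
        (MDesc.toMachine_trq d q s).symm
      have hs : (rawKey d (b, q, Sum.inl s)).1.trs (rawKey d (b, q, Sum.inl s)).2.2.1
          (rawKey d (b, q, Sum.inl s)).2.2.2 = (d.toMachine.trans q s).2.1.val :=
        (MDesc.toMachine_trs d q s).symm
      have hr : rawRec (rawKey d (b, q, Sum.inl s))
          = symDigit d.toMachine (Sum.inr (some (b, q, s))) := by
        cases b <;> rfl
      unfold imgCx imgCy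
      rw [if_pos hle, if_pos hle, hm, hq, hs, hr]
      cases b
      · by_cases hmv : (d.toMachine.trans q s).2.2 = true
        · rw [hmv, cond_true, cond_true, cylT_one, cylT_two]
          simp [imgS, hmv, stDigit, MDesc.toMachine_NS]
        · have hmv' : (d.toMachine.trans q s).2.2 = false := by simpa using hmv
          rw [hmv', cond_false, cond_false, cylT_three, cylT_zero, mul_one]
          simp [imgS, hmv', stDigit, MDesc.toMachine_NS]
      · by_cases hmv : (d.toMachine.trans q s).2.2 = true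
        · rw [hmv, cond_true, cond_true, cylT_one, cylT_two]
          simp [imgS, hmv, stDigit, MDesc.toMachine_NS]
        · have hmv' : (d.toMachine.trans q s).2.2 = false := by simpa using hmv
          rw [hmv', cond_false, cond_false, cylT_three, cylT_zero, mul_one]
          simp [imgS, hmv', stDigit, MDesc.toMachine_NS]
    · -- a record or the filler
      have hgt : ¬ (rawKey d (b, q, Sum.inr g)).2.2.2 ≤ (rawKey d (b, q, Sum.inr g)).1.m :=
        symDigit_inr_gt d.toMachine g
      unfold imgCx imgCy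
      rw [if_neg hgt, if_neg hgt]
      cases b
      · have h1 : (rawKey d (false, q, Sum.inr g)).2.1 = false := rfl
        rw [h1, cond_false, cond_false]
        have h2 : (2, 2 * (rawKey d (false, q, Sum.inr g)).2.2.1,
            (rawKey d (false, q, Sum.inr g)).2.2.2, 0)
            = (2, 2 * q.val, symDigit d.toMachine (Sum.inr g), 0) := rfl
        rw [h2, cylT_two, cylT_zero, mul_one]
        simp [imgS, stDigit, MDesc.toMachine_NS]
      · have h1 : (rawKey d (true, q, Sum.inr g)).2.1 = true := rfl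
        rw [h1, cond_true, cond_true]
        have h2 : (1, 2 * (rawKey d (true, q, Sum.inr g)).2.2.1 + 1, 0, 0)
            = (1, 2 * q.val + 1, 0, 0) := rfl
        have h3 : (1, (rawKey d (true, q, Sum.inr g)).2.2.2, 0, 0)
            = (1, symDigit d.toMachine (Sum.inr g), 0, 0) := rfl
        rw [h2, h3, cylT_one, cylT_one]
        simp [imgS, stDigit, MDesc.toMachine_NS]
  · rintro ⟨d, b, q, s⟩ hq hs
    simp only at hq hs
    have h1 := two_q_succ_lt_NS d hq
    have h2 := two_q_succ_lt_NS d (trq_lt d q s)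
    have h3 := trs_lt_NS d q s
    unfold imgCx imgCy
    by_cases hle : s ≤ d.m
    · simp only [hle, if_true]
      cases hmv : d.trm q s
      · refine ⟨Or.inr ?_, Or.inl rfl⟩
        show 2 * d.trq q s < d.NS
        omega
      · refine ⟨Or.inr ?_, Or.inr ?_⟩
        · exact h2
        · exact h3
    · simp only [hle, if_false]
      cases b
      · refine ⟨Or.inr ?_, Or.inl rfl⟩
        show 2 * q < d.NS
        omega
      · refine ⟨Or.inr ?_, Or.inr ?_⟩
        · exact h1
        · exact hs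

end Vale.Agent.Lib.P113
end

section
open scoped ContDiff

namespace Vale.Agent.Lib.P113

/-- iterated derivatives of `y ↦ f (a * y + b)` -/
lemma iteratedDeriv_affine {f : ℝ → ℝ} (hf : ContDiff ℝ ∞ f) (a b : ℝ) (n : ℕ) (x : ℝ) :
    iteratedDeriv n (fun y => f (a * y + b)) x = a ^ n * iteratedDeriv n f (a * x + b) := by
  have hg : ContDiff ℝ n (fun y => f (y + b)) :=
    (hf.comp (contDiff_id.add contDiff_const)).of_le (by exact_mod_cast le_top)
  have h1 := iteratedDeriv_comp_const_mul hg a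
  have h2 := iteratedDeriv_comp_add_const n f b
  rw [h2] at h1
  exact congrFun h1 x

/-- iterated derivatives of the periodic extension -/
lemma iteratedDeriv_per (n : ℕ) : ∀ {f : ℝ → ℝ}, ContDiff ℝ ∞ f →
    (∀ y, y ≤ -1 / 8 → f y = 0) → (∀ y, 5 / 8 ≤ y → f y = 0) →
    iteratedDeriv n (per f) = per (iteratedDeriv n f) := by
  induction n with
  | zero => intro f _ _ _; simp only [iteratedDeriv_zero]
  | succ n ih =>
    intro f hf h0 h1
    have hd : deriv (per f) = per (deriv f) :=
      funext fun x => (per_hasDerivAt hf h0 h1 x).deriv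
    rw [iteratedDeriv_succ', hd,
      ih (contDiff_infty_iff_deriv.1 hf).2 (deriv_zero_left h0) (deriv_zero_right h1),
      iteratedDeriv_succ']

namespace Eff1On

variable {P : Type} [Primcodable P] {S : Set P} {h : P → ℝ → ℝ}

/-- composition with `x ↦ a * x + b`, the coefficients being computable rationals -/
theorem affine (a b : P → QQ) (ha : Computable a) (hb : Computable b) (H : Eff1On S h) :
    Eff1On S (fun p x => h p ((a p).val * x + (b p).val)) := by
  refine ⟨fun p hp => (H.1 p hp).comp ((contDiff_const.mul contDiff_id).add contDiff_const), ?_⟩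
  have hφ : Computable (fun q : P × ℕ × QQ =>
      (q.1, q.2.1, QQ.add (QQ.mul (a q.1) q.2.2) (b q.1))) := by
    refine Computable.pair Computable.fst
      (Computable.pair (Computable.fst.comp Computable.snd) ?_)
    exact QQ.add_primrec.to_comp.comp
      (QQ.mul_primrec.to_comp.comp (ha.comp Computable.fst) (Computable.snd.comp Computable.snd))
      (hb.comp Computable.fst)
  have h1 : CRealOn {q : P × ℕ × QQ | q.1 ∈ S} (fun q => (a q.1).val ^ q.2.1) :=
    CRealOn.pow (fun q : P × ℕ × QQ => q.2.1) (Computable.fst.comp Computable.snd)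
      (CRealOn.of_rat (fun q : P × ℕ × QQ => a q.1) (ha.comp Computable.fst))
  have h2 := CRealOn.comp (T := {q : P × ℕ × QQ | q.1 ∈ S}) _ hφ (fun q hq => hq) H.2
  refine CRealOn.congr ?_ (h1.mul h2)
  intro q hq
  simp only
  rw [iteratedDeriv_affine (H.1 q.1 hq), QQ.add_val, QQ.mul_val]

/-- periodic extension of functions vanishing outside `(-1/8, 5/8)` -/
theorem per (h0 : ∀ p ∈ S, ∀ y, y ≤ -1 / 8 → h p y = 0)
    (h1 : ∀ p ∈ S, ∀ y, 5 / 8 ≤ y → h p y = 0) (H : Eff1On S h) :
    Eff1On S (fun p => Vale.Agent.Lib.P113.per (h p)) := by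
  refine ⟨fun p hp => per_contDiff (H.1 p hp) (h0 p hp) (h1 p hp), ?_⟩
  have hφ : Computable (fun q : P × ℕ × QQ =>
      (q.1, q.2.1, QQ.sub q.2.2 (QQ.floor (QQ.add q.2.2 (QQ.frac 1 3))))) := by
    refine Computable.pair Computable.fst
      (Computable.pair (Computable.fst.comp Computable.snd) ?_)
    have hq : Computable (fun q : P × ℕ × QQ => q.2.2) := Computable.snd.comp Computable.snd
    exact QQ.sub_primrec.to_comp.comp hq
      (QQ.floor_primrec.to_comp.comp (QQ.add_primrec.to_comp.comp hq (Computable.const _)))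
  have h2 := CRealOn.comp (T := {q : P × ℕ × QQ | q.1 ∈ S}) _ hφ (fun q hq => hq) H.2
  refine CRealOn.congr ?_ h2
  intro q hq
  simp only
  rw [iteratedDeriv_per _ (H.1 q.1 hq) (h0 q.1 hq) (h1 q.1 hq)]
  unfold Vale.Agent.Lib.P113.per
  rw [QQ.sub_val, QQ.floor_val, QQ.add_val, QQ.frac_val]
  norm_num

end Eff1On

end Vale.Agent.Lib.P113
end

section
open scoped ContDiff

namespace Vale.Agent.Lib.P113

/-- the plateau function is effective -/
theorem cylT_eff1_hB : Eff1On (Set.univ : Set Unit) (fun _ => hB) := by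
  have h1 := Eff1On.affine (fun _ : Unit => QQ.ofNat 16) (fun _ : Unit => QQ.ofNat 2)
    (Computable.const _) (Computable.const _) eff1_smoothTransition
  have h2 := Eff1On.affine (fun _ : Unit => QQ.neg (QQ.ofNat 16)) (fun _ : Unit => QQ.ofNat 10)
    (Computable.const _) (Computable.const _) eff1_smoothTransition
  refine (h1.mul h2).congr (fun p _ => ?_)
  funext x
  simp only [QQ.neg_val, QQ.ofNat_val]
  unfold hB
  have e1 : ((16 : ℕ) : ℝ) * x + ((2 : ℕ) : ℝ) = 16 * x + 2 := by push_cast; ring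
  have e2 : -((16 : ℕ) : ℝ) * x + ((10 : ℕ) : ℝ) = 10 - 16 * x := by push_cast; ring
  rw [e1, e2]

/-- the parameters of the digit tests: the base, the number of digits and the digits -/
abbrev CylPar : Type := ℕ × (ℕ × ℕ × ℕ × ℕ)

/-- the plateau function, with dummy parameters -/
theorem cylT_eff1_hB_par : Eff1On (Set.univ : Set CylPar) (fun _ => hB) :=
  Eff1On.comp (fun _ : CylPar => ()) (Computable.const ()) (fun _ _ => Set.mem_univ _)
    cylT_eff1_hB

theorem cylT_primrec_base : Primrec (fun a : CylPar => 2 * a.1) :=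
  Primrec.nat_mul.comp (Primrec.const 2) Primrec.fst

theorem cylT_primrec_e0 : Primrec (fun a : CylPar => a.2.2.1) :=
  Primrec.fst.comp (Primrec.snd.comp Primrec.snd)

theorem cylT_primrec_e1 : Primrec (fun a : CylPar => a.2.2.2.1) :=
  Primrec.fst.comp (Primrec.snd.comp (Primrec.snd.comp Primrec.snd))

theorem cylT_primrec_e2 : Primrec (fun a : CylPar => a.2.2.2.2) :=
  Primrec.snd.comp (Primrec.snd.comp (Primrec.snd.comp Primrec.snd))

/-- the first factor of the digit tests -/
theorem cylT_factor1 :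
    Eff1On (Set.univ : Set CylPar)
      (fun a x => hB (2 * (a.1 : ℝ) * x - (a.2.2.1 : ℝ))) := by
  have cA : Computable (fun a : CylPar => QQ.ofNat (2 * a.1)) :=
    (QQ.ofNat_primrec.comp cylT_primrec_base).to_comp
  have cB : Computable (fun a : CylPar => QQ.neg (QQ.ofNat a.2.2.1)) :=
    (QQ.neg_primrec.comp (QQ.ofNat_primrec.comp cylT_primrec_e0)).to_comp
  refine (Eff1On.affine _ _ cA cB cylT_eff1_hB_par).congr (fun a _ => ?_)
  funext x
  simp only [QQ.neg_val, QQ.ofNat_val]
  congr 1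
  push_cast
  ring

/-- the second factor of the digit tests -/
theorem cylT_factor2 :
    Eff1On (Set.univ : Set CylPar)
      (fun a x => hB (2 * (a.1 : ℝ) * (2 * (a.1 : ℝ) * x - (a.2.2.1 : ℝ)) - (a.2.2.2.1 : ℝ))) := by
  have cA : Computable (fun a : CylPar => QQ.ofNat (2 * a.1 * (2 * a.1))) :=
    (QQ.ofNat_primrec.comp (Primrec.nat_mul.comp cylT_primrec_base cylT_primrec_base)).to_comp
  have cB : Computable (fun a : CylPar =>
      QQ.neg (QQ.ofNat (2 * a.1 * a.2.2.1 + a.2.2.2.1))) :=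
    (QQ.neg_primrec.comp (QQ.ofNat_primrec.comp (Primrec.nat_add.comp
      (Primrec.nat_mul.comp cylT_primrec_base cylT_primrec_e0) cylT_primrec_e1))).to_comp
  refine (Eff1On.affine _ _ cA cB cylT_eff1_hB_par).congr (fun a _ => ?_)
  funext x
  simp only [QQ.neg_val, QQ.ofNat_val]
  congr 1
  push_cast
  ring

/-- the third factor of the digit tests -/
theorem cylT_factor3 :
    Eff1On (Set.univ : Set CylPar)
      (fun a x => hB (2 * (a.1 : ℝ) * (2 * (a.1 : ℝ) * (2 * (a.1 : ℝ) * x - (a.2.2.1 : ℝ))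
        - (a.2.2.2.1 : ℝ)) - (a.2.2.2.2 : ℝ))) := by
  have cA : Computable (fun a : CylPar => QQ.ofNat (2 * a.1 * (2 * a.1) * (2 * a.1))) :=
    (QQ.ofNat_primrec.comp (Primrec.nat_mul.comp
      (Primrec.nat_mul.comp cylT_primrec_base cylT_primrec_base) cylT_primrec_base)).to_comp
  have cB : Computable (fun a : CylPar =>
      QQ.neg (QQ.ofNat (2 * a.1 * (2 * a.1) * a.2.2.1 + 2 * a.1 * a.2.2.2.1 + a.2.2.2.2))) :=
    (QQ.neg_primrec.comp (QQ.ofNat_primrec.comp (Primrec.nat_add.comp (Primrec.nat_add.comp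
      (Primrec.nat_mul.comp (Primrec.nat_mul.comp cylT_primrec_base cylT_primrec_base)
        cylT_primrec_e0)
      (Primrec.nat_mul.comp cylT_primrec_base cylT_primrec_e1)) cylT_primrec_e2))).to_comp
  refine (Eff1On.affine _ _ cA cB cylT_eff1_hB_par).congr (fun a _ => ?_)
  funext x
  simp only [QQ.neg_val, QQ.ofNat_val]
  congr 1
  push_cast
  ring

theorem cylT_eff1_cyl1 :
    Eff1On (Set.univ : Set CylPar) (fun a => cyl1 a.1 a.2.2.1) :=
  cylT_factor1

theorem cylT_eff1_cyl2 :
    Eff1On (Set.univ : Set CylPar) (fun a => cyl2 a.1 a.2.2.1 a.2.2.2.1) :=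
  cylT_factor1.mul cylT_factor2

theorem cylT_eff1_cyl3 :
    Eff1On (Set.univ : Set CylPar) (fun a => cyl3 a.1 a.2.2.1 a.2.2.2.1 a.2.2.2.2) :=
  (cylT_factor1.mul cylT_factor2).mul cylT_factor3

/-- the test whether the number of digits equals `k` is computable -/
theorem cylT_count_test (k : ℕ) : Computable (fun a : CylPar => decide (a.2.1 = k)) :=
  (PrimrecPred.decide
    (Primrec.eq.comp (Primrec.fst.comp Primrec.snd) (Primrec.const k))).to_comp

theorem cylT_eff1_per1 :
    Eff1On {a : CylPar | a.2.2.1 < a.1} (fun a => per (cyl1 a.1 a.2.2.1)) := by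
  refine Eff1On.per (fun a ha => ?_) (fun a ha => ?_) (cylT_eff1_cyl1.mono (Set.subset_univ _))
  · exact cyl1_zero_left a.1 a.2.2.1 (Nat.one_le_of_lt ha)
  · exact cyl1_zero_right a.1 a.2.2.1 ha

theorem cylT_eff1_per2 :
    Eff1On {a : CylPar | a.2.2.1 < a.1} (fun a => per (cyl2 a.1 a.2.2.1 a.2.2.2.1)) := by
  refine Eff1On.per (fun a ha => ?_) (fun a ha => ?_) (cylT_eff1_cyl2.mono (Set.subset_univ _))
  · exact cyl2_zero_left a.1 a.2.2.1 a.2.2.2.1 (Nat.one_le_of_lt ha)
  · exact cyl2_zero_right a.1 a.2.2.1 a.2.2.2.1 ha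

theorem cylT_eff1_per3 :
    Eff1On {a : CylPar | a.2.2.1 < a.1}
      (fun a => per (cyl3 a.1 a.2.2.1 a.2.2.2.1 a.2.2.2.2)) := by
  refine Eff1On.per (fun a ha => ?_) (fun a ha => ?_) (cylT_eff1_cyl3.mono (Set.subset_univ _))
  · exact cyl3_zero_left a.1 a.2.2.1 a.2.2.2.1 a.2.2.2.2 (Nat.one_le_of_lt ha)
  · exact cyl3_zero_right a.1 a.2.2.1 a.2.2.2.1 a.2.2.2.2 ha

/-- the constant function `1` is effective -/
theorem cylT_eff1_one (S : Set CylPar) : Eff1On S (fun _ _ => (1 : ℝ)) := by
  have h : CRealOn S (fun _ : CylPar => (1 : ℝ)) :=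
    (CRealOn.natCast (S := S) (fun _ : CylPar => 1) (Computable.const 1)).congr
      (fun _ _ => Nat.cast_one)
  exact Eff1On.const h

/-- the digit tests are uniformly effective (the first tested digit has to be smaller than
`N`) -/
theorem eff1_cylT :
    Eff1On {a : ℕ × (ℕ × ℕ × ℕ × ℕ) | a.2.1 = 0 ∨ a.2.2.1 < a.1} (fun a => cylT a.1 a.2) := by
  have hsub : ∀ T : Set CylPar,
      ({a : CylPar | a.2.1 = 0 ∨ a.2.2.1 < a.1} ∩ {a | decide (a.2.1 = 0) = false}) ∩ T
        ⊆ {a : CylPar | a.2.2.1 < a.1} := by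
    intro T a ha
    have h0 : ¬ a.2.1 = 0 := by simpa using ha.1.2
    exact ha.1.1.resolve_left h0
  have g2 := Eff1On.ite (S := ({a : CylPar | a.2.1 = 0 ∨ a.2.2.1 < a.1} ∩
      {a | decide (a.2.1 = 0) = false}) ∩ {a | decide (a.2.1 = 1) = false})
    (fun a => decide (a.2.1 = 2)) (cylT_count_test 2)
    (cylT_eff1_per2.mono (fun a ha => hsub _ ha.1))
    (cylT_eff1_per3.mono (fun a ha => hsub _ ha.1))
  have g1 := Eff1On.ite (S := {a : CylPar | a.2.1 = 0 ∨ a.2.2.1 < a.1} ∩
      {a | decide (a.2.1 = 0) = false})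
    (fun a => decide (a.2.1 = 1)) (cylT_count_test 1)
    (cylT_eff1_per1.mono (fun a ha => hsub _ ha)) g2
  have g0 := Eff1On.ite (S := {a : CylPar | a.2.1 = 0 ∨ a.2.2.1 < a.1})
    (fun a => decide (a.2.1 = 0)) (cylT_count_test 0) (cylT_eff1_one _) g1
  refine g0.congr (fun a _ => ?_)
  simp only [decide_eq_true_eq]
  rfl

end Vale.Agent.Lib.P113
end

section
open scoped ContDiff

namespace Vale.Agent.Lib.P113

/-- a product of two digit tests in the first two coordinates, with raw data depending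
primitive recursively on the raw rule key, is uniformly effective on the valid raw keys -/
theorem fieldEff_cyl_pair (cx cy : RK → ℕ × ℕ × ℕ × ℕ) (hcx : Primrec cx) (hcy : Primrec cy)
    (hvalid : ∀ a : RK, a.2.2.1 < a.1.k + 1 → a.2.2.2 < a.1.NS →
      ((cx a).1 = 0 ∨ (cx a).2.1 < a.1.NS) ∧ ((cy a).1 = 0 ∨ (cy a).2.1 < a.1.NS)) :
    Eff3On {a : RK | a.2.2.1 < a.1.k + 1 ∧ a.2.2.2 < a.1.NS}
      (fun a x => cylT a.1.NS (cx a) (x 0) * cylT a.1.NS (cy a) (x 1)) := by
  have hNS : Computable (fun a : RK => a.1.NS) :=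
    MDesc.NS_primrec.to_comp.comp Computable.fst
  have hA : Eff1On {a : RK | a.2.2.1 < a.1.k + 1 ∧ a.2.2.2 < a.1.NS}
      (fun a => cylT a.1.NS (cx a)) :=
    Eff1On.comp (fun a : RK => (a.1.NS, cx a)) (Computable.pair hNS hcx.to_comp)
      (fun a ha => (hvalid a ha.1 ha.2).1) eff1_cylT
  have hB : Eff1On {a : RK | a.2.2.1 < a.1.k + 1 ∧ a.2.2.2 < a.1.NS}
      (fun a => cylT a.1.NS (cy a)) :=
    Eff1On.comp (fun a : RK => (a.1.NS, cy a)) (Computable.pair hNS hcy.to_comp)
      (fun a ha => (hvalid a ha.1 ha.2).2) eff1_cylT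
  have hC : Eff1On {a : RK | a.2.2.1 < a.1.k + 1 ∧ a.2.2.2 < a.1.NS}
      (fun _ _ => ((1 : ℕ) : ℝ)) :=
    Eff1On.const (CRealOn.natCast (fun _ : RK => 1) (Computable.const 1))
  refine (Eff3On.tensor hA hB hC).congr (fun a _ => ?_)
  funext x
  rw [Nat.cast_one, mul_one]

/-- the profile of the first vertical phase is effective, uniformly in the description -/
theorem eff3_psiA :
    Eff3On (Set.univ : Set MDesc) (fun d x => psiAL d.toMachine (x 0) (x 1)) := by
  obtain ⟨lvlq, hlvlP, hlvl, -⟩ := lvl_raw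
  obtain ⟨cx, cy, hcxP, hcyP, hsrc, hvalid⟩ := src_raw
  have hT : Eff3On {a : RK | a.2.2.1 < a.1.k + 1 ∧ a.2.2.2 < a.1.NS}
      (fun a x => (lvlq a).val * (cylT a.1.NS (cx a) (x 0) * cylT a.1.NS (cy a) (x 1))) :=
    Eff3On.smul (CRealOn.of_rat lvlq hlvlP.to_comp) (fieldEff_cyl_pair cx cy hcxP hcyP hvalid)
  refine (eff3_key_sum _ hT).congr (fun d _ => ?_)
  funext x
  unfold psiAL
  apply Finset.sum_congr rfl
  intro κ _
  rw [hsrc d κ, ← hlvl d κ]
  rfl

/-- the profile of the second vertical phase is effective, uniformly in the description -/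
theorem eff3_psiC :
    Eff3On (Set.univ : Set MDesc) (fun d x => psiCL d.toMachine (x 0) (x 1)) := by
  obtain ⟨lvlq, hlvlP, hlvl, -⟩ := lvl_raw
  obtain ⟨cx, cy, hcxP, hcyP, himg, hvalid⟩ := img_raw
  have hT : Eff3On {a : RK | a.2.2.1 < a.1.k + 1 ∧ a.2.2.2 < a.1.NS}
      (fun a x => (- (lvlq a).val) * (cylT a.1.NS (cx a) (x 0) * cylT a.1.NS (cy a) (x 1))) :=
    Eff3On.smul (CRealOn.neg (CRealOn.of_rat lvlq hlvlP.to_comp))
      (fieldEff_cyl_pair cx cy hcxP hcyP hvalid)
  refine (eff3_key_sum _ hT).congr (fun d _ => ?_)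
  funext x
  unfold psiCL
  apply Finset.sum_congr rfl
  intro κ _
  rw [himg d κ, ← hlvl d κ]
  rfl

end Vale.Agent.Lib.P113
end

section
open scoped ContDiff

namespace Vale.Agent.Lib.P113

theorem eff1_hB : Eff1On (Set.univ : Set Unit) (fun _ => hB) := by
  have A1 := Eff1On.affine (fun _ : Unit => QQ.ofNat 16) (fun _ : Unit => QQ.ofNat 2)
    (Computable.const _) (Computable.const _) eff1_smoothTransition
  have A2 := Eff1On.affine (fun _ : Unit => QQ.neg (QQ.ofNat 16)) (fun _ : Unit => QQ.ofNat 10)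
    (Computable.const _) (Computable.const _) eff1_smoothTransition
  refine (A1.mul A2).congr (fun p _ => ?_)
  funext x
  simp only [hB, QQ.ofNat_val, QQ.neg_val]
  push_cast
  ring_nf

/-- the function `ThS` is effective -/
theorem leaves_eff1_ThS : Eff1On (Set.univ : Set Unit) (fun _ => ThS) := by
  have A1 := Eff1On.affine (fun _ : Unit => QQ.ofNat 2) (fun _ : Unit => QQ.neg (QQ.frac 1 1))
    (Computable.const _) (Computable.const _) eff1_smoothTransition
  refine A1.congr (fun p _ => ?_)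
  funext x
  simp only [ThS, QQ.ofNat_val, QQ.neg_val, QQ.frac_val]
  push_cast
  ring_nf

/-- the shifted derivative of `ThS` is effective -/
theorem leaves_eff1_dThS_shift :
    Eff1On (Set.univ : Set Unit) (fun _ => fun y : ℝ => dThS (y + 1 / 4)) := by
  have A1 : Eff1On (Set.univ : Set Unit) (fun _ => dThS) :=
    (Eff1On.deriv leaves_eff1_ThS).congr (fun p _ => rfl)
  have A2 := Eff1On.affine (fun _ : Unit => QQ.ofNat 1) (fun _ : Unit => QQ.frac 1 3)
    (Computable.const _) (Computable.const _) A1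
  refine A2.congr (fun p _ => ?_)
  funext x
  simp only [QQ.ofNat_val, QQ.frac_val]
  push_cast
  ring_nf

/-- the speed factor of the schedule -/
theorem eff1_thT : Eff1On (Set.univ : Set Unit) (fun _ => thT) := by
  have A1 := Eff1On.per (S := (Set.univ : Set Unit))
    (h := fun _ => fun y : ℝ => dThS (y + 1 / 4))
    (fun _ _ y hy => dThS_zero_left _ (by linarith))
    (fun _ _ y hy => dThS_zero_right _ (by linarith)) leaves_eff1_dThS_shift
  have A2 := Eff1On.affine (fun _ : Unit => QQ.ofNat 1) (fun _ : Unit => QQ.neg (QQ.frac 1 3))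
    (Computable.const _) (Computable.const _) A1
  refine A2.congr (fun p _ => ?_)
  funext t
  rw [thT_eq]
  simp only [QQ.ofNat_val, QQ.neg_val, QQ.frac_val]
  push_cast
  ring_nf

/-- the profile `pfun` before periodic extension -/
theorem leaves_eff1_pfun_raw : Eff1On (Set.univ : Set QQ) (fun c => pfun c.val) := by
  have L := Eff1On.lin (S := (Set.univ : Set QQ)) (fun _ : QQ => QQ.ofNat 1)
    (fun c : QQ => QQ.neg c) (Computable.const _) QQ.neg_primrec.to_comp
  have B : Eff1On (Set.univ : Set QQ) (fun _ : QQ => hB) :=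
    Eff1On.comp (fun _ : QQ => ()) (Computable.const ()) (fun _ _ => Set.mem_univ _) eff1_hB
  refine (L.mul B).congr (fun c _ => ?_)
  funext x
  simp only [pfun, QQ.ofNat_val, QQ.neg_val]
  push_cast
  ring_nf

theorem eff1_pfun : Eff1On (Set.univ : Set QQ) (fun c => per (pfun c.val)) :=
  Eff1On.per (fun c _ => pfun_zero_left c.val) (fun c _ => pfun_zero_right c.val)
    leaves_eff1_pfun_raw

theorem eff1_dpfun : Eff1On (Set.univ : Set QQ) (fun c => per (deriv (pfun c.val))) :=
  Eff1On.per (fun c _ => deriv_zero_left (pfun_zero_left c.val))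
    (fun c _ => deriv_zero_right (pfun_zero_right c.val)) (Eff1On.deriv leaves_eff1_pfun_raw)

theorem leaves_sraw_zero_left {l Kc : ℝ} (hl : 0 < l) (hK : 1 ≤ Kc) :
    ∀ y, y ≤ -1 / 8 → sraw l Kc y = 0 := by
  intro y hy
  unfold sraw
  rw [hB_zero_left (by nlinarith), mul_zero]

theorem leaves_sraw_zero_right {l Kc : ℝ} (hl : l ≤ 3 / 8) (hK : 1 ≤ Kc) :
    ∀ y, 5 / 8 ≤ y → sraw l Kc y = 0 := by
  intro y hy
  unfold sraw
  rw [hB_zero_right (by nlinarith), mul_zero]

/-- the profile `sraw` before periodic extension -/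
theorem leaves_eff1_sraw_raw :
    Eff1On {a : QQ × ℕ | 0 < a.1.val ∧ a.1.val ≤ 3 / 8 ∧ 1 ≤ a.2}
      (fun a => sraw a.1.val (a.2 : ℝ)) := by
  have L := Eff1On.lin (S := {a : QQ × ℕ | 0 < a.1.val ∧ a.1.val ≤ 3 / 8 ∧ 1 ≤ a.2})
    (fun _ : QQ × ℕ => QQ.ofNat 1) (fun a : QQ × ℕ => QQ.neg a.1) (Computable.const _)
    (QQ.neg_primrec.to_comp.comp Computable.fst)
  have B : Eff1On {a : QQ × ℕ | 0 < a.1.val ∧ a.1.val ≤ 3 / 8 ∧ 1 ≤ a.2}
      (fun _ : QQ × ℕ => hB) :=
    Eff1On.comp (fun _ : QQ × ℕ => ()) (Computable.const ()) (fun _ _ => Set.mem_univ _) eff1_hB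
  have hA : Computable (fun a : QQ × ℕ => QQ.ofNat (8 * a.2)) :=
    (QQ.ofNat_primrec.comp (Primrec.nat_mul.comp (Primrec.const 8) Primrec.snd)).to_comp
  have hBc : Computable (fun a : QQ × ℕ =>
      QQ.add (QQ.neg (QQ.mul (QQ.ofNat (8 * a.2)) a.1)) (QQ.frac 1 3)) :=
    (QQ.add_primrec.comp (QQ.neg_primrec.comp (QQ.mul_primrec.comp
      (QQ.ofNat_primrec.comp (Primrec.nat_mul.comp (Primrec.const 8) Primrec.snd)) Primrec.fst))
      (Primrec.const _)).to_comp
  have B2 := Eff1On.affine (fun a : QQ × ℕ => QQ.ofNat (8 * a.2))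
    (fun a : QQ × ℕ => QQ.add (QQ.neg (QQ.mul (QQ.ofNat (8 * a.2)) a.1)) (QQ.frac 1 3))
    hA hBc B
  refine (L.mul B2).congr (fun a _ => ?_)
  funext z
  simp only [sraw, QQ.ofNat_val, QQ.neg_val, QQ.add_val, QQ.mul_val, QQ.frac_val]
  push_cast
  ring_nf

theorem eff1_sraw :
    Eff1On {a : QQ × ℕ | 0 < a.1.val ∧ a.1.val ≤ 3 / 8 ∧ 1 ≤ a.2}
      (fun a => per (sraw a.1.val (a.2 : ℝ))) :=
  Eff1On.per
    (fun a ha => leaves_sraw_zero_left ha.1 (by exact_mod_cast ha.2.2))
    (fun a ha => leaves_sraw_zero_right ha.2.1 (by exact_mod_cast ha.2.2))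
    leaves_eff1_sraw_raw

theorem eff1_dsraw :
    Eff1On {a : QQ × ℕ | 0 < a.1.val ∧ a.1.val ≤ 3 / 8 ∧ 1 ≤ a.2}
      (fun a => per (deriv (sraw a.1.val (a.2 : ℝ)))) :=
  Eff1On.per
    (fun a ha => deriv_zero_left (leaves_sraw_zero_left ha.1 (by exact_mod_cast ha.2.2)))
    (fun a ha => deriv_zero_right (leaves_sraw_zero_right ha.2.1 (by exact_mod_cast ha.2.2)))
    (Eff1On.deriv leaves_eff1_sraw_raw)

end Vale.Agent.Lib.P113
end

section
open scoped ContDiff

namespace Vale.Agent.Lib.P113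

theorem fieldW_NS_pos (d : MDesc) : 1 ≤ d.NS := by
  unfold MDesc.NS
  omega

theorem fieldW_KN_pos (d : MDesc) : 1 ≤ d.KN := by
  have h1 := fieldW_NS_pos d
  have h2 : 0 < 2 * (d.k + 1) * d.NS := by positivity
  exact h2

theorem fieldW_KN_primrec : Primrec MDesc.KN := by
  have h : Primrec (fun d : MDesc => 2 * (d.k + 1) * d.NS) :=
    Primrec.nat_mul.comp
      (Primrec.nat_mul.comp (Primrec.const 2) (Primrec.succ.comp MDesc.k_primrec))
      MDesc.NS_primrec
  exact h

/-- the logarithm of the base is computable, uniformly in the description -/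
theorem fieldW_log : CRealOn (Set.univ : Set RK) (fun a => Real.log (2 * (a.1.NS : ℝ))) := by
  have hc : Computable (fun a : RK => 2 * a.1.NS - 1) :=
    (Primrec.nat_sub.comp
      (Primrec.nat_mul.comp (Primrec.const 2) (MDesc.NS_primrec.comp Primrec.fst))
      (Primrec.const 1)).to_comp
  have h := CRealOn.comp (T := (Set.univ : Set RK)) (fun a : RK => 2 * a.1.NS - 1) hc
    (fun _ _ => Set.mem_univ _) creal_log
  refine h.congr (fun a _ => ?_)
  have h1 := fieldW_NS_pos a.1
  have h3 : 2 * a.1.NS - 1 + 1 = 2 * a.1.NS := by omega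
  have h4 : ((2 * a.1.NS - 1 + 1 : ℕ) : ℝ) = ((2 * a.1.NS : ℕ) : ℝ) := by rw [h3]
  rw [Nat.cast_add, Nat.cast_one, Nat.cast_mul, Nat.cast_ofNat] at h4
  show Real.log (((2 * a.1.NS - 1 : ℕ) : ℝ) + 1) = _
  rw [h4]

/-- the constant function `1` is effective -/
theorem fieldW_one (V : Set RK) : Eff1On V (fun _ _ => (1 : ℝ)) := by
  have h : CRealOn V (fun _ : RK => (1 : ℝ)) :=
    (CRealOn.natCast (S := V) (fun _ : RK => 1) (Computable.const 1)).congr
      (fun _ _ => Nat.cast_one)
  exact Eff1On.const h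

theorem fieldW_P (V : Set RK) (c : RK → QQ) (hc : Primrec c) :
    Eff1On V (fun a => per (pfun (c a).val)) :=
  Eff1On.comp c hc.to_comp (fun _ _ => Set.mem_univ _) eff1_pfun

theorem fieldW_DP (V : Set RK) (c : RK → QQ) (hc : Primrec c) :
    Eff1On V (fun a => per (deriv (pfun (c a).val))) :=
  Eff1On.comp c hc.to_comp (fun _ _ => Set.mem_univ _) eff1_dpfun

theorem fieldW_S (lvlq : RK → QQ) (hl : Primrec lvlq)
    (hv : ∀ a : RK, a.2.2.1 < a.1.k + 1 → a.2.2.2 < a.1.NS →
      0 < (lvlq a).val ∧ (lvlq a).val ≤ 3 / 8) :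
    Eff1On {a : RK | a.2.2.1 < a.1.k + 1 ∧ a.2.2.2 < a.1.NS}
      (fun a => per (sraw (lvlq a).val (a.1.KN : ℝ))) :=
  Eff1On.comp (fun a : RK => (lvlq a, a.1.KN))
    ((hl.pair (fieldW_KN_primrec.comp Primrec.fst)).to_comp)
    (fun a ha => by exact ⟨(hv a ha.1 ha.2).1, (hv a ha.1 ha.2).2, fieldW_KN_pos a.1⟩) eff1_sraw

theorem fieldW_DS (lvlq : RK → QQ) (hl : Primrec lvlq)
    (hv : ∀ a : RK, a.2.2.1 < a.1.k + 1 → a.2.2.2 < a.1.NS →
      0 < (lvlq a).val ∧ (lvlq a).val ≤ 3 / 8) :
    Eff1On {a : RK | a.2.2.1 < a.1.k + 1 ∧ a.2.2.2 < a.1.NS}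
      (fun a => per (deriv (sraw (lvlq a).val (a.1.KN : ℝ)))) :=
  Eff1On.comp (fun a : RK => (lvlq a, a.1.KN))
    ((hl.pair (fieldW_KN_primrec.comp Primrec.fst)).to_comp)
    (fun a ha => by exact ⟨(hv a ha.1 ha.2).1, (hv a ha.1 ha.2).2, fieldW_KN_pos a.1⟩) eff1_dsraw

/-- a product of functions of the single coordinates, scaled by a rational multiple of the
logarithm of the base -/
theorem fieldW_term {V : Set RK} (e : RK → QQ) (he : Primrec e) {A B C : RK → ℝ → ℝ}
    (hA : Eff1On V A) (hB : Eff1On V B) (hC : Eff1On V C) :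
    Eff3On V (fun a x => ((e a).val * Real.log (2 * (a.1.NS : ℝ)))
      * (A a (x 0) * B a (x 1) * C a (x 2))) :=
  Eff3On.smul ((CRealOn.of_rat e he.to_comp).mul (fieldW_log.mono (Set.subset_univ _)))
    (Eff3On.tensor hA hB hC)

theorem fieldW_node0 {ι : Type} [Fintype ι] (a b : ι → ℝ) (S DS P DP Q DQ : ι → ℝ → ℝ)
    (p : Pt) :
    nodeField a b S DS P DP Q DQ p 0 = ∑ κ : ι, a κ * P κ (p 0) * DS κ (p 2) := by
  simp [nodeField]

theorem fieldW_node1 {ι : Type} [Fintype ι] (a b : ι → ℝ) (S DS P DP Q DQ : ι → ℝ → ℝ)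
    (p : Pt) :
    nodeField a b S DS P DP Q DQ p 1 = ∑ κ : ι, b κ * Q κ (p 1) * DS κ (p 2) := by
  simp [nodeField]

theorem fieldW_node2 {ι : Type} [Fintype ι] (a b : ι → ℝ) (S DS P DP Q DQ : ι → ℝ → ℝ)
    (p : Pt) :
    nodeField a b S DS P DP Q DQ p 2
      = - ∑ κ : ι, (a κ * DP κ (p 0) + b κ * DQ κ (p 1)) * S κ (p 2) := by
  simp [nodeField]

theorem fieldW_alg0 (c A C : ℝ) : c * (A * 1 * C) = c * A * C := by ring

theorem fieldW_alg1 (c B C : ℝ) : c * (1 * B * C) = c * B * C := by ring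

theorem fieldW_alg2 (ca cb A B C : ℝ) :
    ca * (A * 1 * C) + cb * (1 * B * C) = (ca * A + cb * B) * C := by ring

theorem fieldW_comp0 : Eff3On (Set.univ : Set MDesc) (fun d x => WLK d.toMachine x 0) := by
  obtain ⟨lvlq, hl, hlv, hlr⟩ := lvl_raw
  obtain ⟨ea, hea, hal⟩ := al_raw
  obtain ⟨cx, hcx, hxc⟩ := xc_raw
  have hT := fieldW_term ea hea (fieldW_P _ cx hcx) (fieldW_one _) (fieldW_DS lvlq hl hlr)
  refine (eff3_key_sum _ hT).congr (fun d _ => ?_)
  funext x
  unfold WLK WL
  rw [fieldW_node0]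
  refine Finset.sum_congr rfl (fun κ _ => ?_)
  rw [hal d κ, hxc d κ, ← hlv d κ]
  exact fieldW_alg0 _ _ _

theorem fieldW_comp1 : Eff3On (Set.univ : Set MDesc) (fun d x => WLK d.toMachine x 1) := by
  obtain ⟨lvlq, hl, hlv, hlr⟩ := lvl_raw
  obtain ⟨eb, heb, hbe⟩ := be_raw
  obtain ⟨cy, hcy, hyc⟩ := yc_raw
  have hT := fieldW_term eb heb (fieldW_one _) (fieldW_P _ cy hcy) (fieldW_DS lvlq hl hlr)
  refine (eff3_key_sum _ hT).congr (fun d _ => ?_)
  funext x
  unfold WLK WL
  rw [fieldW_node1]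
  refine Finset.sum_congr rfl (fun κ _ => ?_)
  rw [hbe d κ, hyc d κ, ← hlv d κ]
  exact fieldW_alg1 _ _ _

theorem fieldW_comp2 : Eff3On (Set.univ : Set MDesc) (fun d x => WLK d.toMachine x 2) := by
  obtain ⟨lvlq, hl, hlv, hlr⟩ := lvl_raw
  obtain ⟨ea, hea, hal⟩ := al_raw
  obtain ⟨eb, heb, hbe⟩ := be_raw
  obtain ⟨cx, hcx, hxc⟩ := xc_raw
  obtain ⟨cy, hcy, hyc⟩ := yc_raw
  have hT := Eff3On.add
    (fieldW_term ea hea (fieldW_DP _ cx hcx) (fieldW_one _) (fieldW_S lvlq hl hlr))
    (fieldW_term eb heb (fieldW_one _) (fieldW_DP _ cy hcy) (fieldW_S lvlq hl hlr))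
  refine (eff3_key_sum _ hT).neg.congr (fun d _ => ?_)
  funext x
  unfold WLK WL
  rw [fieldW_node2]
  congr 1
  refine Finset.sum_congr rfl (fun κ _ => ?_)
  rw [hal d κ, hbe d κ, hxc d κ, hyc d κ, ← hlv d κ]
  exact fieldW_alg2 _ _ _ _ _

/-- the components of the field of the node phase are effective, uniformly in the
description -/
theorem eff3_WLK (i : Fin 3) :
    Eff3On (Set.univ : Set MDesc) (fun d x => WLK d.toMachine x i) := by
  have hi : i = 0 ∨ i = 1 ∨ i = 2 := by
    fin_cases i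
    · exact Or.inl rfl
    · exact Or.inr (Or.inl rfl)
    · exact Or.inr (Or.inr rfl)
  rcases hi with rfl | rfl | rfl
  · exact fieldW_comp0
  · exact fieldW_comp1
  · exact fieldW_comp2

end Vale.Agent.Lib.P113
end

section
open scoped ContDiff

namespace Vale.Agent.Lib.P113

/-- the zero field is effective -/
theorem eff3_zero_field {P : Type} [Primcodable P] (S : Set P) :
    Eff3On S (fun (_ : P) (_ : Pt) => (0 : ℝ)) := by
  have h : Eff3On S (fun (_ : P) (_ : Pt) => (((0 : ℕ) : ℕ) : ℝ)) :=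
    Eff3On.const (CRealOn.natCast (fun _ : P => 0) (Computable.const 0))
  refine h.congr ?_
  intro p _
  funext x
  simp

theorem WNK_zero (M : Machine) (x0 : ℝ) (x : Pt) (i : Fin 3) :
    WNK M x0 0 x i = (![x0, 0, 0] : Pt) i := by
  simp [WNK, WNL]

theorem WNK_cyc0 (M : Machine) (x0 : ℝ) (n : ℕ) (hn : n ≠ 0) (h : (n - 1) % 3 = 0) (x : Pt)
    (i : Fin 3) : WNK M x0 n x i = zShear (psiAL M) x i := by
  simp [WNK, WNL, cycWL, hn, h]

theorem WNK_cyc1 (M : Machine) (x0 : ℝ) (n : ℕ) (hn : n ≠ 0) (h : (n - 1) % 3 = 1) (x : Pt)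
    (i : Fin 3) : WNK M x0 n x i = WLK M x i := by
  simp [WNK, WNL, cycWL, WLK, hn, h]

theorem WNK_cyc2 (M : Machine) (x0 : ℝ) (n : ℕ) (hn : n ≠ 0) (h0 : (n - 1) % 3 ≠ 0)
    (h1 : (n - 1) % 3 ≠ 1) (x : Pt) (i : Fin 3) : WNK M x0 n x i = zShear (psiCL M) x i := by
  simp [WNK, WNL, cycWL, hn, h0, h1]

/-- the three computable tests on the index of the field -/
theorem wnk_test0 : Computable (fun a : (MDesc × List ℕ) × ℕ => decide (a.2 = 0)) :=
  (PrimrecPred.decide (Primrec.eq.comp Primrec.snd (Primrec.const 0))).to_comp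

theorem wnk_test1 : Computable (fun a : (MDesc × List ℕ) × ℕ => decide ((a.2 - 1) % 3 = 0)) :=
  (PrimrecPred.decide (Primrec.eq.comp
    (Primrec.nat_mod.comp (Primrec.nat_sub.comp Primrec.snd (Primrec.const 1))
      (Primrec.const 3)) (Primrec.const 0))).to_comp

theorem wnk_test2 : Computable (fun a : (MDesc × List ℕ) × ℕ => decide ((a.2 - 1) % 3 = 1)) :=
  (PrimrecPred.decide (Primrec.eq.comp
    (Primrec.nat_mod.comp (Primrec.nat_sub.comp Primrec.snd (Primrec.const 1))
      (Primrec.const 3)) (Primrec.const 1))).to_comp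

/-- assembling the component `i` of the schedule from its four kinds of fields -/
theorem eff3_WNK_of (i : Fin 3) (G0 G1 G3 : (MDesc × List ℕ) × ℕ → Pt → ℝ)
    (H0 : Eff3On (Set.univ : Set ((MDesc × List ℕ) × ℕ)) G0)
    (H1 : Eff3On (Set.univ : Set ((MDesc × List ℕ) × ℕ)) G1)
    (H3 : Eff3On (Set.univ : Set ((MDesc × List ℕ) × ℕ)) G3)
    (e0 : ∀ (a : (MDesc × List ℕ) × ℕ) (x : Pt), a.2 = 0 →
      WNK a.1.1.toMachine (inputCode a.1.1.toMachine (a.1.1.word a.1.2)) a.2 x i = G0 a x)
    (e1 : ∀ (a : (MDesc × List ℕ) × ℕ) (x : Pt),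
      zShear (psiAL a.1.1.toMachine) x i = G1 a x)
    (e3 : ∀ (a : (MDesc × List ℕ) × ℕ) (x : Pt),
      zShear (psiCL a.1.1.toMachine) x i = G3 a x) :
    Eff3On (Set.univ : Set ((MDesc × List ℕ) × ℕ))
      (fun a x => WNK a.1.1.toMachine (inputCode a.1.1.toMachine (a.1.1.word a.1.2)) a.2 x i) := by
  have H2 : Eff3On (Set.univ : Set ((MDesc × List ℕ) × ℕ))
      (fun a x => WLK a.1.1.toMachine x i) :=
    Eff3On.comp (fun a : (MDesc × List ℕ) × ℕ => a.1.1) (Computable.fst.comp Computable.fst)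
      (fun _ _ => Set.mem_univ _) (eff3_WLK i)
  have K2 := Eff3On.ite (S := ((Set.univ : Set ((MDesc × List ℕ) × ℕ)) ∩
      {a | decide (a.2 = 0) = false}) ∩ {a | decide ((a.2 - 1) % 3 = 0) = false})
    (fun a : (MDesc × List ℕ) × ℕ => decide ((a.2 - 1) % 3 = 1)) wnk_test2
    (H2.mono (Set.subset_univ _)) (H3.mono (Set.subset_univ _))
  have K1 := Eff3On.ite (S := (Set.univ : Set ((MDesc × List ℕ) × ℕ)) ∩
      {a | decide (a.2 = 0) = false})
    (fun a : (MDesc × List ℕ) × ℕ => decide ((a.2 - 1) % 3 = 0)) wnk_test1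
    (H1.mono (Set.subset_univ _)) K2
  have K0 := Eff3On.ite (S := (Set.univ : Set ((MDesc × List ℕ) × ℕ)))
    (fun a : (MDesc × List ℕ) × ℕ => decide (a.2 = 0)) wnk_test0
    (H0.mono (Set.subset_univ _)) K1
  refine K0.congr ?_
  intro a _
  funext x
  by_cases h0 : a.2 = 0
  · simp only [h0, decide_true, if_true]
    rw [← e0 a x h0, h0]
  · by_cases h1 : (a.2 - 1) % 3 = 0
    · simp only [h0, h1, decide_true, decide_false, if_true, Bool.false_eq_true, if_false]
      rw [← e1 a x, WNK_cyc0 _ _ _ h0 h1]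
    · by_cases h2 : (a.2 - 1) % 3 = 1
      · rw [WNK_cyc1 _ _ _ h0 h2]
        simp [h0, h2]
      · simp only [h0, h1, h2, decide_false, Bool.false_eq_true, if_false]
        rw [← e3 a x, WNK_cyc2 _ _ _ h0 h1 h2]

/-- all fields of the schedule are effective, uniformly in the description, the input word
and the index -/
theorem eff3_WNK (i : Fin 3) :
    Eff3On (Set.univ : Set ((MDesc × List ℕ) × ℕ))
      (fun a x => WNK a.1.1.toMachine (inputCode a.1.1.toMachine (a.1.1.word a.1.2)) a.2 x i) := by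
  obtain ⟨icq, hicq, hval⟩ := inputCode_computable
  have HA : Eff3On (Set.univ : Set ((MDesc × List ℕ) × ℕ))
      (fun a x => psiAL a.1.1.toMachine (x 0) (x 1)) :=
    Eff3On.comp (fun a : (MDesc × List ℕ) × ℕ => a.1.1) (Computable.fst.comp Computable.fst)
      (fun _ _ => Set.mem_univ _) eff3_psiA
  have HC : Eff3On (Set.univ : Set ((MDesc × List ℕ) × ℕ))
      (fun a x => psiCL a.1.1.toMachine (x 0) (x 1)) :=
    Eff3On.comp (fun a : (MDesc × List ℕ) × ℕ => a.1.1) (Computable.fst.comp Computable.fst)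
      (fun _ _ => Set.mem_univ _) eff3_psiC
  have HZ := eff3_zero_field (Set.univ : Set ((MDesc × List ℕ) × ℕ))
  have HI : Eff3On (Set.univ : Set ((MDesc × List ℕ) × ℕ))
      (fun a _ => (icq a.1).val) :=
    Eff3On.const (CRealOn.of_rat (fun a : (MDesc × List ℕ) × ℕ => icq a.1)
      (hicq.comp Computable.fst))
  fin_cases i
  · refine eff3_WNK_of 0 _ _ _ HI HZ HZ ?_ ?_ ?_
    · intro a x h0
      rw [h0, WNK_zero, ← hval a.1.1 a.1.2]
      simp
    · intro a x
      simp [zShear]
    · intro a x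
      simp [zShear]
  · refine eff3_WNK_of 1 _ _ _ HZ HZ HZ ?_ ?_ ?_
    · intro a x h0
      rw [h0, WNK_zero]
      simp
    · intro a x
      simp [zShear]
    · intro a x
      simp [zShear]
  · refine eff3_WNK_of 2 _ _ _ HZ HA HC ?_ ?_ ?_
    · intro a x h0
      rw [h0, WNK_zero]
      simp
    · intro a x
      simp [zShear]
    · intro a x
      simp [zShear]

end Vale.Agent.Lib.P113
end

section
open scoped ContDiff

namespace Vale.Agent.Lib.P113

/-- the quadratic term of the force of a steady field -/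
noncomputable def advW (W : Pt → Pt) (i : Fin 3) : Pt → ℝ :=
  fun y => ∑ j : Fin 3, W y j * dX j (fun z => W z i) y

/-- the Laplacian term of the force of a steady field -/
noncomputable def lapW (W : Pt → Pt) (i : Fin 3) : Pt → ℝ :=
  fun y => ∑ j : Fin 3, dX j (dX j (fun z => W z i)) y

lemma gluedU_eq_near (W : ℤ → Pt → Pt) (k : ℤ) (s : ℝ) (h1 : (k : ℝ) - 1 / 8 < s)
    (h2 : s < (k : ℝ) + 1 + 1 / 8) (y : Pt) : gluedU W s y = thT s • W k y := by
  unfold gluedU
  rcases lt_or_ge s (k : ℝ) with hlt | hge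
  · have h0 : thT s = 0 := thT_zero s k (by rw [abs_le]; constructor <;> linarith)
    rw [h0, zero_smul, zero_smul]
  · rcases lt_or_ge s ((k : ℝ) + 1) with hlt2 | hge2
    · have hfl : ⌊s⌋ = k := by
        rw [Int.floor_eq_iff]
        exact ⟨hge, hlt2⟩
      rw [hfl]
    · have h0 : thT s = 0 :=
        thT_zero s (k + 1) (by rw [abs_le]; push_cast; constructor <;> linarith)
      rw [h0, zero_smul, zero_smul]

lemma forceOf_tensor (ν : ℝ) (V : Pt → Pt) (s : ℝ) (y : Pt) (i : Fin 3) :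
    forceOf ν (fun r z => thT r • V z) s y i
      = deriv thT s * V y i + (thT s * thT s) * advW V i y + (-ν * thT s) * lapW V i y := by
  have ha : deriv (fun r : ℝ => (thT r • V y) i) s = deriv thT s * V y i := by
    have hfun : (fun r : ℝ => (thT r • V y) i) = fun r => thT r * V y i := by
      funext r
      simp [Pi.smul_apply, smul_eq_mul]
    rw [hfun]
    exact deriv_mul_const_field (V y i)
  have hb : ∀ j : Fin 3, dX j (fun z => (thT s • V z) i)
      = fun z => thT s * dX j (fun z => V z i) z := by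
    intro j
    have hfun : (fun z => (thT s • V z) i) = fun z => thT s * V z i := by
      funext z
      simp [Pi.smul_apply, smul_eq_mul]
    rw [hfun]
    exact dX_const_mul (thT s) (fun z => V z i) j
  have hc : ∀ j : Fin 3, dX j (dX j (fun z => (thT s • V z) i))
      = fun z => thT s * dX j (dX j (fun z => V z i)) z := by
    intro j
    rw [hb j]
    exact dX_const_mul (thT s) (dX j (fun z => V z i)) j
  have hval : ∀ j : Fin 3, (thT s • V y) j = thT s * V y j := by
    intro j
    simp [Pi.smul_apply, smul_eq_mul]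
  show deriv (fun r : ℝ => (thT r • V y) i) s
      + ∑ j : Fin 3, (thT s • V y) j * dX j (fun z => (thT s • V z) i) y
      - ν * ∑ j : Fin 3, dX j (dX j (fun z => (thT s • V z) i)) y
    = deriv thT s * V y i
      + (thT s * thT s) * (∑ j : Fin 3, V y j * dX j (fun z => V z i) y)
      + (-ν * thT s) * (∑ j : Fin 3, dX j (dX j (fun z => V z i)) y)
  rw [ha]
  simp only [hc]
  simp only [hb, hval, Fin.sum_univ_three]
  ring

lemma contDiff_comp_i {V : Pt → Pt} (hV : ContDiff ℝ ∞ V) (i : Fin 3) :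
    ContDiff ℝ ∞ (fun y => V y i) :=
  (contDiff_pi.mp hV) i

lemma contDiff_advW {V : Pt → Pt} (hV : ContDiff ℝ ∞ V) (i : Fin 3) :
    ContDiff ℝ ∞ (advW V i) := by
  unfold advW
  apply ContDiff.sum
  intro j _
  exact (contDiff_comp_i hV j).mul (contDiff_dX_space (contDiff_comp_i hV i) j)

lemma contDiff_lapW {V : Pt → Pt} (hV : ContDiff ℝ ∞ V) (i : Fin 3) :
    ContDiff ℝ ∞ (lapW V i) := by
  unfold lapW
  apply ContDiff.sum
  intro j _
  exact contDiff_dX_space (contDiff_dX_space (contDiff_comp_i hV i) j) j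

/-- All iterated derivatives of the force of a glued schedule of smooth fields, in terms of
the derivatives of the speed factor and of the field of the current time interval. -/
theorem iterD_force (ν : ℝ) (W : ℤ → Pt → Pt) (hW : ∀ k, ContDiff ℝ ∞ (W k)) (i : Fin 3)
    (L : List (Option (Fin 3))) (t : ℝ) (x : Pt) :
    iterD L (fun s y => forceOf ν (gluedU W) s y i) t x
      = iteratedDeriv (L.count none + 1) thT t * iterDS L.reduceOption (fun y => W ⌊t⌋ y i) x
        + iteratedDeriv (L.count none) (fun s => thT s * thT s) t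
            * iterDS L.reduceOption (advW (W ⌊t⌋) i) x
        - ν * (iteratedDeriv (L.count none) thT t * iterDS L.reduceOption (lapW (W ⌊t⌋) i) x) := by
  set k : ℤ := ⌊t⌋ with hk
  have hUo : IsOpen {q : ℝ × Pt | (k : ℝ) - 1 / 8 < q.1 ∧ q.1 < (k : ℝ) + 1 + 1 / 8} := by
    have h1 : IsOpen {q : ℝ × Pt | (k : ℝ) - 1 / 8 < q.1} :=
      isOpen_lt continuous_const continuous_fst
    have h2 : IsOpen {q : ℝ × Pt | q.1 < (k : ℝ) + 1 + 1 / 8} :=
      isOpen_lt continuous_fst continuous_const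
    exact h1.inter h2
  have htU : ((t, x) : ℝ × Pt) ∈
      {q : ℝ × Pt | (k : ℝ) - 1 / 8 < q.1 ∧ q.1 < (k : ℝ) + 1 + 1 / 8} := by
    have h1 := Int.floor_le t
    have h2 := Int.lt_floor_add_one t
    constructor
    · show (k : ℝ) - 1 / 8 < t
      linarith
    · show t < (k : ℝ) + 1 + 1 / 8
      linarith
  let A : Fin 3 → ℝ → ℝ := fun m =>
    if m = 0 then deriv thT else if m = 1 then (fun s => thT s * thT s) else (fun s => -ν * thT s)
  let B : Fin 3 → Pt → ℝ := fun m =>
    if m = 0 then (fun y => W k y i) else if m = 1 then advW (W k) i else lapW (W k) i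
  have hg : ∀ q ∈ {q : ℝ × Pt | (k : ℝ) - 1 / 8 < q.1 ∧ q.1 < (k : ℝ) + 1 + 1 / 8},
      (fun s y => forceOf ν (gluedU W) s y i) q.1 q.2
        = (fun r y => ∑ m ∈ (Finset.univ : Finset (Fin 3)), A m r * B m y) q.1 q.2 := by
    intro q hq
    obtain ⟨hq1, hq2⟩ := hq
    have hε : 0 < min (q.1 - ((k : ℝ) - 1 / 8)) ((k : ℝ) + 1 + 1 / 8 - q.1) :=
      lt_min (by linarith) (by linarith)
    have hcongr := forceOf_congr ν (gluedU W) (fun r z => thT r • W k z) q.1 _ hε (by
      intro s hs y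
      rw [abs_lt] at hs
      have h1 := lt_of_lt_of_le hs.2 (min_le_right _ _)
      have h3 : -(q.1 - ((k : ℝ) - 1 / 8)) < s - q.1 :=
        lt_of_le_of_lt (neg_le_neg (min_le_left _ _)) hs.1
      exact gluedU_eq_near W k s (by linarith) (by linarith) y) q.2
    show forceOf ν (gluedU W) q.1 q.2 i = ∑ m : Fin 3, A m q.1 * B m q.2
    rw [hcongr, forceOf_tensor, Fin.sum_univ_three]
    simp [A, B]
  have h1 := iterD_congr_of_open (g := fun s y => forceOf ν (gluedU W) s y i)
    (g' := fun r y => ∑ m ∈ (Finset.univ : Finset (Fin 3)), A m r * B m y) hUo hg L (t, x) htU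
  have hA : ∀ m ∈ (Finset.univ : Finset (Fin 3)), ContDiff ℝ ∞ (A m) := by
    intro m _
    show ContDiff ℝ ∞ (if m = 0 then deriv thT else if m = 1 then (fun s => thT s * thT s)
      else (fun s => -ν * thT s))
    split_ifs
    · exact (contDiff_infty_iff_deriv.mp thT_contDiff).2
    · exact thT_contDiff.mul thT_contDiff
    · exact contDiff_const.mul thT_contDiff
  have hB : ∀ m ∈ (Finset.univ : Finset (Fin 3)), ContDiff ℝ ∞ (B m) := by
    intro m _
    show ContDiff ℝ ∞ (if m = 0 then (fun y => W k y i) else if m = 1 then advW (W k) i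
      else lapW (W k) i)
    split_ifs
    · exact contDiff_comp_i (hW k) i
    · exact contDiff_advW (hW k) i
    · exact contDiff_lapW (hW k) i
  have h2 := iterD_tensor_sum Finset.univ A B hA hB L t x
  have h3 : iterD L (fun s y => forceOf ν (gluedU W) s y i) t x
      = iterD L (fun r y => ∑ m ∈ (Finset.univ : Finset (Fin 3)), A m r * B m y) t x := h1
  rw [h3, h2, Fin.sum_univ_three]
  have hA0 : A 0 = deriv thT := by simp [A]
  have hA1 : A 1 = fun s => thT s * thT s := by simp [A]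
  have hA2 : A 2 = fun s => -ν * thT s := by simp [A]
  have hB0 : B 0 = fun y => W k y i := by simp [B]
  have hB1 : B 1 = advW (W k) i := by simp [B]
  have hB2 : B 2 = lapW (W k) i := by simp [B]
  rw [hA0, hA1, hA2, hB0, hB1, hB2]
  have e1 : iteratedDeriv (List.count none L) (deriv thT) t
      = iteratedDeriv (List.count none L + 1) thT t := by
    rw [iteratedDeriv_succ']
  have e2 : iteratedDeriv (List.count none L) (fun s => -ν * thT s) t
      = -ν * iteratedDeriv (List.count none L) thT t :=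
    iteratedDeriv_const_mul_field (-ν) thT
  rw [e1, e2]
  ring

end Vale.Agent.Lib.P113
end

section
open scoped ContDiff

namespace Vale.Agent.Lib.P113

/-- Queries about a force: a component, a list of directions of differentiation, a rational
time and a rational point. -/
abbrev Query : Type := Fin 3 × List (Option (Fin 3)) × QQ × (QQ × QQ × QQ)

/-- dropping the time directions of a list of directions is primitive recursive -/
theorem force_eff_primrec_reduceOption :
    Primrec (fun L : List (Option (Fin 3)) => L.reduceOption) := by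
  have h : Primrec (fun L : List (Option (Fin 3)) => L.filterMap (fun o => o)) :=
    Primrec.listFilterMap Primrec.id Primrec.snd.to₂
  exact h.of_eq (fun L => rfl)

theorem force_eff_count_eq (L : List (Option (Fin 3))) :
    L.count none = L.length - L.reduceOption.length := by
  induction L with
  | nil => rfl
  | cons o L ih =>
    have hle := List.reduceOption_length_le L
    cases o with
    | none =>
      rw [List.count_cons_self, List.reduceOption_cons_of_none, List.length_cons, ih]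
      omega
    | some j =>
      rw [List.count_cons_of_ne (by simp), List.reduceOption_cons_of_some, List.length_cons,
        List.length_cons, ih]
      omega

/-- counting the time directions of a list of directions is primitive recursive -/
theorem force_eff_primrec_count :
    Primrec (fun L : List (Option (Fin 3)) => L.count none) := by
  have h : Primrec (fun L : List (Option (Fin 3)) => L.length - L.reduceOption.length) :=
    Primrec.nat_sub.comp Primrec.list_length
      (Primrec.list_length.comp force_eff_primrec_reduceOption)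
  exact h.of_eq (fun L => (force_eff_count_eq L).symm)

/-- the fields of the schedule extended to negative indices are smooth -/
theorem force_eff_smooth {P : Type} [Primcodable P] (W : P → ℕ → Pt → Pt)
    (hW : ∀ i : Fin 3, Eff3On (Set.univ : Set (P × ℕ)) (fun a x => W a.1 a.2 x i)) (p : P)
    (k : ℤ) :
    ContDiff ℝ ∞ ((fun k : ℤ => if k < 0 then (fun _ : Pt => (0 : Pt)) else W p k.toNat) k) := by
  by_cases h : k < 0
  · simp only [if_pos h]
    exact contDiff_const
  · simp only [if_neg h]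
    exact contDiff_pi.2 (fun i => (hW i).1 (p, k.toNat) (Set.mem_univ _))

/-- the formula for the derivatives of the force, with the field of the current time interval
given separately -/
theorem force_eff_value (ν : ℝ) (W : ℤ → Pt → Pt) (hW : ∀ k, ContDiff ℝ ∞ (W k)) (i : Fin 3)
    (L : List (Option (Fin 3))) (t : ℝ) (x : Pt) (V : Pt → Pt) (hV : W ⌊t⌋ = V) :
    iterD L (fun s y => forceOf ν (gluedU W) s y i) t x
      = iteratedDeriv (L.count none + 1) thT t * iterDS L.reduceOption (fun y => V y i) x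
        + iteratedDeriv (L.count none) (fun s => thT s * thT s) t
            * iterDS L.reduceOption (advW V i) x
        - ν * (iteratedDeriv (L.count none) thT t * iterDS L.reduceOption (lapW V i) x) := by
  rw [iterD_force ν W hW i L t x, hV]

/-- where the field of the current time interval vanishes, so do all derivatives of the
force -/
theorem force_eff_zero (ν : ℝ) (W : ℤ → Pt → Pt) (hW : ∀ k, ContDiff ℝ ∞ (W k)) (i : Fin 3)
    (L : List (Option (Fin 3))) (t : ℝ) (x : Pt) (hV : W ⌊t⌋ = fun _ => 0) :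
    iterD L (fun s y => forceOf ν (gluedU W) s y i) t x = 0 := by
  rw [force_eff_value ν W hW i L t x (fun _ => 0) hV]
  have e1 : (fun y : Pt => (fun _ : Pt => (0 : Pt)) y i) = fun _ => (0 : ℝ) := rfl
  have e2 : advW (fun _ : Pt => (0 : Pt)) i = fun _ => (0 : ℝ) := by
    funext y
    unfold advW
    simp
  have e3 : lapW (fun _ : Pt => (0 : Pt)) i = fun _ => (0 : ℝ) := by
    funext y
    unfold lapW
    have e4 : ∀ j : Fin 3, dX j (dX j (fun z : Pt => (fun _ : Pt => (0 : Pt)) z i)) y = 0 := by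
      intro j
      rw [e1, dX_const 0 j, dX_const 0 j]
    simp only [e4]
    simp
  rw [e1, e2, e3, iterDS_const]
  simp

/-- a family of effective fields indexed by the three components is effective as a family
with the component as an additional parameter -/
theorem force_eff_fin3 {Q : Type} [Primcodable Q] (G : Fin 3 → Q → Pt → ℝ)
    (hG : ∀ i, Eff3On (Set.univ : Set Q) (G i)) :
    Eff3On (Set.univ : Set (Q × Fin 3)) (fun a => G a.2 a.1) := by
  have c : ∀ i : Fin 3, Eff3On (Set.univ : Set (Q × Fin 3)) (fun a => G i a.1) := fun i =>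
    Eff3On.comp (fun a : Q × Fin 3 => a.1) Computable.fst (fun _ _ => Set.mem_univ _) (hG i)
  have t : ∀ k : Fin 3, Computable (fun a : Q × Fin 3 => decide (a.2 = k)) := fun k =>
    (PrimrecPred.decide (Primrec.eq.comp Primrec.snd (Primrec.const k))).to_comp
  have g1 := Eff3On.ite (S := (Set.univ : Set (Q × Fin 3)) ∩ {a | decide (a.2 = 0) = false})
    (fun a => decide (a.2 = 1)) (t 1) ((c 1).mono (Set.subset_univ _))
    ((c 2).mono (Set.subset_univ _))
  have g0 := Eff3On.ite (S := (Set.univ : Set (Q × Fin 3))) (fun a => decide (a.2 = 0)) (t 0)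
    ((c 0).mono (Set.subset_univ _)) g1
  refine g0.congr (fun a _ => ?_)
  obtain ⟨q, i⟩ := a
  fin_cases i <;> simp

/-- the quadratic terms of effective fields are effective -/
theorem force_eff_adv {Q : Type} [Primcodable Q] (V : Q → Pt → Pt)
    (hV : ∀ i : Fin 3, Eff3On (Set.univ : Set Q) (fun a x => V a x i)) (i : Fin 3) :
    Eff3On (Set.univ : Set Q) (fun a => advW (V a) i) := by
  have h := (((hV 0).mul ((hV i).dX 0)).add ((hV 1).mul ((hV i).dX 1))).add
    ((hV 2).mul ((hV i).dX 2))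
  refine h.congr (fun a _ => ?_)
  funext y
  unfold advW
  rw [Fin.sum_univ_three]

/-- the Laplacian terms of effective fields are effective -/
theorem force_eff_lap {Q : Type} [Primcodable Q] (V : Q → Pt → Pt)
    (hV : ∀ i : Fin 3, Eff3On (Set.univ : Set Q) (fun a x => V a x i)) (i : Fin 3) :
    Eff3On (Set.univ : Set Q) (fun a => lapW (V a) i) := by
  have h := ((((hV i).dX 0).dX 0).add (((hV i).dX 1).dX 1)).add (((hV i).dX 2).dX 2)
  refine h.congr (fun a _ => ?_)
  funext y
  unfold lapW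
  rw [Fin.sum_univ_three]

/-- the value of the derivatives of the force at nonnegative times is computable -/
theorem force_eff_formula {P : Type} [Primcodable P] (ν : ℝ)
    (hν : CRealOn (Set.univ : Set Unit) (fun _ => ν)) (W : P → ℕ → Pt → Pt)
    (hW : ∀ i : Fin 3, Eff3On (Set.univ : Set (P × ℕ)) (fun a x => W a.1 a.2 x i)) :
    CRealOn (Set.univ : Set (P × Query))
      (fun a => iteratedDeriv (a.2.2.1.count none + 1) thT a.2.2.2.1.val
          * iterDS a.2.2.1.reduceOption (fun y => W a.1 (QQ.floorNat a.2.2.2.1) y a.2.1)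
              (QPt a.2.2.2.2)
        + iteratedDeriv (a.2.2.1.count none) (fun s => thT s * thT s) a.2.2.2.1.val
          * iterDS a.2.2.1.reduceOption (advW (W a.1 (QQ.floorNat a.2.2.2.1)) a.2.1)
              (QPt a.2.2.2.2)
        - ν * (iteratedDeriv (a.2.2.1.count none) thT a.2.2.2.1.val
          * iterDS a.2.2.1.reduceOption (lapW (W a.1 (QQ.floorNat a.2.2.2.1)) a.2.1)
              (QPt a.2.2.2.2))) := by
  have E0 : Eff3On (Set.univ : Set ((P × ℕ) × Fin 3)) (fun a x => W a.1.1 a.1.2 x a.2) :=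
    force_eff_fin3 (fun i (a : P × ℕ) x => W a.1 a.2 x i) hW
  have EA : Eff3On (Set.univ : Set ((P × ℕ) × Fin 3)) (fun a => advW (W a.1.1 a.1.2) a.2) :=
    force_eff_fin3 (fun i (a : P × ℕ) => advW (W a.1 a.2) i)
      (force_eff_adv (fun a : P × ℕ => W a.1 a.2) hW)
  have EL : Eff3On (Set.univ : Set ((P × ℕ) × Fin 3)) (fun a => lapW (W a.1.1 a.1.2) a.2) :=
    force_eff_fin3 (fun i (a : P × ℕ) => lapW (W a.1 a.2) i)
      (force_eff_lap (fun a : P × ℕ => W a.1 a.2) hW)
  have cp : Computable (fun a : P × Query => a.1) := Computable.fst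
  have ci : Computable (fun a : P × Query => a.2.1) := Computable.fst.comp Computable.snd
  have cL : Computable (fun a : P × Query => a.2.2.1) :=
    Computable.fst.comp (Computable.snd.comp Computable.snd)
  have ct : Computable (fun a : P × Query => a.2.2.2.1) :=
    Computable.fst.comp (Computable.snd.comp (Computable.snd.comp Computable.snd))
  have cx : Computable (fun a : P × Query => a.2.2.2.2) :=
    Computable.snd.comp (Computable.snd.comp (Computable.snd.comp Computable.snd))
  have cβ : Computable (fun a : P × Query => a.2.2.1.reduceOption) :=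
    force_eff_primrec_reduceOption.to_comp.comp cL
  have ca : Computable (fun a : P × Query => a.2.2.1.count none) :=
    force_eff_primrec_count.to_comp.comp cL
  have ca1 : Computable (fun a : P × Query => a.2.2.1.count none + 1) :=
    Primrec.succ.to_comp.comp ca
  have cm : Computable (fun a : P × Query => QQ.floorNat a.2.2.2.1) :=
    QQ.floorNat_primrec.to_comp.comp ct
  have cq : Computable (fun a : P × Query =>
      ((((a.1, QQ.floorNat a.2.2.2.1), a.2.1), a.2.2.1.reduceOption, a.2.2.2.2) :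
        ((P × ℕ) × Fin 3) × List (Fin 3) × (QQ × QQ × QQ))) :=
    Computable.pair (Computable.pair (Computable.pair cp cm) ci) (Computable.pair cβ cx)
  have T1 : CRealOn (Set.univ : Set (P × Query))
      (fun a => iteratedDeriv (a.2.2.1.count none + 1) thT a.2.2.2.1.val) :=
    CRealOn.comp (fun a : P × Query => ((), a.2.2.1.count none + 1, a.2.2.2.1))
      (Computable.pair (Computable.const ()) (Computable.pair ca1 ct))
      (fun _ _ => Set.mem_univ _) eff1_thT.2
  have T2 : CRealOn (Set.univ : Set (P × Query))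
      (fun a => iteratedDeriv (a.2.2.1.count none) (fun s => thT s * thT s) a.2.2.2.1.val) :=
    CRealOn.comp (fun a : P × Query => ((), a.2.2.1.count none, a.2.2.2.1))
      (Computable.pair (Computable.const ()) (Computable.pair ca ct))
      (fun _ _ => Set.mem_univ _) (Eff1On.mul eff1_thT eff1_thT).2
  have T3 : CRealOn (Set.univ : Set (P × Query))
      (fun a => iteratedDeriv (a.2.2.1.count none) thT a.2.2.2.1.val) :=
    CRealOn.comp (fun a : P × Query => ((), a.2.2.1.count none, a.2.2.2.1))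
      (Computable.pair (Computable.const ()) (Computable.pair ca ct))
      (fun _ _ => Set.mem_univ _) eff1_thT.2
  have S1 : CRealOn (Set.univ : Set (P × Query))
      (fun a => iterDS a.2.2.1.reduceOption (fun y => W a.1 (QQ.floorNat a.2.2.2.1) y a.2.1)
        (QPt a.2.2.2.2)) :=
    CRealOn.comp _ cq (fun _ _ => Set.mem_univ _) E0.2
  have S2 : CRealOn (Set.univ : Set (P × Query))
      (fun a => iterDS a.2.2.1.reduceOption (advW (W a.1 (QQ.floorNat a.2.2.2.1)) a.2.1)
        (QPt a.2.2.2.2)) :=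
    CRealOn.comp _ cq (fun _ _ => Set.mem_univ _) EA.2
  have S3 : CRealOn (Set.univ : Set (P × Query))
      (fun a => iterDS a.2.2.1.reduceOption (lapW (W a.1 (QQ.floorNat a.2.2.2.1)) a.2.1)
        (QPt a.2.2.2.2)) :=
    CRealOn.comp _ cq (fun _ _ => Set.mem_univ _) EL.2
  have Nν : CRealOn (Set.univ : Set (P × Query)) (fun _ => ν) :=
    CRealOn.comp (fun _ : P × Query => ()) (Computable.const ()) (fun _ _ => Set.mem_univ _) hν
  exact ((T1.mul S1).add (T2.mul S2)).sub (Nν.mul (T3.mul S3))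

/-- If the fields `W p n` of a schedule are uniformly effective, then all mixed derivatives of
the force of the glued velocity field at rational points are uniformly computable. -/
theorem force_eff {P : Type} [Primcodable P] (ν : ℝ)
    (hν : CRealOn (Set.univ : Set Unit) (fun _ => ν)) (W : P → ℕ → Pt → Pt)
    (hW : ∀ i : Fin 3, Eff3On (Set.univ : Set (P × ℕ)) (fun a x => W a.1 a.2 x i)) :
    CRealOn (Set.univ : Set (P × Query))
      (fun a => iterD a.2.2.1
        (fun s y => forceOf ν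
          (gluedU (fun k : ℤ => if k < 0 then (fun _ => 0) else W a.1 k.toNat)) s y a.2.1)
        a.2.2.2.1.val (QPt a.2.2.2.2)) := by
  have cb : Computable (fun a : P × Query => QQ.lt a.2.2.2.1 (QQ.ofNat 0)) :=
    QQ.lt_primrec.to_comp.comp
      (Computable.fst.comp (Computable.snd.comp (Computable.snd.comp Computable.snd)))
      (Computable.const _)
  have hmain := CRealOn.ite (S := (Set.univ : Set (P × Query)))
    (fun a => QQ.lt a.2.2.2.1 (QQ.ofNat 0)) cb (eff1_creal_zero _)
    ((force_eff_formula ν hν W hW).mono Set.inter_subset_left)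
  refine hmain.congr (fun a _ => ?_)
  have hs := force_eff_smooth W hW a.1
  by_cases hb : QQ.lt a.2.2.2.1 (QQ.ofNat 0) = true
  · rw [if_pos hb]
    have hneg : a.2.2.2.1.val < 0 := by
      have h := (QQ.lt_iff _ _).1 hb
      rwa [QQ.ofNat_val, Nat.cast_zero] at h
    have hfl : ⌊a.2.2.2.1.val⌋ < 0 := Int.floor_lt.2 (by exact_mod_cast hneg)
    symm
    refine force_eff_zero ν _ hs _ _ _ _ ?_
    simp only [if_pos hfl]
  · rw [if_neg hb]
    have hnn : 0 ≤ a.2.2.2.1.val := by
      by_contra hcon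
      apply hb
      rw [QQ.lt_iff, QQ.ofNat_val, Nat.cast_zero]
      exact not_le.1 hcon
    have hfl : ((QQ.floorNat a.2.2.2.1 : ℕ) : ℤ) = ⌊a.2.2.2.1.val⌋ := QQ.floorNat_val _ hnn
    have h1 : ¬ (⌊a.2.2.2.1.val⌋ < 0) := by
      rw [← hfl]
      exact not_lt.2 (Int.natCast_nonneg _)
    symm
    refine force_eff_value ν _ hs _ _ _ _ _ ?_
    simp only [if_neg h1]
    rw [← hfl, Int.toNat_natCast]

end Vale.Agent.Lib.P113
end

section
open scoped ContDiff

namespace Vale.Agent.Lib.P113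

/-- A computable function of a pair is computed, uniformly in the first entry, by the curried
codes of one code. -/
theorem exists_curry_code {α β σ : Type} [Primcodable α] [Primcodable β] [Primcodable σ]
    (f : α × β → σ) (hf : Computable f) :
    ∃ comp : α → Nat.Partrec.Code, Computable comp ∧
      ∀ (a : α) (b : β),
        (comp a).eval (Encodable.encode b) = Part.some (Encodable.encode (f (a, b))) := by
  have hp : Nat.Partrec (fun n => Part.bind (Encodable.decode (α := α × β) n)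
      fun a => (Part.some (f a)).map Encodable.encode) := hf
  obtain ⟨c, hc⟩ := Nat.Partrec.Code.exists_code.mp hp
  refine ⟨fun a => Nat.Partrec.Code.curry c (Encodable.encode a), ?_, ?_⟩
  · have h1 : Primrec (fun a : α => Nat.Partrec.Code.curry c (Encodable.encode a)) :=
      Nat.Partrec.Code.primrec₂_curry.comp (Primrec.const c) Primrec.encode
    exact h1.to_comp
  · intro a b
    rw [Nat.Partrec.Code.eval_curry, hc]
    have h2 : Nat.pair (Encodable.encode a) (Encodable.encode b) = Encodable.encode (a, b) := by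
      simp
    rw [h2]
    show (Part.bind (Encodable.decode (α := α × β) (Encodable.encode (a, b)))
      fun a => (Part.some (f a)).map Encodable.encode) = Part.some (Encodable.encode (f (a, b)))
    rw [Encodable.encodek]
    simp

/-- The force compiler: a computable map from descriptions of machines and input words to
programs for the forces. -/
theorem force_program (ν : ℝ) (hν : CRealOn (Set.univ : Set Unit) (fun _ => ν)) :
    ∃ comp : MDesc × List ℕ → Nat.Partrec.Code, Computable comp ∧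
      ∀ (d : MDesc) (w : List ℕ),
        ProgramFor (comp (d, w))
          (forceOf ν (uK d.toMachine (inputCode d.toMachine (d.word w)))) := by
  obtain ⟨F, hF, hbound⟩ := force_eff (P := MDesc × List ℕ) ν hν
    (fun p n => WNK p.1.toMachine (inputCode p.1.toMachine (p.1.word p.2)) n)
    (fun i => eff3_WNK i)
  have hf : Computable (fun a : (MDesc × List ℕ) ×
      (Fin 3 × List (Option (Fin 3)) × QQ × (QQ × QQ × QQ) × ℕ) =>
      F (a.1, (a.2.1, a.2.2.1, a.2.2.2.1, a.2.2.2.2.1)) a.2.2.2.2.2) := by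
    have hs : Computable (fun a : (MDesc × List ℕ) ×
        (Fin 3 × List (Option (Fin 3)) × QQ × (QQ × QQ × QQ) × ℕ) => a.2) := Computable.snd
    have h1 := Computable.fst.comp hs
    have hs2 := Computable.snd.comp hs
    have h2 := Computable.fst.comp hs2
    have hs3 := Computable.snd.comp hs2
    have h3 := Computable.fst.comp hs3
    have hs4 := Computable.snd.comp hs3
    have h4 := Computable.fst.comp hs4
    have h5 := Computable.snd.comp hs4
    exact hF.comp (Computable.fst.pair (h1.pair (h2.pair (h3.pair h4)))) h5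
  obtain ⟨comp, hcomp, heval⟩ := exists_curry_code _ hf
  refine ⟨comp, hcomp, ?_⟩
  intro d w i L t x n
  refine ⟨F ((d, w), (i, L, t, x)) n, ?_, ?_⟩
  · exact heval (d, w) (i, L, t, x, n)
  · exact hbound ((d, w), (i, L, t, x)) (Set.mem_univ _) n

end Vale.Agent.Lib.P113
end
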